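import Vale.Agent.P246.Q24.H1

/-!
# Block H: the order `ℤ[ω, i] ⊕ ℤ[ω, i] j`
-/

set_option linter.all false

namespace Vale.Agent.P246.Q24

instance : Nontrivial (Qd ZW true) := ⟨0, 1, by decide⟩

namespace Zet

/-- the norm form of `ℤ[ω]` -/
def nf (z : ZW) : ℤ := z.re * z.re - z.re * z.im + z.im * z.im

theorem nf_mul (x y : ZW) : nf (x * y) = nf x * nf y := by
  simp [nf]; ring

theorem nf_nonneg (z : ZW) : 0 ≤ nf z := by
  unfold nf
  nlinarith [mul_self_nonneg (z.re - z.im), mul_self_nonneg z.re, mul_self_nonneg z.im]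

theorem nf_eq_zero (z : ZW) (h : nf z = 0) : z = 0 := by
  unfold nf at h
  have h1 : z.re = 0 := by
    nlinarith [mul_self_nonneg (z.re - 2 * z.im), mul_self_nonneg z.re, mul_self_nonneg z.im]
  have h2 : z.im = 0 := by
    nlinarith [mul_self_nonneg (z.im - 2 * z.re), mul_self_nonneg z.re, mul_self_nonneg z.im]
  ext
  · simpa using h1
  · simpa using h2

/-- `P + Q √3` -/
def r3 (P Q : ℤ) : Qd ZW true := ⟨⟨P, 0⟩, ⟨Q, 2 * Q⟩⟩

theorem r3_mul (P Q P' Q' : ℤ) : r3 P Q * r3 P' Q' = r3 (P * P' + 3 * (Q * Q')) (P * Q' + Q * P') := by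
  ext <;> simp [r3] <;> ring

theorem r3_add (P Q P' Q' : ℤ) : r3 P Q + r3 P' Q' = r3 (P + P') (Q + Q') := by
  ext <;> simp [r3] <;> ring

theorem r3_inj {P Q P' Q' : ℤ} (h : r3 P Q = r3 P' Q') : P = P' ∧ Q = Q' :=
  ⟨congrArg (fun z : Qd ZW true => z.re.re) h, congrArg (fun z : Qd ZW true => z.im.re) h⟩

/-- rational part of `|x|²` -/
def pp (x : Qd ZW true) : ℤ := nf x.re + nf x.im
/-- irrational part of `|x|²` -/
def qq (x : Qd ZW true) : ℤ := (x.im * conj x.re).im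

theorem mul_conj (x : Qd ZW true) : x * conj x = r3 (pp x) (qq x) := by
  ext <;> simp [r3, pp, qq, nf] <;> ring

theorem conj_fixed {x : Qd ZW true} (h : conj x = x) : x = r3 x.re.re x.im.re := by
  have h1 := congrArg (fun z : Qd ZW true => z.re.im) h
  have h2 := congrArg (fun z : Qd ZW true => z.im.re) h
  simp at h1 h2
  ext <;> simp [r3] <;> omega

/-- the norm of `ℤ[ζ_12]` -/
def nn (x : Qd ZW true) : ℤ := nf (x.re * x.re + x.im * x.im)

theorem nn_mul (x y : Qd ZW true) : nn (x * y) = nn x * nn y := by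
  rw [nn, nn, nn, ← nf_mul]
  congr 1
  simp
  ring

theorem nn_nonneg (x : Qd ZW true) : 0 ≤ nn x := nf_nonneg _

theorem nn_eq (x : Qd ZW true) : nn x = pp x * pp x - 3 * (qq x * qq x) := by
  simp [nn, pp, qq, nf]; ring

theorem pp_nonneg (x : Qd ZW true) : 0 ≤ pp x := add_nonneg (nf_nonneg _) (nf_nonneg _)

theorem nn_le (x : Qd ZW true) : nn x ≤ pp x * pp x := by
  rw [nn_eq]
  nlinarith [mul_self_nonneg (qq x)]

theorem nn_eq_zero (x : Qd ZW true) (h : nn x = 0) : x = 0 := by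
  have h1 := nf_eq_zero _ h
  -- `x.re² + x.im² = 0` in `ℤ[ω]` forces `x = 0`
  rw [nn_eq] at h
  have h2 := pp_nonneg x
  -- `P² = 3 Q²`
  have h3 : pp x = 0 := by
    by_contra hP
    have hq : qq x ≠ 0 := by
      intro hq
      rw [hq] at h
      apply hP
      nlinarith
    have h4 : (pp x) * (pp x) = 3 * ((qq x) * (qq x)) := by linarith
    have h5 : Irrational (Real.sqrt 3) := Nat.prime_three.irrational_sqrt
    apply h5
    refine ⟨(pp x : ℚ) / |(qq x : ℚ)|, ?_⟩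
    have hq' : (0 : ℝ) < |(qq x : ℝ)| := abs_pos.2 (by exact_mod_cast hq)
    have h6 : ((pp x : ℝ) / |(qq x : ℝ)|) ^ 2 = 3 := by
      rw [div_pow, sq_abs, div_eq_iff (by positivity)]
      have : ((pp x : ℝ)) * (pp x) = 3 * ((qq x) * (qq x)) := by exact_mod_cast h4
      nlinarith
    have h7 : 0 ≤ (pp x : ℝ) / |(qq x : ℝ)| := by
      have : (0 : ℝ) ≤ pp x := by exact_mod_cast h2
      positivity
    push_cast
    rw [← h6, Real.sqrt_sq h7]
  have h4 := nf_nonneg x.re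
  have h5 := nf_nonneg x.im
  unfold pp at h3
  ext : 1
  · exact nf_eq_zero _ (by linarith)
  · exact nf_eq_zero _ (by linarith)

/-- rounding in the hexagonal lattice -/
theorem hex (x y m : ℤ) (hm : 0 < m) : ∃ q r : ℤ,
    3 * nf ⟨x - q * m, y - r * m⟩ ≤ m * m := by
  have hx1 := Int.emod_nonneg x hm.ne'
  have hx2 := Int.emod_lt_of_pos x hm
  have hy1 := Int.emod_nonneg y hm.ne'
  have hy2 := Int.emod_lt_of_pos y hm
  have hx3 := Int.emod_add_mul_ediv x m
  have hy3 := Int.emod_add_mul_ediv y m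
  set x0 := x % m
  set y0 := y % m
  set qx := x / m
  set qy := y / m
  have key : ∀ a b : ℤ, nf ⟨x - (qx + a) * m, y - (qy + b) * m⟩ =
      (x0 - a * m) * (x0 - a * m) - (x0 - a * m) * (y0 - b * m) + (y0 - b * m) * (y0 - b * m) := by
    intro a b
    have e1 : x - (qx + a) * m = x0 - a * m := by linear_combination -hx3
    have e2 : y - (qy + b) * m = y0 - b * m := by linear_combination -hy3
    rw [e1, e2, nf]
  by_contra hcon
  push Not at hcon
  have h0 := hcon (qx + 0) (qy + 0)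
  have h1 := hcon (qx + 1) (qy + 0)
  have h2 := hcon (qx + 1) (qy + 1)
  have h3 := hcon (qx + 0) (qy + 1)
  rw [key] at h0 h1 h2 h3
  rcases le_total y0 x0 with h | h
  · have l0 : 0 < m - x0 := by linarith
    have l1 : 0 ≤ x0 - y0 := by linarith
    have g0 := mul_lt_mul_of_pos_left h0 l0
    have g1 := mul_le_mul_of_nonneg_left h1.le l1
    have g2 := mul_le_mul_of_nonneg_left h2.le hy1
    nlinarith [mul_nonneg hm.le (mul_self_nonneg ((m - x0) - (x0 - y0))),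
      mul_nonneg hm.le (mul_self_nonneg ((m - x0) - y0)),
      mul_nonneg hm.le (mul_self_nonneg ((x0 - y0) - y0))]
  · have l0 : 0 < m - y0 := by linarith
    have l1 : 0 ≤ y0 - x0 := by linarith
    have g0 := mul_lt_mul_of_pos_left h0 l0
    have g1 := mul_le_mul_of_nonneg_left h3.le l1
    have g2 := mul_le_mul_of_nonneg_left h2.le hx1
    nlinarith [mul_nonneg hm.le (mul_self_nonneg ((m - y0) - (y0 - x0))),
      mul_nonneg hm.le (mul_self_nonneg ((m - y0) - x0)),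
      mul_nonneg hm.le (mul_self_nonneg ((y0 - x0) - x0))]

/-- the cofactor of `n` -/
def cof (n : Qd ZW true) : Qd ZW true := conj n * r3 (pp n) (-(qq n))

theorem mul_cof (n : Qd ZW true) : n * cof n = r3 (nn n) 0 := by
  rw [cof, ← mul_assoc, mul_conj, r3_mul, nn_eq]
  congr 1 <;> ring

theorem r3_zero_mul (m : ℤ) (x : Qd ZW true) : x * r3 m 0 =
    ⟨⟨x.re.re * m, x.re.im * m⟩, ⟨x.im.re * m, x.im.im * m⟩⟩ := by
  ext <;> simp [r3]

theorem nn_pos {n : Qd ZW true} (hn : n ≠ 0) : 0 < nn n :=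
  lt_of_le_of_ne (nn_nonneg n) (fun h => hn (nn_eq_zero n h.symm))

/-- division with small remainder -/
theorem div (α n : Qd ZW true) (hn : n ≠ 0) : ∃ q,
    3 * nf ((α - q * n) * cof n).re ≤ nn n * nn n ∧
    3 * nf ((α - q * n) * cof n).im ≤ nn n * nn n := by
  have hm := nn_pos hn
  obtain ⟨q1, q2, h1⟩ := hex (α * cof n).re.re (α * cof n).re.im (nn n) hm
  obtain ⟨q3, q4, h2⟩ := hex (α * cof n).im.re (α * cof n).im.im (nn n) hm
  refine ⟨⟨⟨q1, q2⟩, ⟨q3, q4⟩⟩, ?_⟩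
  have h3 : (α - ⟨⟨q1, q2⟩, ⟨q3, q4⟩⟩ * n) * cof n =
      ⟨⟨(α * cof n).re.re - q1 * nn n, (α * cof n).re.im - q2 * nn n⟩,
       ⟨(α * cof n).im.re - q3 * nn n, (α * cof n).im.im - q4 * nn n⟩⟩ := by
    rw [sub_mul, mul_assoc, mul_cof, r3_zero_mul]
    rfl
  rw [h3]
  exact ⟨h1, h2⟩

theorem nn_r3 (P Q : ℤ) : nn (r3 P Q) = (P * P - 3 * (Q * Q)) * (P * P - 3 * (Q * Q)) := by
  simp [nn, nf, r3]; ring

theorem nn_cof {n : Qd ZW true} (hn : n ≠ 0) : nn (cof n) = nn n * nn n * nn n := by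
  have h1 := congrArg nn (mul_cof n)
  rw [nn_mul, nn_r3] at h1
  have hm := nn_pos hn
  apply mul_left_cancel₀ hm.ne'
  rw [h1]
  ring

theorem euclid (α n : Qd ZW true) (hn : n ≠ 0) : ∃ q, nn (α - q * n) < nn n := by
  obtain ⟨q, h1, h2⟩ := div α n hn
  refine ⟨q, ?_⟩
  have hm := nn_pos hn
  have h3 := nn_le ((α - q * n) * cof n)
  rw [nn_mul, nn_cof hn] at h3
  have h4 : pp ((α - q * n) * cof n) = nf ((α - q * n) * cof n).re +
    nf ((α - q * n) * cof n).im := rfl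
  rw [h4] at h3
  have h5 := nf_nonneg ((α - q * n) * cof n).re
  have h6 := nf_nonneg ((α - q * n) * cof n).im
  set A := nf ((α - q * n) * cof n).re
  set B := nf ((α - q * n) * cof n).im
  set m := nn n
  by_contra hcon
  have h7 : m ≤ nn (α - q * n) := not_lt.1 hcon
  have h8 : m * (m * m * m) ≤ nn (α - q * n) * (m * m * m) :=
    mul_le_mul_of_nonneg_right h7 (by positivity)
  have h9 : 3 * (A + B) ≤ 2 * (m * m) := by linarith
  have h10 : (3 * (A + B)) * (3 * (A + B)) ≤ (2 * (m * m)) * (2 * (m * m)) :=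
    mul_self_le_mul_self (by positivity) h9
  have h11 : 0 < m * m * m * m := by positivity
  nlinarith

/-- reduction by units -/
theorem reduce : ∀ (k : ℕ) (p q : ℤ), p.toNat ≤ k → 0 < p → 3 * (q * q) < p * p →
    ∃ (η : Qd ZW true) (p' q' : ℤ), η ≠ 0 ∧ η * conj η * r3 p q = r3 p' q' ∧
      p' * p' - 3 * (q' * q') = p * p - 3 * (q * q) ∧ 0 < p' ∧ 9 * (q' * q') ≤ p' * p' := by
  intro k
  induction k with
  | zero => intro p q h1 h2; omega
  | succ k ih =>
    intro p q h1 h2 h3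
    by_cases h4 : 9 * (q * q) ≤ p * p
    · exact ⟨1, p, q, one_ne_zero, by rw [map_one, one_mul, one_mul], rfl, h2, h4⟩
    · have h4' := not_le.1 h4
      rcases le_total 0 q with hq | hq
      · have h5 : p < 3 * q := by nlinarith
        have h6 : 3 * q < 2 * p := by nlinarith
        obtain ⟨η, p', q', e0, e1, e2, e3, e4⟩ := ih (2 * p - 3 * q) (2 * q - p) (by omega)
          (by linarith) (by nlinarith)
        have hη : (⟨1, ⟨0, -1⟩⟩ : Qd ZW true) * conj ⟨1, ⟨0, -1⟩⟩ = r3 2 (-1) := by decide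
        refine ⟨η * ⟨1, ⟨0, -1⟩⟩, p', q', ?_, ?_, ?_, e3, e4⟩
        · intro h0
          have h7 := congrArg nn h0
          have h8 : nn (⟨1, ⟨0, -1⟩⟩ : Qd ZW true) = 1 := by decide
          rw [nn_mul, h8, mul_one] at h7
          exact e0 (nn_eq_zero η (h7.trans (by decide)))
        · rw [← e1, map_mul]
          have : η * ⟨1, ⟨0, -1⟩⟩ * (conj η * conj ⟨1, ⟨0, -1⟩⟩) * r3 p q =
            η * conj η * ((⟨1, ⟨0, -1⟩⟩ : Qd ZW true) * conj ⟨1, ⟨0, -1⟩⟩ * r3 p q) := by ring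
          rw [this, hη, r3_mul]
          congr 2 <;> ring
        · rw [e2]; ring
      · have h5 : p < -(3 * q) := by nlinarith
        have h6 : -(3 * q) < 2 * p := by nlinarith
        obtain ⟨η, p', q', e0, e1, e2, e3, e4⟩ := ih (2 * p + 3 * q) (2 * q + p) (by omega)
          (by linarith) (by nlinarith)
        have hη : (⟨1, ⟨0, 1⟩⟩ : Qd ZW true) * conj ⟨1, ⟨0, 1⟩⟩ = r3 2 1 := by decide
        refine ⟨η * ⟨1, ⟨0, 1⟩⟩, p', q', ?_, ?_, ?_, e3, e4⟩
        · intro h0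
          have h7 := congrArg nn h0
          have h8 : nn (⟨1, ⟨0, 1⟩⟩ : Qd ZW true) = 1 := by decide
          rw [nn_mul, h8, mul_one] at h7
          exact e0 (nn_eq_zero η (h7.trans (by decide)))
        · rw [← e1, map_mul]
          have : η * ⟨1, ⟨0, 1⟩⟩ * (conj η * conj ⟨1, ⟨0, 1⟩⟩) * r3 p q =
            η * conj η * ((⟨1, ⟨0, 1⟩⟩ : Qd ZW true) * conj ⟨1, ⟨0, 1⟩⟩ * r3 p q) := by ring
          rw [this, hη, r3_mul]
          congr 2 <;> ring
        · rw [e2]; ring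

theorem sum_conj (x η : Qd ZW true) : x * conj x + η * conj η = r3 (pp x + pp η) (qq x + qq η) := by
  rw [mul_conj, mul_conj, r3_add]

theorem pos_of_nn {w : Qd ZW true} (hw : w ≠ 0) : 0 < pp w ∧ 3 * (qq w * qq w) < pp w * pp w := by
  have h1 := nn_pos hw
  rw [nn_eq] at h1
  have h2 := pp_nonneg w
  refine ⟨lt_of_le_of_ne h2 ?_, by linarith⟩
  intro h3
  rw [← h3] at h1
  nlinarith [mul_self_nonneg (qq w)]

theorem pp_qq (x : Qd ZW true) : 3 * (qq x * qq x) ≤ pp x * pp x := by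
  have h1 := nn_nonneg x
  rw [nn_eq] at h1
  linarith

theorem arith {m p q P Q u v : ℤ} (hm : p * p - 3 * (q * q) = m) (h14 : 14 ≤ m)
    (h4 : 9 * (q * q) ≤ p * p) (hp : 0 < p)
    (hPQ : (P * P - 3 * (Q * Q)) * (m * m * m) = (u + m * p) * (u + m * p) - 3 * (v * v))
    (hu0 : 0 ≤ u) (hu : 3 * u ≤ 2 * (m * m)) : P * P - 3 * (Q * Q) < m := by
  have hm0 : 0 < m := by linarith
  have h9 : 3 * p < m := by
    by_contra hcon
    have h10 : m ≤ 3 * p := not_lt.1 hcon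
    have h11 : m * m ≤ (3 * p) * (3 * p) := mul_self_le_mul_self hm0.le h10
    have h12 : 2 * (p * p) ≤ 3 * m := by linarith
    nlinarith
  have h10 : m * (3 * p) ≤ m * m := mul_le_mul_of_nonneg_left h9.le hm0.le
  have h10' : m * (3 * p) < m * m := mul_lt_mul_of_pos_left h9 hm0
  have h11 : u + m * p < m * m := by linarith
  have h0 : 0 ≤ u + m * p := by positivity
  have h12 : (u + m * p) * (u + m * p) < (m * m) * (m * m) :=
    mul_self_lt_mul_self h0 h11
  by_contra hcon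
  have h13 : m ≤ P * P - 3 * (Q * Q) := not_lt.1 hcon
  have h14 : m * (m * m * m) ≤ (P * P - 3 * (Q * Q)) * (m * m * m) :=
    mul_le_mul_of_nonneg_right h13 (by positivity)
  have h15 := mul_self_nonneg v
  have h16 : m * (m * m * m) = (m * m) * (m * m) := by ring
  linarith

theorem tp_mul {p1 q1 p2 q2 : ℤ} (h1 : 0 ≤ p1) (h2 : 0 ≤ p2) (h3 : 3 * (q1 * q1) ≤ p1 * p1)
    (h4 : 3 * (q2 * q2) ≤ p2 * p2) : 3 * (q1 * q2) ≤ p1 * p2 := by
  by_contra hcon
  have a6 : p1 * p2 < 3 * (q1 * q2) := not_le.1 hcon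
  have a7 : 0 ≤ p1 * p2 := mul_nonneg h1 h2
  have a8 : (p1 * p2) * (p1 * p2) < (3 * (q1 * q2)) * (3 * (q1 * q2)) :=
    mul_self_lt_mul_self a7 a6
  have a9 : (3 * (q1 * q1)) * (3 * (q2 * q2)) ≤ (p1 * p1) * (p2 * p2) :=
    mul_le_mul h3 h4 (by nlinarith [mul_self_nonneg q2]) (mul_self_nonneg _)
  nlinarith

theorem tp_add {p1 q1 p2 q2 : ℤ} (h1 : 0 ≤ p1) (h2 : 0 ≤ p2) (h3 : 3 * (q1 * q1) ≤ p1 * p1)
    (h4 : 3 * (q2 * q2) ≤ p2 * p2) :
    0 ≤ (p1 + p2) * (p1 + p2) - 3 * ((q1 + q2) * (q1 + q2)) := by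
  have h5 := tp_mul h1 h2 h3 h4
  have : (p1 + p2) * (p1 + p2) - 3 * ((q1 + q2) * (q1 + q2)) = (p1 * p1 - 3 * (q1 * q1)) +
      (p2 * p2 - 3 * (q2 * q2)) + 2 * (p1 * p2 - 3 * (q1 * q2)) := by ring
  rw [this]
  linarith

theorem cof_mul_conj (w : Qd ZW true) :
    cof w * conj (cof w) = r3 (nn w) 0 * r3 (pp w) (-(qq w)) := by
  have h5 : conj (r3 (pp w) (-(qq w))) = r3 (pp w) (-(qq w)) := by
    ext <;> simp [r3]; ring
  rw [← mul_cof, cof, map_mul, Invo.conj_conj, h5]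
  ring

theorem hP (w : Qd ZW true) (hB : 14 ≤ nn w) (hw : w ≠ 0) : ∃ η, η ≠ 0 ∧ ∀ α, ∃ q,
    nn ((α - q * w) * conj (α - q * w) + η * conj η) < nn w * nn w := by
  obtain ⟨hp, hq⟩ := pos_of_nn hw
  obtain ⟨η, p, q, hη, e1, e2, e3, e4⟩ := reduce _ (pp w) (-(qq w)) le_rfl hp (by linarith)
  have hm : p * p - 3 * (q * q) = nn w := by rw [e2, nn_eq]; ring
  refine ⟨η, hη, fun α => ?_⟩
  obtain ⟨s, h1, h2⟩ := div α w hw
  refine ⟨s, ?_⟩
  have f1 := cof_mul_conj w
  have hmm : nn w = pp w * pp w - 3 * (qq w * qq w) := nn_eq w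
  have hm0 : 0 < nn w := nn_pos hw
  generalize α - s * w = x at *
  generalize nn w = m at *
  have f2 : (x * conj x + η * conj η) * (r3 m 0 * r3 (pp w) (-(qq w))) =
      r3 (pp (x * cof w) + m * p) (qq (x * cof w) + m * q) := by
    have h6 : (x * conj x + η * conj η) * (r3 m 0 * r3 (pp w) (-(qq w))) =
        (x * cof w) * conj (x * cof w) + r3 m 0 * (η * conj η * r3 (pp w) (-(qq w))) := by
      rw [add_mul, ← f1, map_mul]
      rw [show x * cof w * (conj x * conj (cof w)) = x * conj x * (cof w * conj (cof w)) by ring]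
      rw [f1]
      ring
    rw [h6, e1, mul_conj, r3_mul, r3_add]
    congr 1 <;> ring
  rw [sum_conj, r3_mul, r3_mul] at f2
  obtain ⟨g1, g2⟩ := r3_inj f2
  rw [sum_conj, nn_r3]
  have hpp : pp (x * cof w) = nf (x * cof w).re + nf (x * cof w).im := rfl
  have h7 : 3 * pp (x * cof w) ≤ 2 * (m * m) := by rw [hpp]; linarith
  have h8 := pp_nonneg (x * cof w)
  have h13 := tp_add (pp_nonneg x) (pp_nonneg η) (pp_qq x) (pp_qq η)
  generalize pp x + pp η = P at *
  generalize qq x + qq η = Q at *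
  have hPQ : (P * P - 3 * (Q * Q)) * (m * m * m) =
      (pp (x * cof w) + m * p) * (pp (x * cof w) + m * p) -
      3 * ((qq (x * cof w) + m * q) * (qq (x * cof w) + m * q)) := by
    rw [← g1, ← g2]
    linear_combination (P * P - 3 * (Q * Q)) * m * m * hmm
  have h12 := arith hm hB e4 e3 hPQ h8 h7
  exact mul_self_lt_mul_self h13 h12

end Zet

end Vale.Agent.P246.Q24
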