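import Vale.Agent.P246.Q24.C2

/-!
# Block A: exactness of Fox complexes in degrees zero and one
-/

set_option linter.all false

namespace Vale.Agent.P246.Q24

open Vale.Agent.P246 Function

section General

variable {G : Type} [Group G]

section Words

variable {m : ℕ} (x : Fin m → G)

/-- Fox derivatives of an element of the free group -/
noncomputable def fox (w : FreeGroup (Fin m)) : Fin m → ZG G := foxWord x w.toWord

theorem wordVal_eq (v : List (Fin m × Bool)) : wordVal x v = FreeGroup.lift x (FreeGroup.mk v) := by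
  induction v with
  | nil => rfl
  | cons a v ih =>
    obtain ⟨i, b⟩ := a
    have h : (FreeGroup.mk ((i, b) :: v) : FreeGroup (Fin m))
        = FreeGroup.mk [(i, b)] * FreeGroup.mk v := rfl
    rw [h, map_mul]
    cases b
    · have h2 : FreeGroup.lift x (FreeGroup.mk [(i, false)]) = (x i)⁻¹ := by
        have : (FreeGroup.mk [(i, false)] : FreeGroup (Fin m)) = (FreeGroup.of i)⁻¹ := rfl
        rw [this, map_inv, FreeGroup.lift_apply_of]
      rw [wordVal, ih, h2]
    · have h2 : FreeGroup.lift x (FreeGroup.mk [(i, true)]) = x i := FreeGroup.lift_apply_of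
      rw [wordVal, ih, h2]

theorem fox_mk (v : List (Fin m × Bool)) : fox x (FreeGroup.mk v) = foxWord x v :=
  foxWord_toWord_mk x v

theorem fox_mul (v w : FreeGroup (Fin m)) :
    fox x (v * w) = fox x v + elt (FreeGroup.lift x v) • fox x w := by
  have h1 : v * w = FreeGroup.mk (v.toWord ++ w.toWord) := by
    rw [← FreeGroup.mul_mk, FreeGroup.mk_toWord, FreeGroup.mk_toWord]
  rw [h1, fox_mk, foxWord_append, wordVal_eq, FreeGroup.mk_toWord]
  rfl

theorem fox_one : fox x 1 = 0 := by
  rw [fox, FreeGroup.toWord_one, foxWord_nil]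

theorem fox_inv (v : FreeGroup (Fin m)) :
    fox x v⁻¹ = - (elt (FreeGroup.lift x v)⁻¹ • fox x v) := by
  have h := fox_mul x v⁻¹ v
  rw [inv_mul_cancel, fox_one, map_inv] at h
  exact eq_neg_of_add_eq_zero_left h.symm

theorem fox_of (i : Fin m) : fox x (FreeGroup.of i) = Pi.single i 1 := by
  have : (FreeGroup.of i : FreeGroup (Fin m)) = FreeGroup.mk [(i, true)] := rfl
  rw [this, fox_mk, foxWord_true, foxWord_nil, smul_zero, add_zero]

theorem fox_formula (w : FreeGroup (Fin m)) :
    Fintype.linearCombination (ZG G) (fun i => elt (x i) - 1) (fox x w)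
      = elt (FreeGroup.lift x w) - 1 := by
  have := foxWord_formula x w.toWord
  rw [FreeGroup.mk_toWord] at this
  exact this

end Words

theorem fox_aug (P : FinPresentation G) (x : ZG G) : aug G x = 0 ↔ ∃ u, foxD1 P u = x := by
  constructor
  · intro hx
    have key : ∀ x : ZG G, x - ((aug G x : ℤ) : ZG G) ∈ LinearMap.range (foxD1 P) := by
      intro x
      induction x using MonoidAlgebra.induction_linear with
      | zero => rw [map_zero, Int.cast_zero, sub_zero]; exact zero_mem _
      | add s t hs ht =>
        have : s + t - ((aug G (s + t) : ℤ) : ZG G)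
            = (s - ((aug G s : ℤ) : ZG G)) + (t - ((aug G t : ℤ) : ZG G)) := by
          rw [map_add, Int.cast_add]
          abel
        rw [this]
        exact add_mem hs ht
      | single g n =>
        have h1 : (MonoidAlgebra.single g n : ZG G) = n • elt g := by
          rw [elt, MonoidAlgebra.smul_single, smul_eq_mul, mul_one]
        obtain ⟨w, rfl⟩ := P.surj g
        have h2 : (n • elt (FreeGroup.lift P.x w) : ZG G)
            - ((aug G (n • elt (FreeGroup.lift P.x w)) : ℤ) : ZG G)
            = n • (elt (FreeGroup.lift P.x w) - 1) := by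
          rw [map_zsmul, aug_elt, smul_sub]
          simp
        rw [h1, h2, ← fox_formula]
        have h3 : foxD1 P (fox P.x w) ∈ LinearMap.range (foxD1 P) := ⟨_, rfl⟩
        exact zsmul_mem h3 n
    have h := key x
    rw [hx, Int.cast_zero, sub_zero] at h
    exact h
  · rintro ⟨u, rfl⟩
    have h : foxD1 P u = ∑ i, u i • (elt (P.x i) - 1) := Fintype.linearCombination_apply _ _ _
    rw [h, map_sum]
    apply Finset.sum_eq_zero
    intro i _
    rw [smul_eq_mul, map_mul, map_sub, aug_elt, map_one, sub_self, mul_zero]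

/-- the Fox derivatives of relations are in the image of the second boundary map -/
theorem fox_ker (P : FinPresentation G) (w : FreeGroup (Fin P.gens))
    (hw : FreeGroup.lift P.x w = 1) : fox P.x w ∈ LinearMap.range (foxD2 P) := by
  let N : Subgroup (FreeGroup (Fin P.gens)) :=
    { carrier := {w | FreeGroup.lift P.x w = 1 ∧ fox P.x w ∈ LinearMap.range (foxD2 P)}
      mul_mem' := by
        rintro v w ⟨h1, h2⟩ ⟨h3, h4⟩
        refine ⟨by rw [map_mul, h1, h3, one_mul], ?_⟩
        rw [fox_mul]
        exact add_mem h2 (Submodule.smul_mem _ _ h4)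
      one_mem' := ⟨map_one _, by rw [fox_one]; exact zero_mem _⟩
      inv_mem' := by
        rintro v ⟨h1, h2⟩
        refine ⟨by rw [map_inv, h1, inv_one], ?_⟩
        rw [fox_inv]
        exact neg_mem (Submodule.smul_mem _ _ h2) }
  have hN : N.Normal := by
    constructor
    rintro w ⟨h1, h2⟩ v
    refine ⟨by rw [map_mul, map_mul, h1, mul_one, map_inv, mul_inv_cancel], ?_⟩
    have h3 : fox P.x (v * w * v⁻¹) = elt (FreeGroup.lift P.x v) • fox P.x w := by
      rw [fox_mul, fox_mul, map_mul, h1, mul_one, fox_inv, smul_neg, ← smul_assoc, smul_eq_mul,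
        elt_mul_elt, mul_inv_cancel, elt_one, one_smul]
      abel
    rw [h3]
    exact Submodule.smul_mem _ _ h2
  have hle : Subgroup.normalClosure (Set.range P.r) ≤ N := by
    apply Subgroup.normalClosure_le_normal
    rintro _ ⟨j, rfl⟩
    refine ⟨?_, ?_⟩
    · have : P.r j ∈ (FreeGroup.lift P.x).ker := by
        rw [P.ker_eq]
        exact Subgroup.subset_normalClosure ⟨j, rfl⟩
      exact this
    · refine ⟨Pi.single j 1, ?_⟩
      rw [foxD2, Fintype.linearCombination_apply_single, one_smul]
      rfl
  rw [← P.ker_eq] at hle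
  exact (hle hw).2

theorem fox_exact (P : FinPresentation G) (u : Fin P.gens → ZG G) (hu : foxD1 P u = 0) :
    ∃ t, foxD2 P t = u := by
  let M := (Fin P.gens → ZG G) ⧸ LinearMap.range (foxD2 P)
  let π : (Fin P.gens → ZG G) →ₗ[ZG G] M := (LinearMap.range (foxD2 P)).mkQ
  -- the crossed homomorphism
  choose σ hσ using P.surj
  let s : G → M := fun g => π (fox P.x (σ g))
  have hwd : ∀ w, π (fox P.x w) = s (FreeGroup.lift P.x w) := by
    intro w
    have h1 : FreeGroup.lift P.x ((σ (FreeGroup.lift P.x w))⁻¹ * w) = 1 := by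
      rw [map_mul, map_inv, hσ, inv_mul_cancel]
    have h2 := fox_ker P _ h1
    have h3 : w = σ (FreeGroup.lift P.x w) * ((σ (FreeGroup.lift P.x w))⁻¹ * w) := by
      rw [mul_inv_cancel_left]
    have h4 : fox P.x w = fox P.x (σ (FreeGroup.lift P.x w))
        + elt (FreeGroup.lift P.x (σ (FreeGroup.lift P.x w))) •
          fox P.x ((σ (FreeGroup.lift P.x w))⁻¹ * w) := by
      conv_lhs => rw [h3]
      rw [fox_mul]
    rw [h4, map_add]
    have h5 : π (elt (FreeGroup.lift P.x (σ (FreeGroup.lift P.x w))) •
          fox P.x ((σ (FreeGroup.lift P.x w))⁻¹ * w)) = 0 := by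
      apply (Submodule.Quotient.mk_eq_zero _).2
      exact Submodule.smul_mem _ _ h2
    rw [h5, add_zero]
  have hs : ∀ g h, s (g * h) = s g + elt g • s h := by
    intro g h
    obtain ⟨v, rfl⟩ := P.surj g
    obtain ⟨w, rfl⟩ := P.surj h
    rw [← map_mul, ← hwd, fox_mul, map_add, map_smul, hwd, hwd]
  -- the additive extension
  let D : ZG G →+ M := (Finsupp.liftAddHom (fun g => (zmultiplesHom M (s g)))).comp
    (MonoidAlgebra.coeffAddEquiv (R := ℤ) (M := G)).toAddMonoidHom
  have hD : ∀ g, D (elt g) = s g := by
    intro g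
    change (Finsupp.liftAddHom (fun g => (zmultiplesHom M (s g)))) (Finsupp.single g 1) = s g
    rw [Finsupp.liftAddHom_apply_single]
    simp
  have hDa : ∀ (a : ZG G) (g : G), D (a * (elt g - 1)) = a • s g := by
    intro a g
    induction a using MonoidAlgebra.induction_linear with
    | zero => rw [zero_mul, map_zero, zero_smul]
    | add a b ha hb => rw [add_mul, map_add, ha, hb, add_smul]
    | single h n =>
      have h1 : (MonoidAlgebra.single h n : ZG G) = n • elt h := by
        rw [elt, MonoidAlgebra.smul_single, smul_eq_mul, mul_one]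
      rw [h1, smul_mul_assoc, map_zsmul, mul_sub, mul_one, elt_mul_elt, map_sub, hD, hD, hs,
        add_sub_cancel_left, smul_assoc]
  have key : D (foxD1 P u) = π u := by
    have h : foxD1 P u = ∑ i, u i * (elt (P.x i) - 1) := Fintype.linearCombination_apply _ _ _
    rw [h, map_sum]
    have h2 : ∀ i, D (u i * (elt (P.x i) - 1)) = π (Pi.single i (u i)) := by
      intro i
      have h3 : s (P.x i) = π (Pi.single i 1) := by
        rw [← fox_of P.x i, hwd, FreeGroup.lift_apply_of]
      rw [hDa, h3, ← map_smul, ← Pi.single_smul, smul_eq_mul, mul_one]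
    rw [Finset.sum_congr rfl fun i _ => h2 i, ← map_sum, Finset.univ_sum_single]
  rw [hu, map_zero] at key
  exact (Submodule.Quotient.mk_eq_zero _).1 key.symm

theorem foxOK (P : FinPresentation G) : FoxOK P := ⟨fox_aug P, fox_exact P⟩

end General

end Vale.Agent.P246.Q24
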