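import Vale.Agent.P246.Q24.D1
import Mathlib.GroupTheory.FiniteAbelian.Basic

/-!
# Block D, part 2: surjections onto the base ring, and cancellation
-/

set_option linter.all false

namespace Vale.Agent.P246.Q24

open Vale.Agent.P246 Function

section Orders

variable {R : Type} [Ring R]

/-- a transvection -/
theorem transv {M : Type} [AddCommGroup M] [Module R M] (θ f : M →ₗ[R] R) (m : M)
    (hf : f m = 0) : ∃ g : M ≃ₗ[R] M, ∀ x, θ (g x) = θ x + f x * θ m := by
  refine ⟨LinearEquiv.ofLinearMap (LinearMap.id + (LinearMap.toSpanSingleton R M m) ∘ₗ f)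
    (LinearMap.id - (LinearMap.toSpanSingleton R M m) ∘ₗ f) ?_ ?_, fun x => ?_⟩
  · ext x
    change (x - f x • m) + f (x - f x • m) • m = x
    rw [map_sub, map_smul, hf, smul_zero, sub_zero, sub_add_cancel]
  · ext x
    change (x + f x • m) - f (x + f x • m) • m = x
    rw [map_add, map_smul, hf, smul_zero, add_zero, add_sub_cancel_right]
  · change θ (x + f x • m) = θ x + f x * θ m
    rw [map_add, map_smul, smul_eq_mul]

theorem span_int_twoSided (k : ℤ) : (Ideal.span {(k : R)}).IsTwoSided := by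
  constructor
  intro x b hx
  obtain ⟨y, rfl⟩ := Ideal.mem_span_singleton'.1 hx
  rw [Ideal.mem_span_singleton']
  refine ⟨y * b, ?_⟩
  rw [mul_assoc, mul_assoc, (Int.cast_commute k b).eq]

theorem unit_mod [Module.Finite ℤ R] (k : ℤ) (hk : k ≠ 0) (a : R) (L : Ideal R)
    (h : Ideal.span {a} ⊔ L = ⊤) : ∃ i ∈ L, ∃ c d : R, c * (a + i) = 1 + d * (k : R) := by
  have h2 := span_int_twoSided (R := R) k
  let J : Ideal R := Ideal.span {(k : R)}
  let π : R →+* R ⧸ J := Ideal.Quotient.mk J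
  have hπ : Surjective π := Ideal.Quotient.mk_surjective
  have hfin : Finite (R ⧸ J) := by
    have h3 : Module.Finite ℤ (R ⧸ J) :=
      Module.Finite.of_surjective (π.toAddMonoidHom.toIntLinearMap) hπ
    apply Module.finite_of_fg_torsion
    intro x
    obtain ⟨y, rfl⟩ := hπ x
    refine ⟨⟨k, mem_nonZeroDivisors_of_ne_zero hk⟩, ?_⟩
    change k • π y = 0
    rw [← map_zsmul]
    apply Ideal.Quotient.eq_zero_iff_mem.2
    rw [Ideal.mem_span_singleton']
    refine ⟨y, ?_⟩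
    rw [zsmul_eq_mul, (Int.cast_commute k y).eq]
  have hsup : Ideal.span {π a} ⊔ L.map π = ⊤ := by
    have h1 := congrArg (Ideal.map π) h
    rw [Ideal.map_sup, Ideal.map_span, Set.image_singleton] at h1
    rw [h1, Ideal.eq_top_iff_one]
    have : π 1 ∈ Ideal.map π ⊤ := Ideal.mem_map_of_mem π trivial
    rwa [map_one] at this
  obtain ⟨i', hi', hu⟩ := unit_of_finite (π a) (L.map π) hsup
  obtain ⟨i, hi, rfl⟩ := (Ideal.mem_map_iff_of_surjective π hπ).1 hi'
  rw [← map_add] at hu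
  obtain ⟨v', hv'⟩ := hu.exists_left_inv
  obtain ⟨c, rfl⟩ := hπ v'
  rw [← map_mul, ← map_one π] at hv'
  have hmem : c * (a + i) - 1 ∈ J := Ideal.Quotient.eq.1 hv'
  obtain ⟨d, hd⟩ := Ideal.mem_span_singleton'.1 hmem
  exact ⟨i, hi, c, d, by rw [hd]; abel⟩

/-- a unit modulo two divides a nonzero integer -/
theorem int_mem_span [Module.Finite ℤ R] (a c d : R) (h : c * a = 1 + d * ((2 : ℤ) : R)) :
    ∃ k : ℤ, k ≠ 0 ∧ ∃ b : R, b * a = (k : R) := by
  let L : Ideal R := Ideal.span {a}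
  have h3 : Module.Finite ℤ (R ⧸ L) :=
    Module.Finite.of_surjective (L.mkQ.toAddMonoidHom.toIntLinearMap) (Submodule.mkQ_surjective L)
  obtain ⟨r, hr1, hr⟩ := Submodule.exists_sub_one_mem_and_smul_eq_zero_of_fg_of_le_smul
    (Ideal.span {(2 : ℤ)}) (⊤ : Submodule ℤ (R ⧸ L)) h3.fg_top (by
      rintro x -
      obtain ⟨y, rfl⟩ := Submodule.mkQ_surjective L x
      have h4 : L.mkQ y = (2 : ℤ) • L.mkQ (-(y * d)) := by
        rw [← map_zsmul, ← sub_eq_zero, ← map_sub, Submodule.mkQ_apply,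
          Submodule.Quotient.mk_eq_zero, Ideal.mem_span_singleton']
        refine ⟨y * c, ?_⟩
        rw [mul_assoc, h, mul_add, mul_one, zsmul_eq_mul, (Int.cast_commute (2 : ℤ) _).eq]
        rw [neg_mul, sub_neg_eq_add, mul_assoc]
      rw [h4]
      exact Submodule.smul_mem_smul (Ideal.mem_span_singleton_self _) trivial)
  refine ⟨r, ?_, ?_⟩
  · rintro rfl
    rw [zero_sub, Ideal.mem_span_singleton] at hr1
    omega
  · have h5 := hr (L.mkQ 1) trivial
    rw [← map_zsmul, Submodule.mkQ_apply, Submodule.Quotient.mk_eq_zero,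
      Ideal.mem_span_singleton', zsmul_eq_mul, mul_one] at h5
    exact h5

/-- all surjections `M → R` are equivalent if `M` has a free summand of rank three -/
theorem surj_equiv [Module.Finite ℤ R] {M : Type} [AddCommGroup M] [Module R M]
    (e1 e2 e3 : M) (p1 p2 p3 : M →ₗ[R] R) (h11 : p1 e1 = 1) (h22 : p2 e2 = 1) (h33 : p3 e3 = 1)
    (h21 : p2 e1 = 0) (h31 : p3 e1 = 0) (h32 : p3 e2 = 0) (θ : M →ₗ[R] R)
    (hθ : Surjective θ) : ∃ g : M ≃ₗ[R] M, ∀ x, θ (g x) = p3 x := by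
  have hsup : ∀ (θ : M →ₗ[R] R) (hθ : Surjective θ) (e : M) (p : M →ₗ[R] R) (he : p e = 1),
      Ideal.span {θ e} ⊔ (LinearMap.ker p).map θ = ⊤ := by
    intro θ hθ e p he
    rw [Ideal.eq_top_iff_one]
    obtain ⟨x, hx⟩ := hθ 1
    have h1 : θ x = p x * θ e + θ (x - p x • e) := by
      rw [map_sub, map_smul, smul_eq_mul]
      abel
    rw [← hx, h1]
    refine add_mem (Ideal.mem_sup_left (Ideal.mul_mem_left _ _ (Ideal.mem_span_singleton_self _)))
      (Ideal.mem_sup_right ⟨_, ?_, rfl⟩)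
    change p (x - p x • e) = 0
    rw [map_sub, map_smul, he, smul_eq_mul, mul_one, sub_self]
  -- step 1
  obtain ⟨_, ⟨m1, hm1, rfl⟩, c1, d1, hu1⟩ := unit_mod 2 two_ne_zero (θ e1) _ (hsup θ hθ e1 p1 h11)
  have hm1' : p1 m1 = 0 := hm1
  obtain ⟨g1, hg1⟩ := transv θ p1 m1 hm1'
  let θ1 : M →ₗ[R] R := θ ∘ₗ g1.toLinearMap
  have hθ1 : ∀ x, θ1 x = θ x + p1 x * θ m1 := hg1
  have hs1 : Surjective θ1 := hθ.comp g1.surjective
  have ha : θ1 e1 = θ e1 + θ m1 := by rw [hθ1, h11, one_mul]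
  rw [← ha] at hu1
  obtain ⟨k, hk, b1, hb1⟩ := int_mem_span _ c1 d1 hu1
  -- step 2
  obtain ⟨_, ⟨m2', hm2, rfl⟩, c2, d2, hu2⟩ := unit_mod k hk (θ1 e2) _ (hsup θ1 hs1 e2 p2 h22)
  have hm2' : p2 m2' = 0 := hm2
  have hm2'' : p2 (m2' - p1 m2' • e1) = 0 := by
    rw [map_sub, map_smul, h21, smul_zero, hm2', sub_zero]
  obtain ⟨g2, hg2⟩ := transv θ1 p2 (m2' - p1 m2' • e1) hm2''
  let θ2 : M →ₗ[R] R := θ1 ∘ₗ g2.toLinearMap
  have hθ2 : ∀ x, θ2 x = θ1 x + p2 x * θ1 (m2' - p1 m2' • e1) := hg2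
  have h2e1 : θ2 e1 = θ1 e1 := by rw [hθ2, h21, zero_mul, add_zero]
  have h2e2 : θ1 e2 + θ1 m2' = θ2 e2 + p1 m2' * θ2 e1 := by
    rw [h2e1, hθ2, h22, one_mul, map_sub, map_smul, smul_eq_mul]
    abel
  rw [h2e2] at hu2
  -- `1 = x θ2(e1) + y θ2(e2)`
  have hone : (c2 * p1 m2' - d2 * b1) * θ2 e1 + c2 * θ2 e2 = 1 := by
    have h5 : d2 * (k : R) = d2 * b1 * θ2 e1 := by rw [mul_assoc, h2e1, hb1]
    have h6 : c2 * θ2 e2 + c2 * p1 m2' * θ2 e1 = 1 + d2 * b1 * θ2 e1 := by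
      rw [← h5, ← hu2, mul_add, mul_assoc]
    rw [sub_mul]
    calc c2 * p1 m2' * θ2 e1 - d2 * b1 * θ2 e1 + c2 * θ2 e2
        = (c2 * θ2 e2 + c2 * p1 m2' * θ2 e1) - d2 * b1 * θ2 e1 := by abel
      _ = 1 := by rw [h6, add_sub_cancel_right]
  -- step 3
  set x0 := c2 * p1 m2' - d2 * b1
  let m3 : M := ((1 - θ2 e3) * x0) • e1 + ((1 - θ2 e3) * c2) • e2
  have hm3 : p3 m3 = 0 := by
    rw [map_add, map_smul, map_smul, h31, h32, smul_zero, smul_zero, add_zero]
  have hθm3 : θ2 m3 = 1 - θ2 e3 := by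
    rw [map_add, map_smul, map_smul, smul_eq_mul, smul_eq_mul, mul_assoc, mul_assoc, ← mul_add,
      hone, mul_one]
  obtain ⟨g3, hg3⟩ := transv θ2 p3 m3 hm3
  let θ3 : M →ₗ[R] R := θ2 ∘ₗ g3.toLinearMap
  have hθ3 : ∀ x, θ3 x = θ2 x + p3 x * θ2 m3 := hg3
  have h3e3 : θ3 e3 = 1 := by
    rw [hθ3, h33, one_mul, hθm3]
    abel
  -- step 4
  obtain ⟨g4, hg4⟩ := transv θ3 (p3 - θ3) e3 (by
    rw [LinearMap.sub_apply, h33, h3e3, sub_self])
  refine ⟨g4.trans (g3.trans (g2.trans g1)), fun x => ?_⟩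
  have h7 : θ3 (g4 x) = p3 x := by
    rw [hg4, h3e3, mul_one, LinearMap.sub_apply]
    abel
  exact h7

/-- cancellation of one free summand -/
theorem cancel_step [Module.Finite ℤ R] {Q : Type} [AddCommGroup Q] [Module R Q] (l : ℕ)
    (h : Nonempty ((Q × R) ≃ₗ[R] (Fin (l + 3) → R))) : Nonempty (Q ≃ₗ[R] (Fin (l + 2) → R)) := by
  obtain ⟨e⟩ := h
  set θ : (Fin (l + 3) → R) →ₗ[R] R := LinearMap.snd R Q R ∘ₗ e.symm.toLinearMap with hθ
  have hθs : Surjective θ := by
    intro s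
    exact ⟨e (0, s), by simp [hθ]⟩
  have n12 : (1 : Fin (l + 3)) ≠ 2 := by
    intro h
    have := congrArg Fin.val h
    simp [Fin.val_two] at this
    rw [Nat.mod_eq_of_lt (by omega)] at this
    omega
  have n02 : (0 : Fin (l + 3)) ≠ 2 := by
    intro h
    have := congrArg Fin.val h
    simp [Fin.val_two] at this
    rw [Nat.mod_eq_of_lt (by omega)] at this
    omega
  have n01 : (0 : Fin (l + 3)) ≠ 1 := by
    intro h
    have := congrArg Fin.val h
    simp at this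
  obtain ⟨g, hg⟩ := surj_equiv (R := R) (M := Fin (l + 3) → R) (Pi.single 2 1) (Pi.single 1 1)
    (Pi.single 0 1) (LinearMap.proj 2) (LinearMap.proj 1) (LinearMap.proj 0)
    (by rw [LinearMap.proj_apply, Pi.single_eq_same])
    (by rw [LinearMap.proj_apply, Pi.single_eq_same])
    (by rw [LinearMap.proj_apply, Pi.single_eq_same])
    (by rw [LinearMap.proj_apply, Pi.single_eq_of_ne n12])
    (by rw [LinearMap.proj_apply, Pi.single_eq_of_ne n02])
    (by rw [LinearMap.proj_apply, Pi.single_eq_of_ne n01]) θ hθs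
  have hg' : ∀ x : Fin (l + 3) → R, (e.symm (g x)).2 = x 0 := hg
  let f : Q →ₗ[R] (Fin (l + 2) → R) :=
    { toFun := fun x i => g.symm (e (x, 0)) i.succ
      map_add' := by
        intro x y; funext i
        have : ((x + y, 0) : Q × R) = (x, 0) + (y, 0) := by simp
        rw [this, map_add, map_add]; rfl
      map_smul' := by
        intro r x; funext i
        have : ((r • x, 0) : Q × R) = r • (x, 0) := by simp
        rw [this, map_smul, map_smul]; rfl }
  have hz : ∀ x : Q, g.symm (e (x, 0)) 0 = 0 := by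
    intro x
    rw [← hg' (g.symm (e (x, 0)))]
    simp
  have hcons : ∀ x : Q, (Fin.cons 0 (f x) : Fin (l + 3) → R) = g.symm (e (x, 0)) := by
    intro x
    funext i
    refine Fin.cases ?_ (fun j => ?_) i
    · rw [Fin.cons_zero, hz]
    · rfl
  refine ⟨LinearEquiv.ofBijective f ⟨?_, ?_⟩⟩
  · intro x y hxy
    have h1 := hcons x
    rw [hxy, hcons y] at h1
    have h2 := e.injective (g.symm.injective h1)
    exact (congrArg Prod.fst h2).symm
  · intro y
    refine ⟨(e.symm (g (Fin.cons 0 y))).1, ?_⟩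
    have h1 : ((e.symm (g (Fin.cons 0 y))).1, (0 : R)) = e.symm (g (Fin.cons 0 y)) := by
      apply Prod.ext
      · rfl
      · rw [hg']; rfl
    funext i
    change g.symm (e ((e.symm (g (Fin.cons 0 y))).1, 0)) i.succ = y i
    rw [h1]
    simp

/-- `M × R^(k+1) ≅ (M × R^k) × R` -/
def prodSucc (Q : Type) [AddCommGroup Q] [Module R Q] (k : ℕ) :
    (Q × (Fin (k + 1) → R)) ≃ₗ[R] ((Q × (Fin k → R)) × R) where
  toFun := fun x => ((x.1, fun i => x.2 i.succ), x.2 0)
  map_add' := fun _ _ => rfl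
  map_smul' := fun _ _ => rfl
  invFun := fun y => (y.1.1, Fin.cons y.2 y.1.2)
  left_inv := fun x => by
    apply Prod.ext
    · rfl
    · exact Fin.cons_self_tail x.2
  right_inv := fun y => by
    simp

theorem cancel_two_gen [Module.Finite ℤ R] {Q : Type} [AddCommGroup Q] [Module R Q] :
    ∀ (k r : ℕ) (e : Nonempty ((Q × (Fin k → R)) ≃ₗ[R] (Fin (k + (r + 2)) → R))),
      Nonempty (Q ≃ₗ[R] (Fin (r + 2) → R))
  | 0, r, ⟨e⟩ => by
    have e' : (Q × (Fin 0 → R)) ≃ₗ[R] (Fin (r + 2) → R) :=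
      e.trans (LinearEquiv.funCongrLeft R R (finCongr (by omega)))
    exact ⟨(LinearEquiv.prodUnique (M₂ := Fin 0 → R)).symm.trans e'⟩
  | k + 1, r, ⟨e⟩ => by
    have e' : (Q × (Fin (k + 1) → R)) ≃ₗ[R] (Fin ((k + r) + 3) → R) :=
      e.trans (LinearEquiv.funCongrLeft R R (finCongr (by omega)))
    obtain ⟨f⟩ := cancel_step (k + r) ⟨(prodSucc Q k).symm.trans e'⟩
    exact cancel_two_gen k r ⟨f.trans (LinearEquiv.funCongrLeft R R (finCongr (by omega)))⟩

theorem cancel_one_gen [Module.Finite ℤ R] {Q : Type} [AddCommGroup Q] [Module R Q] :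
    ∀ (k : ℕ) (e : Nonempty ((Q × (Fin k → R)) ≃ₗ[R] (Fin (k + 1) → R))),
      Nonempty ((Q × R) ≃ₗ[R] (Fin 2 → R))
  | 0, ⟨e⟩ => by
    have e' : Q ≃ₗ[R] R := (LinearEquiv.prodUnique (M₂ := Fin 0 → R)).symm.trans
      ((e.trans (LinearEquiv.funCongrLeft R R (finCongr (by omega)))).trans
        (LinearEquiv.funUnique (Fin 1) R R))
    exact ⟨(e'.prodCongr (LinearEquiv.refl R R)).trans (LinearEquiv.finTwoArrow R R).symm⟩
  | k + 1, ⟨e⟩ => by
    have e1 : ((Q × R) × (Fin k → R)) ≃ₗ[R] (Q × (Fin (k + 1) → R)) :=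
      { toFun := fun x => (x.1.1, Fin.cons x.1.2 x.2)
        map_add' := fun x y => by
          apply Prod.ext
          · rfl
          · funext i
            refine Fin.cases ?_ (fun j => ?_) i <;> rfl
        map_smul' := fun c x => by
          apply Prod.ext
          · rfl
          · funext i
            refine Fin.cases ?_ (fun j => ?_) i <;> rfl
        invFun := fun y => ((y.1, y.2 0), fun i => y.2 i.succ)
        left_inv := fun x => by simp
        right_inv := fun y => by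
          apply Prod.ext
          · rfl
          · exact Fin.cons_self_tail y.2 }
    exact cancel_two_gen k 0 ⟨e1.trans e⟩

end Orders

section Group

variable {G : Type} [Group G]

theorem finite_int' [Finite G] : Module.Finite ℤ (ZG G) :=
  Module.Finite.of_basis (MonoidAlgebra.basis G ℤ)

theorem cancel_two [Finite G] {Q : Type} [AddCommGroup Q] [Module (ZG G) Q] (k r : ℕ)
    (e : Nonempty ((Q × (Fin k → ZG G)) ≃ₗ[ZG G] (Fin (k + (r + 2)) → ZG G))) :
    Nonempty (Q ≃ₗ[ZG G] (Fin (r + 2) → ZG G)) := by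
  have := finite_int' (G := G)
  exact cancel_two_gen k r e

theorem cancel_one' [Finite G] {Q : Type} [AddCommGroup Q] [Module (ZG G) Q] (k : ℕ)
    (e : Nonempty ((Q × (Fin k → ZG G)) ≃ₗ[ZG G] (Fin (k + 1) → ZG G))) :
    Nonempty ((Q × ZG G) ≃ₗ[ZG G] (Fin 2 → ZG G)) := by
  have := finite_int' (G := G)
  exact cancel_one_gen k e

end Group

end Vale.Agent.P246.Q24
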