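import Vale.Agent.P246.Q24.C6
import Vale.Agent.P246.Q24.D2
import Vale.Agent.P246.Q24.A

/-!
# Block C, final: the classification theorem
-/

set_option linter.all false

namespace Vale.Agent.P246.Q24

open Vale.Agent.P246 Function CategoryTheory

section General

variable {G : Type} [Group G]

/-- the classification theorem -/
theorem hc_main [Fintype G] (S : Reso G) (C : ChainComplex (ModuleCat.{0} (ZG G)) ℕ)
    (hC : D2Data G C) :
    (∃ s, Nonempty (HomotopyEquiv C (foxCC (addTriv S.P s)))) ∨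
    ∃ (Q : Type) (_ : AddCommGroup Q) (_ : Module (ZG G) Q),
      Nonempty ((Q × ZG G) ≃ₗ[ZG G] (Fin 2 → ZG G)) ∧
      ∀ (P : FinPresentation G) (φ : (Fin P.rels → ZG G) →ₗ[ZG G] (Fin S.P.rels → ZG G))
        (φ1 : (Fin P.gens → ZG G) →ₗ[ZG G] (Fin S.P.gens → ZG G)),
        (∀ u, foxD1 S.P (φ1 u) = foxD1 P u) → (∀ t, foxD2 S.P (φ t) = φ1 (foxD2 P t)) →
        Nonempty (QP S P φ ≃ₗ[ZG G] Q) → Nonempty (HomotopyEquiv C (foxCC P)) :=
  hc_main_of foxOK (fun k r e => cancel_two k r e) (fun k e => cancel_one' k e) S C hC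

end General

end Vale.Agent.P246.Q24
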