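import Vale.Agent.P246.Q24.Defs

/-!
# Block E: the four projections of `ℤ[Q_24]`
-/

set_option linter.all false

namespace Vale.Agent.P246.Q24

open Vale.Agent.P246 QuaternionGroup

/-! ### homomorphisms out of a generalized quaternion group -/

section QuatHom

variable {M : Type*} [Monoid M] {n : ℕ} [NeZero n] {x y : M}

/-- `i ↦ x ^ i` -/
def pw (x : M) (i : ZMod (2 * n)) : M := x ^ i.val

theorem pw_add (h1 : x ^ (2 * n) = 1) (i j : ZMod (2 * n)) : pw x (i + j) = pw x i * pw x j := by
  have : NeZero (2 * n) := ⟨by have := NeZero.ne n; omega⟩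
  rw [pw, pw, pw, ← pow_add, ZMod.val_add, ← pow_eq_pow_mod _ h1]

theorem pw_zero : pw x (0 : ZMod (2 * n)) = 1 := by
  rw [pw, ZMod.val_zero, pow_zero]

theorem pw_mid (h3 : x * y * x = y) (k : ℕ) : x ^ k * y * x ^ k = y := by
  induction k with
  | zero => rw [pow_zero, one_mul, mul_one]
  | succ k ih =>
    calc x ^ (k + 1) * y * x ^ (k + 1) = x ^ k * x * y * (x * x ^ k) := by
          rw [pow_succ x k, ← pow_succ', ← pow_succ]
      _ = x ^ k * (x * y * x) * x ^ k := by simp only [mul_assoc]
      _ = y := by rw [h3, ih]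

theorem pw_comm (h1 : x ^ (2 * n) = 1) (h3 : x * y * x = y) (i : ZMod (2 * n)) :
    pw x i * y = y * pw x (-i) := by
  have h4 : pw x i * y * pw x i = y := pw_mid h3 _
  calc pw x i * y = pw x i * y * (pw x i * pw x (-i)) := by
        rw [← pw_add h1, add_neg_cancel, pw_zero, mul_one]
    _ = pw x i * y * pw x i * pw x (-i) := by rw [mul_assoc (pw x i * y)]
    _ = y * pw x (-i) := by rw [h4]

theorem pw_n (h1 : x ^ (2 * n) = 1) : pw x (n : ZMod (2 * n)) = x ^ n := by
  rw [pw, ZMod.val_natCast]
  have : n % (2 * n) = n := Nat.mod_eq_of_lt (by have := Nat.pos_of_ne_zero (NeZero.ne n); omega)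
  rw [this]

/-- the homomorphism from the generalized quaternion group given by `x`, `y` -/
def quatHom (x y : M) (h1 : x ^ (2 * n) = 1) (h2 : y * y = x ^ n) (h3 : x * y * x = y) :
    QuaternionGroup n →* M where
  toFun g := match g with
    | a i => pw x i
    | xa i => y * pw x i
  map_one' := pw_zero
  map_mul' := by
    rintro (i | i) (j | j)
    · exact pw_add h1 i j
    · change y * pw x (j - i) = pw x i * (y * pw x j)
      rw [← mul_assoc, pw_comm h1 h3, mul_assoc, ← pw_add h1]
      congr 2
      ring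
    · change y * pw x (i + j) = y * pw x i * pw x j
      rw [mul_assoc, ← pw_add h1]
    · change pw x ((n : ZMod (2 * n)) + j - i) = y * pw x i * (y * pw x j)
      rw [← mul_assoc, mul_assoc y, pw_comm h1 h3, ← mul_assoc y, h2, ← pw_n h1, ← pw_add h1,
        ← pw_add h1]
      congr 1
      ring

@[simp] theorem quatHom_a (x y : M) (h1 : x ^ (2 * n) = 1) (h2 : y * y = x ^ n)
    (h3 : x * y * x = y) (i : ZMod (2 * n)) : quatHom x y h1 h2 h3 (a i) = pw x i := rfl
@[simp] theorem quatHom_xa (x y : M) (h1 : x ^ (2 * n) = 1) (h2 : y * y = x ^ n)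
    (h3 : x * y * x = y) (i : ZMod (2 * n)) : quatHom x y h1 h2 h3 (xa i) = y * pw x i := rfl

/-- homomorphisms out of the generalized quaternion group agree if they agree on generators -/
theorem quat_hom_ext {f g : QuaternionGroup n →* M} (h1 : f (a 1) = g (a 1))
    (h2 : f (xa 0) = g (xa 0)) : f = g := by
  have key : ∀ i : ZMod (2 * n), f (a i) = g (a i) := by
    intro i
    have h3 : (a i : QuaternionGroup n) = a 1 ^ i.val := by
      rw [a_one_pow]
      have : NeZero (2 * n) := ⟨by have := NeZero.ne n; omega⟩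
      rw [ZMod.natCast_zmod_val]
    rw [h3, map_pow, map_pow, h1]
  ext (i | i)
  · exact key i
  · have h4 : (xa i : QuaternionGroup n) = xa 0 * a i := by rw [xa_mul_a, zero_add]
    rw [h4, map_mul, map_mul, h2, key]

end QuatHom

end Vale.Agent.P246.Q24
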