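import Vale.Agent.P246.Q24.H1

/-!
# Block G: gluing of kernel generators
-/

set_option linter.all false

namespace Vale.Agent.P246.Q24

/-- `(u, v)` freely generates the kernel of the column `(a, b)` and has a right inverse -/
structure KG {T : Type} [Ring T] (a b u v : T) : Prop where
  ker : u * a + v * b = 0
  gen : ∀ x y, x * a + y * b = 0 → ∃ t, x = t * u ∧ y = t * v
  inv : ∃ r s, u * r + v * s = 1

theorem KG.free {T : Type} [Ring T] {a b u v : T} (h : KG a b u v) {t : T} (h1 : t * u = 0)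
    (h2 : t * v = 0) : t = 0 := by
  obtain ⟨r, s, hrs⟩ := h.inv
  calc t = t * (u * r + v * s) := by rw [hrs, mul_one]
    _ = t * u * r + t * v * s := by noncomm_ring
    _ = 0 := by rw [h1, h2, zero_mul, zero_mul, add_zero]

/-- data extracted from an invertible completion -/
theorem KG_of_inv {T : Type} [Ring T] {a b : T} {g h : Matrix (Fin 2) (Fin 2) T} (hgh : g * h = 1)
    (hhg : h * g = 1) (h0 : g 0 0 * a + g 0 1 * b = 1) (h1 : g 1 0 * a + g 1 1 * b = 0) :
    KG a b (g 1 0) (g 1 1) where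
  ker := h1
  gen x y hxy := by
    -- `(x, y) = (x, y) h g`, `(x, y) h = (s, t)` with `s = (x, y) h e_1 = (x,y) (a, b) = 0`
    have ha : h 0 0 = a := by
      have : h 0 0 * (g 0 0 * a + g 0 1 * b) + h 0 1 * (g 1 0 * a + g 1 1 * b) =
        (h 0 0 * g 0 0 + h 0 1 * g 1 0) * a + (h 0 0 * g 0 1 + h 0 1 * g 1 1) * b := by
        noncomm_ring
      rw [h0, h1] at this
      have e1 := congrFun (congrFun hhg 0) 0
      have e2 := congrFun (congrFun hhg 0) 1
      simp only [Matrix.mul_apply, Fin.sum_univ_two] at e1 e2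
      rw [e1, e2] at this
      simpa using this
    have hb : h 1 0 = b := by
      have : h 1 0 * (g 0 0 * a + g 0 1 * b) + h 1 1 * (g 1 0 * a + g 1 1 * b) =
        (h 1 0 * g 0 0 + h 1 1 * g 1 0) * a + (h 1 0 * g 0 1 + h 1 1 * g 1 1) * b := by
        noncomm_ring
      rw [h0, h1] at this
      have e1 := congrFun (congrFun hhg 1) 0
      have e2 := congrFun (congrFun hhg 1) 1
      simp only [Matrix.mul_apply, Fin.sum_univ_two] at e1 e2
      rw [e1, e2] at this
      simpa using this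
    have e1 := congrFun (congrFun hhg 0) 0
    have e2 := congrFun (congrFun hhg 0) 1
    have e3 := congrFun (congrFun hhg 1) 0
    have e4 := congrFun (congrFun hhg 1) 1
    simp only [Matrix.mul_apply, Fin.sum_univ_two] at e1 e2 e3 e4
    rw [ha] at e1 e2
    rw [hb] at e3 e4
    refine ⟨x * h 0 1 + y * h 1 1, ?_, ?_⟩
    · have : (x * h 0 1 + y * h 1 1) * g 1 0 = x * (a * g 0 0 + h 0 1 * g 1 0) +
        y * (b * g 0 0 + h 1 1 * g 1 0) - (x * a + y * b) * g 0 0 := by noncomm_ring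
      rw [this, e1, e3, hxy]
      simp
    · have : (x * h 0 1 + y * h 1 1) * g 1 1 = x * (a * g 0 1 + h 0 1 * g 1 1) +
        y * (b * g 0 1 + h 1 1 * g 1 1) - (x * a + y * b) * g 0 1 := by noncomm_ring
      rw [this, e2, e4, hxy]
      simp
  inv := by
    have e4 := congrFun (congrFun hgh 1) 1
    simp only [Matrix.mul_apply, Fin.sum_univ_two] at e4
    exact ⟨_, _, e4⟩

theorem TR.kg {T : Type} [Ring T] (hT : TR T) {a b c d : T} (h : c * a + d * b = 1) :
    ∃ g h : Matrix (Fin 2) (Fin 2) T, g * h = 1 ∧ h * g = 1 ∧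
    g 0 0 * a + g 0 1 * b = 1 ∧ g 1 0 * a + g 1 1 * b = 0 ∧ KG a b (g 1 0) (g 1 1) := by
  obtain ⟨g, k, h1, h2, h3, h4⟩ := hT a b c d h
  exact ⟨g, k, h1, h2, h3, h4, KG_of_inv h1 h2 h3 h4⟩

/-- images of kernel generators -/
theorem KG.map {T S : Type} [Ring T] [Ring S] (f : T →+* S) {a b : T}
    {g h : Matrix (Fin 2) (Fin 2) T} (hgh : g * h = 1)
    (hhg : h * g = 1) (h0 : g 0 0 * a + g 0 1 * b = 1) (h1 : g 1 0 * a + g 1 1 * b = 0) :
    KG (f a) (f b) (f (g 1 0)) (f (g 1 1)) := by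
  have := KG_of_inv (g := f.mapMatrix g) (h := f.mapMatrix h) (a := f a) (b := f b)
    (by rw [← map_mul, hgh, map_one]) (by rw [← map_mul, hhg, map_one])
    (by
      simp only [RingHom.mapMatrix_apply, Matrix.map_apply]
      rw [← map_mul, ← map_mul, ← map_add, h0, map_one])
    (by
      simp only [RingHom.mapMatrix_apply, Matrix.map_apply]
      rw [← map_mul, ← map_mul, ← map_add, h1, map_zero])
  exact this

/-- two kernel generators differ by a unit -/
theorem KG.unit {T : Type} [Ring T] {a b u v u' v' : T} (h : KG a b u v) (h' : KG a b u' v') :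
    ∃ δ δ', δ * δ' = 1 ∧ δ' * δ = 1 ∧ u = δ * u' ∧ v = δ * v' ∧ u' = δ' * u ∧ v' = δ' * v := by
  obtain ⟨δ, h1, h2⟩ := h'.gen u v h.ker
  obtain ⟨δ', h3, h4⟩ := h.gen u' v' h'.ker
  refine ⟨δ, δ', ?_, ?_, h1, h2, h3, h4⟩
  · apply sub_eq_zero.1
    apply h.free
    · rw [sub_mul, mul_assoc, ← h3, ← h1, one_mul, sub_self]
    · rw [sub_mul, mul_assoc, ← h4, ← h2, one_mul, sub_self]
  · apply sub_eq_zero.1
    apply h'.free
    · rw [sub_mul, mul_assoc, ← h1, ← h3, one_mul, sub_self]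
    · rw [sub_mul, mul_assoc, ← h2, ← h4, one_mul, sub_self]

/-- transitivity on unimodular columns glues along a pullback square -/
theorem TR_glue {T A B C : Type} [Ring T] [Ring A] [Ring B] [Ring C] (f : T →+* A) (g : T →+* B)
    (p : A →+* C) (q : B →+* C) (hpq : ∀ t, p (f t) = q (g t))
    (hinj : ∀ t, f t = 0 → g t = 0 → t = 0) (hsurj : ∀ x y, p x = q y → ∃ t, f t = x ∧ g t = y)
    (hA : TR A) (hB : TR B)
    (hunit : ∀ δ δ' : C, δ * δ' = 1 → δ' * δ = 1 → ∃ ε ε' : A, ε * ε' = 1 ∧ ε' * ε = 1 ∧ p ε = δ) :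
    TR T := by
  intro a b c d h
  obtain ⟨gA, kA, a1, a2, a3, a4, KA⟩ := hA.kg (a := f a) (b := f b) (c := f c) (d := f d)
    (by rw [← map_mul, ← map_mul, ← map_add, h, map_one])
  obtain ⟨gB, kB, b1, b2, b3, b4, KB⟩ := hB.kg (a := g a) (b := g b) (c := g c) (d := g d)
    (by rw [← map_mul, ← map_mul, ← map_add, h, map_one])
  have LA := KG.map p a1 a2 a3 a4
  have LB := KG.map q b1 b2 b3 b4
  rw [← hpq, ← hpq] at LB
  obtain ⟨δ, δ', d1, d2, d3, d4, -, -⟩ := LB.unit LA
  obtain ⟨ε, ε', e1, e2, e3⟩ := hunit δ δ' d1 d2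
  obtain ⟨u, hu1, hu2⟩ := hsurj (ε * gA 1 0) (gB 1 0) (by rw [map_mul, e3, ← d3])
  obtain ⟨v, hv1, hv2⟩ := hsurj (ε * gA 1 1) (gB 1 1) (by rw [map_mul, e3, ← d4])
  have KA' : KG (f a) (f b) (f u) (f v) := by
    rw [hu1, hv1]
    refine ⟨?_, ?_, ?_⟩
    · rw [mul_assoc, mul_assoc, ← mul_add, KA.ker, mul_zero]
    · intro x y hxy
      obtain ⟨t, h1, h2⟩ := KA.gen x y hxy
      exact ⟨t * ε', by rw [h1, mul_assoc t, ← mul_assoc ε', e2, one_mul],
        by rw [h2, mul_assoc t, ← mul_assoc ε', e2, one_mul]⟩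
    · obtain ⟨r, s, hrs⟩ := KA.inv
      refine ⟨r * ε', s * ε', ?_⟩
      have : ε * gA 1 0 * (r * ε') + ε * gA 1 1 * (s * ε') =
        ε * (gA 1 0 * r + gA 1 1 * s) * ε' := by noncomm_ring
      rw [this, hrs, mul_one, e1]
  have KB' : KG (g a) (g b) (g u) (g v) := by rw [hu2, hv2]; exact KB
  refine TR_of_ker (u := u) (v := v) h ?_ ?_ ?_
  · apply hinj
    · rw [map_add, map_mul, map_mul]; exact KA'.ker
    · rw [map_add, map_mul, map_mul]; exact KB'.ker
  · intro x y hxy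
    obtain ⟨t1, h1, h2⟩ := KA'.gen (f x) (f y) (by
      rw [← map_mul, ← map_mul, ← map_add, hxy, map_zero])
    obtain ⟨t2, h3, h4⟩ := KB'.gen (g x) (g y) (by
      rw [← map_mul, ← map_mul, ← map_add, hxy, map_zero])
    have hpt : p t1 = q t2 := by
      obtain ⟨r, s, hrs⟩ := LB.inv
      have e1 : p t1 * q (gB 1 0) = q t2 * q (gB 1 0) := by
        rw [← hu2, ← hpq, ← map_mul, ← h1, hpq, hpq, ← map_mul, ← h3]
      have e2 : p t1 * q (gB 1 1) = q t2 * q (gB 1 1) := by
        rw [← hv2, ← hpq, ← map_mul, ← h2, hpq, hpq, ← map_mul, ← h4]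
      calc p t1 = p t1 * (q (gB 1 0) * r + q (gB 1 1) * s) := by rw [hrs, mul_one]
        _ = p t1 * q (gB 1 0) * r + p t1 * q (gB 1 1) * s := by noncomm_ring
        _ = q t2 * q (gB 1 0) * r + q t2 * q (gB 1 1) * s := by rw [e1, e2]
        _ = q t2 * (q (gB 1 0) * r + q (gB 1 1) * s) := by noncomm_ring
        _ = q t2 := by rw [hrs, mul_one]
    obtain ⟨t, ht1, ht2⟩ := hsurj t1 t2 hpt
    refine ⟨t, ?_, ?_⟩
    · apply sub_eq_zero.1
      apply hinj
      · rw [map_sub, map_mul, ht1, h1, sub_self]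
      · rw [map_sub, map_mul, ht2, h3, sub_self]
    · apply sub_eq_zero.1
      apply hinj
      · rw [map_sub, map_mul, ht1, h2, sub_self]
      · rw [map_sub, map_mul, ht2, h4, sub_self]
  · intro t h1 h2
    apply hinj
    · apply KA'.free
      · rw [← map_mul, h1, map_zero]
      · rw [← map_mul, h2, map_zero]
    · apply KB'.free
      · rw [← map_mul, h1, map_zero]
      · rw [← map_mul, h2, map_zero]

/-- transitivity transfers along ring isomorphisms -/
theorem TR_equiv {T S : Type} [Ring T] [Ring S] (e : T ≃+* S) (h : TR S) : TR T := by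
  intro a b c d hab
  obtain ⟨g, k, h1, h2, h3, h4⟩ := h (e a) (e b) (e c) (e d)
    (by rw [← map_mul, ← map_mul, ← map_add, hab, map_one])
  refine ⟨e.symm.toRingHom.mapMatrix g, e.symm.toRingHom.mapMatrix k, ?_, ?_, ?_, ?_⟩
  · rw [← map_mul, h1, map_one]
  · rw [← map_mul, h2, map_one]
  · apply e.injective
    simp [h3]
  · apply e.injective
    simp [h4]

end Vale.Agent.P246.Q24
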