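import Vale.Agent.P246.Q24.I3

/-!
# Block I: stably free modules of rank one are glued modules
-/

set_option linter.all false

namespace Vale.Agent.P246.Q24

open Vale.Agent.P246

/-- an invertible matrix completing the column `(a, b)` -/
structure Cmp {T : Type} [Ring T] (a b : T) (g k : Matrix (Fin 2) (Fin 2) T) : Prop where
  gk : g * k = 1
  kg : k * g = 1
  h0 : g 0 0 * a + g 0 1 * b = 1
  h1 : g 1 0 * a + g 1 1 * b = 0

theorem Cmp.KG {T : Type} [Ring T] {a b : T} {g k : Matrix (Fin 2) (Fin 2) T} (h : Cmp a b g k) :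
    KG a b (g 1 0) (g 1 1) := KG_of_inv h.gk h.kg h.h0 h.h1

theorem Cmp.map {T S : Type} [Ring T] [Ring S] (f : T →+* S) {a b : T}
    {g k : Matrix (Fin 2) (Fin 2) T} (h : Cmp a b g k) :
    Cmp (f a) (f b) (f.mapMatrix g) (f.mapMatrix k) where
  gk := by rw [← map_mul, h.gk, map_one]
  kg := by rw [← map_mul, h.kg, map_one]
  h0 := by
    simp only [RingHom.mapMatrix_apply, Matrix.map_apply]
    rw [← map_mul, ← map_mul, ← map_add, h.h0, map_one]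
  h1 := by
    simp only [RingHom.mapMatrix_apply, Matrix.map_apply]
    rw [← map_mul, ← map_mul, ← map_add, h.h1, map_zero]

/-- rescaling the second row -/
theorem Cmp.scale {T : Type} [Ring T] {a b : T} {g k : Matrix (Fin 2) (Fin 2) T}
    (h : Cmp a b g k) {ε ε' : T} (h1 : ε * ε' = 1) (h2 : ε' * ε = 1) :
    ∃ g' k', Cmp a b g' k' ∧ g' 1 0 = ε * g 1 0 ∧ g' 1 1 = ε * g 1 1 := by
  have e1 : (!![1, 0; 0, ε] * !![1, 0; 0, ε'] : Matrix (Fin 2) (Fin 2) T) = 1 := by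
    apply Matrix.ext
    intro i j
    fin_cases i <;> fin_cases j <;> simp [Matrix.mul_apply, Fin.sum_univ_two, h1]
  have e2 : (!![1, 0; 0, ε'] * !![1, 0; 0, ε] : Matrix (Fin 2) (Fin 2) T) = 1 := by
    apply Matrix.ext
    intro i j
    fin_cases i <;> fin_cases j <;> simp [Matrix.mul_apply, Fin.sum_univ_two, h2]
  refine ⟨!![1, 0; 0, ε] * g, k * !![1, 0; 0, ε'], ⟨?_, ?_, ?_, ?_⟩, ?_, ?_⟩
  · rw [mul_assoc, ← mul_assoc g, h.gk, one_mul, e1]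
  · rw [mul_assoc, ← mul_assoc !![1, 0; 0, ε'], e2, one_mul, h.kg]
  · simpa [Matrix.mul_apply, Fin.sum_univ_two] using h.h0
  · simp only [Matrix.mul_apply, Fin.sum_univ_two, Matrix.of_apply, Matrix.cons_val', Matrix.cons_val_zero,
      Matrix.cons_val_one, Matrix.cons_val_fin_one, zero_mul, zero_add]
    rw [mul_assoc, mul_assoc, ← mul_add, h.h1, mul_zero]
  · simp [Matrix.mul_apply, Fin.sum_univ_two]
  · simp [Matrix.mul_apply, Fin.sum_univ_two]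

/-- comparison of two completions -/
theorem Cmp.compare {T : Type} [Ring T] {a b : T} {g k g' k' : Matrix (Fin 2) (Fin 2) T}
    (h : Cmp a b g k) (h' : Cmp a b g' k') {δ : T} (h1 : g 1 0 = δ * g' 1 0)
    (h2 : g 1 1 = δ * g' 1 1) : ∃ s, g = !![1, s; 0, δ] * g' := by
  obtain ⟨s, hs1, hs2⟩ := h'.KG.gen (g 0 0 - g' 0 0) (g 0 1 - g' 0 1) (by
    have : (g 0 0 - g' 0 0) * a + (g 0 1 - g' 0 1) * b =
      (g 0 0 * a + g 0 1 * b) - (g' 0 0 * a + g' 0 1 * b) := by noncomm_ring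
    rw [this, h.h0, h'.h0, sub_self])
  refine ⟨s, ?_⟩
  apply Matrix.ext
  intro i j
  fin_cases i <;> fin_cases j
  · simp [Matrix.mul_apply, Fin.sum_univ_two, ← hs1]
  · simp [Matrix.mul_apply, Fin.sum_univ_two, ← hs2]
  · simp [Matrix.mul_apply, Fin.sum_univ_two, h1]
  · simp [Matrix.mul_apply, Fin.sum_univ_two, h2]

/-- product of the four characters of `𝔽_3[C_2²]` -/
def np (d : T F3 false) : F3 :=
  (d.fst.re + d.fst.im + d.snd.re + d.snd.im) * (d.fst.re + d.fst.im - d.snd.re - d.snd.im) *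
  (d.fst.re - d.fst.im + d.snd.re - d.snd.im) * (d.fst.re - d.fst.im - d.snd.re + d.snd.im)

theorem np_eq (d : T F3 false) : np d =
    (Dbl.nrd d).re * (Dbl.nrd d).re - (Dbl.nrd d).im * (Dbl.nrd d).im := by
  simp [np, Dbl.nrd]
  ring

/-- the determinant over `T3` -/
theorem Dt_T3 (g k : Matrix (Fin 2) (Fin 2) T3) (hgk : g * k = 1) :
    ∃ m n : ℤ, Dt g = ⟨⟨m, 0⟩, ⟨n, 0⟩⟩ ∧ ((n = 0 ∧ m * m = 1) ∨ (m = 0 ∧ n * n = 1)) := by
  have key : ∀ x : Qd ZW false, conj x = x → x = ⟨⟨x.re.re, 0⟩, ⟨x.im.re, 0⟩⟩ := by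
    intro x hx
    have h1 := congrArg (fun z : Qd ZW false => z.re.im) hx
    have h2 := congrArg (fun z : Qd ZW false => z.im.im) hx
    simp at h1 h2
    ext <;> simp <;> omega
  refine ⟨_, _, key _ (conj_Dt g), ?_⟩
  have h1 := congrArg Dt hgk
  rw [Dt_mul, Dt_one, key _ (conj_Dt g), key _ (conj_Dt k)] at h1
  have h2 := congrArg (fun z : Qd ZW false => z.re.re) h1
  have h3 := congrArg (fun z : Qd ZW false => z.im.re) h1
  simp at h2 h3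
  generalize (Dt g).re.re = m at *
  generalize (Dt g).im.re = n at *
  generalize (Dt k).re.re = m' at *
  generalize (Dt k).im.re = n' at *
  have h4 : (m + n) * (m' + n') = 1 := by linear_combination h2 + h3
  have h5 : (m - n) * (m' - n') = 1 := by linear_combination h2 - h3
  rcases Int.isUnit_iff.1 (IsUnit.of_mul_eq_one _ h4) with a | a <;>
  rcases Int.isUnit_iff.1 (IsUnit.of_mul_eq_one _ h5) with b | b
  · left; have : n = 0 := by omega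
    have : m = 1 := by omega
    subst this; simp [*]
  · right; have : m = 0 := by omega
    have : n = 1 := by omega
    subst this; simp [*]
  · right; have : m = 0 := by omega
    have : n = -1 := by omega
    subst this; simp [*]
  · left; have : n = 0 := by omega
    have : m = -1 := by omega
    subst this; simp [*]

/-- compatible completions over the four rings -/
structure Loc (a b : Lam) (u1 v1 : T1) (u2 v2 : T2) (u3 v3 : T3) (u4 v4 : T4) (d : T F3 false)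
    (e : T F3 true) : Prop where
  k1 : KG (pi1 a) (pi1 b) u1 v1
  k2 : KG (pi2 a) (pi2 b) u2 v2
  k3 : KG (pi3 a) (pi3 b) u3 v3
  k4 : KG (pi4 a) (pi4 b) u4 v4
  u12 : a12 u1 = b12 u2
  v12 : a12 v1 = b12 v2
  u34 : a34 u3 = b34 u4
  v34 : a34 v3 = b34 v4
  u13 : a13 u1 = d * b13 u3
  v13 : a13 v1 = d * b13 v3
  u24 : a24 u2 = e * b24 u4
  v24 : a24 v2 = e * b24 v4

theorem exists_cmp {a b c d : Lam} (h : c * a + d * b = 1) :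
    ∃ (g1 k1 : Matrix (Fin 2) (Fin 2) T1) (g2 k2 : Matrix (Fin 2) (Fin 2) T2)
      (g3 k3 : Matrix (Fin 2) (Fin 2) T3) (g4 k4 : Matrix (Fin 2) (Fin 2) T4),
      Cmp (pi1 a) (pi1 b) g1 k1 ∧ Cmp (pi2 a) (pi2 b) g2 k2 ∧ Cmp (pi3 a) (pi3 b) g3 k3 ∧
      Cmp (pi4 a) (pi4 b) g4 k4 ∧ Dt g1 = 1 ∧
      a12 (g1 1 0) = b12 (g2 1 0) ∧ a12 (g1 1 1) = b12 (g2 1 1) ∧
      a34 (g3 1 0) = b34 (g4 1 0) ∧ a34 (g3 1 1) = b34 (g4 1 1) := by
  obtain ⟨g1, k1, p1, p2, p3, p4, p5, p6, p7⟩ := cmp1 (a := pi1 a) (b := pi1 b) (c := pi1 c)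
    (d := pi1 d) (by rw [← map_mul, ← map_mul, ← map_add, h, map_one])
  have C1 : Cmp (pi1 a) (pi1 b) g1 k1 := ⟨p1, p2, p3, p4⟩
  obtain ⟨g2, k2, q1, q2, q3, q4⟩ := TR_T2 (pi2 a) (pi2 b) (pi2 c) (pi2 d)
    (by rw [← map_mul, ← map_mul, ← map_add, h, map_one])
  obtain ⟨ε2, ε2', s1, s2, s3, s4⟩ := lift12 (pi_12 a) (pi_12 b) q1 q2 q3 q4
  obtain ⟨g2', k2', C2, t1, t2⟩ := Cmp.scale (⟨q1, q2, q3, q4⟩ : Cmp (pi2 a) (pi2 b) g2 k2) s1 s2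
  obtain ⟨g4, k4, w1, w2, w3, w4⟩ := TR_T4 (pi4 a) (pi4 b) (pi4 c) (pi4 d)
    (by rw [← map_mul, ← map_mul, ← map_add, h, map_one])
  have C4 : Cmp (pi4 a) (pi4 b) g4 k4 := ⟨w1, w2, w3, w4⟩
  obtain ⟨g3, k3, r1, r2, r3, r4⟩ := TR_T3 (pi3 a) (pi3 b) (pi3 c) (pi3 d)
    (by rw [← map_mul, ← map_mul, ← map_add, h, map_one])
  have C3 : Cmp (pi3 a) (pi3 b) g3 k3 := ⟨r1, r2, r3, r4⟩
  have L3 := (C3.map a34).KG
  have L4 := (C4.map b34).KG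
  rw [pi_34, pi_34] at L3
  obtain ⟨δ, δ', d1, d2, d3, d4, -, -⟩ := L4.unit L3
  obtain ⟨ε3, ε3', e1, e2, e3⟩ := lift34 δ δ' d1
  obtain ⟨g3', k3', C3', f1, f2⟩ := C3.scale e1 e2
  refine ⟨g1, k1, g2', k2', g3', k3', g4, k4, C1, C2, C3', C4, p5, ?_, ?_, ?_, ?_⟩
  · rw [p6, t1]; exact s3
  · rw [p7, t2]; exact s4
  · rw [f1, map_mul, e3]; exact d3.symm
  · rw [f2, map_mul, e3]; exact d4.symm

theorem Dt_a34 (g : Matrix (Fin 2) (Fin 2) T3) :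
    Dt (a34.mapMatrix g) = Qd.red2 neg_one_F4 wF4 (Dt g) :=
  Dt_red2 (neg_one_Qd neg_one_F4) (Qd.red2 neg_one_F4 wF4)
    (Qd.red2_conj neg_one_F4 wF4 wF4_conj false) g
theorem Dt_b34 (g : Matrix (Fin 2) (Fin 2) T4) :
    Dt (b34.mapMatrix g) = Qd.red2 neg_one_F4 wF4 (Dt g) :=
  Dt_red2 (neg_one_Qd neg_one_F4) (Qd.red2 neg_one_F4 wF4)
    (Qd.red2_conj neg_one_F4 wF4 wF4_conj true) g
theorem Dt_a13 (g : Matrix (Fin 2) (Fin 2) T1) :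
    Dt (a13.mapMatrix g) = Qd.map zF3 (Dt g) :=
  Dt_map (Qd.map zF3) (Qd.map_conj zF3 zF3_conj false) g
theorem Dt_b13 (g : Matrix (Fin 2) (Fin 2) T3) :
    Dt (b13.mapMatrix g) = Qd.map wF3 (Dt g) :=
  Dt_map (Qd.map wF3) (Qd.map_conj wF3 wF3_conj false) g
theorem Dt_a24 (g : Matrix (Fin 2) (Fin 2) T2) :
    Dt (a24.mapMatrix g) = Qd.map zF3 (Dt g) :=
  Dt_map (Qd.map zF3) (Qd.map_conj zF3 zF3_conj true) g
theorem Dt_b24 (g : Matrix (Fin 2) (Fin 2) T4) :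
    Dt (b24.mapMatrix g) = Qd.map wF3 (Dt g) :=
  Dt_map (Qd.map wF3) (Qd.map_conj wF3 wF3_conj true) g

theorem nrd_one_b {R : Type} [CommRing R] [Invo R] {b : Bool} : Dbl.nrd (1 : Dbl R b) = 1 := by
  simp [Dbl.nrd]

theorem cmp_Dt {R : Type} [CommRing R] [Invo R] {b : Bool} {x y : Dbl R b}
    {g k g' k' : Matrix (Fin 2) (Fin 2) (Dbl R b)} (h : Cmp x y g k)
    (h' : Cmp x y g' k') {δ : Dbl R b} (h1 : g 1 0 = δ * g' 1 0)
    (h2 : g 1 1 = δ * g' 1 1) : Dt g = Dbl.nrd δ * Dt g' := by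
  obtain ⟨s, hs⟩ := h.compare h' h1 h2
  rw [hs, Dt_mul, Dt_upper, nrd_one_b, one_mul]

theorem mod2_cmp {a b : Lam} {g3 k3 : Matrix (Fin 2) (Fin 2) T3} {g4 k4 : Matrix (Fin 2) (Fin 2) T4}
    (C3 : Cmp (pi3 a) (pi3 b) g3 k3) (C4 : Cmp (pi4 a) (pi4 b) g4 k4)
    (u34 : a34 (g3 1 0) = b34 (g4 1 0)) (v34 : a34 (g3 1 1) = b34 (g4 1 1)) {P Q m n : ℤ}
    (x1 : Dt g4 = Zet.r3 P Q) (y1 : Dt g3 = ⟨⟨m, 0⟩, ⟨n, 0⟩⟩) : (2 : ℤ) ∣ n - Q := by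
  have K3 := C3.map a34
  have K4 := C4.map b34
  rw [← pi_34, ← pi_34] at K4
  have hs' := cmp_Dt K3 K4 (δ := 1) (by rw [one_mul]; exact u34) (by rw [one_mul]; exact v34)
  rw [nrd_one_b, one_mul, Dt_a34, Dt_b34, x1, y1] at hs'
  have b1 : zF2 n = zF2 Q := congrArg (fun z : Qd F4 false => z.im.re) hs'
  exact (ZMod.intCast_eq_intCast_iff_dvd_sub Q n 2).1 b1.symm

theorem mod3_cmp24 {a b : Lam} {g2 k2 : Matrix (Fin 2) (Fin 2) T2}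
    {g4 k4 : Matrix (Fin 2) (Fin 2) T4}
    (C2 : Cmp (pi2 a) (pi2 b) g2 k2) (C4 : Cmp (pi4 a) (pi4 b) g4 k4) {P Q : ℤ}
    (x1 : Dt g4 = Zet.r3 P Q) : ∃ E : T F3 true, a24 (g2 1 0) = E * b24 (g4 1 0) ∧
      a24 (g2 1 1) = E * b24 (g4 1 1) ∧ Dbl.nrd E * ⟨zF3 P, 0⟩ = 1 := by
  have M2 := C2.map a24
  have M4 := C4.map b24
  rw [← pi_24, ← pi_24] at M4
  obtain ⟨E, E', -, -, E3, E4, -, -⟩ := M2.KG.unit M4.KG
  refine ⟨E, E3, E4, ?_⟩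
  have hs' := cmp_Dt M2 M4 E3 E4
  rw [Dt_a24, Dt_b24, Dt_T2 g2 k2 C2.gk, x1, map_one] at hs'
  have a5 : Qd.map wF3 (Zet.r3 P Q) = (⟨zF3 P, 0⟩ : Qd F3 true) := by
    have h3 : ∀ z : F3, z + 2 * z = 0 := by decide
    ext
    · simp [Zet.r3]
    · simp [Zet.r3, h3]
  rw [a5] at hs'
  exact hs'.symm

theorem mod3_cmp13 {a b : Lam} {g1 k1 : Matrix (Fin 2) (Fin 2) T1}
    {g3 k3 : Matrix (Fin 2) (Fin 2) T3}
    (C1 : Cmp (pi1 a) (pi1 b) g1 k1) (C3 : Cmp (pi3 a) (pi3 b) g3 k3) {m n : ℤ}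
    (x1 : Dt g1 = 1) (y1 : Dt g3 = ⟨⟨m, 0⟩, ⟨n, 0⟩⟩) :
    ∃ D : T F3 false, a13 (g1 1 0) = D * b13 (g3 1 0) ∧
      a13 (g1 1 1) = D * b13 (g3 1 1) ∧ Dbl.nrd D * ⟨zF3 m, zF3 n⟩ = 1 := by
  have M1 := C1.map a13
  have M3 := C3.map b13
  rw [← pi_13, ← pi_13] at M3
  obtain ⟨D, D', -, -, D3, D4, -, -⟩ := M1.KG.unit M3.KG
  refine ⟨D, D3, D4, ?_⟩
  have ht' := cmp_Dt M1 M3 D3 D4
  rw [Dt_a13, Dt_b13, x1, y1, map_one] at ht'
  have a8 : Qd.map wF3 (⟨⟨m, 0⟩, ⟨n, 0⟩⟩ : Qd ZW false) = (⟨zF3 m, zF3 n⟩ : Qd F3 false) := by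
    ext <;> simp
  rw [a8] at ht'
  exact ht'.symm

theorem zF3_eq {x y : ℤ} (h : x % 3 = y % 3) : zF3 x = zF3 y :=
  (ZMod.intCast_eq_intCast_iff' x y 3).2 h

theorem arith3 {P Q m n : ℤ} (hP : 0 < P) (hPQ : P * P - 3 * (Q * Q) = 1)
    (hmn : (n = 0 ∧ m * m = 1) ∨ (m = 0 ∧ n * n = 1)) (h2 : (2 : ℤ) ∣ n - Q)
    {D : T F3 false} {E : T F3 true} (hD : Dbl.nrd D * ⟨zF3 m, zF3 n⟩ = 1)
    (hE : Dbl.nrd E * ⟨zF3 P, 0⟩ = 1) :
    ∃ ν : F3, ν * ν = 1 ∧ np D = ν ∧ Dbl.nrd E = ⟨ν, 0⟩ := by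
  have par := unit_mod3 hP hPQ
  rw [np_eq]
  generalize Dbl.nrd D = x at *
  generalize Dbl.nrd E = y at *
  rcases hmn with ⟨rfl, h⟩ | ⟨rfl, h⟩
  · have h3 : P % 3 = 1 := par.1 (by omega)
    have h4 : zF3 P = 1 := by
      rw [zF3_eq (y := 1) (by omega)]; exact map_one _
    have h5 : m = 1 ∨ m = -1 := mul_self_eq_one_iff.1 h
    refine ⟨1, rfl, ?_, ?_⟩
    · rcases h5 with rfl | rfl
      · revert x; decide
      · revert x; decide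
    · rw [h4] at hE
      revert y; decide
  · have h3 : P % 3 = 2 := par.2 (by
      have : n = 1 ∨ n = -1 := mul_self_eq_one_iff.1 h
      omega)
    have h4 : zF3 P = 2 := by
      rw [zF3_eq (y := 2) (by omega)]; rfl
    have h5 : n = 1 ∨ n = -1 := mul_self_eq_one_iff.1 h
    refine ⟨-1, rfl, ?_, ?_⟩
    · rcases h5 with rfl | rfl
      · revert x; decide
      · revert x; decide
    · rw [h4] at hE
      revert y; decide

theorem exists_loc {a b c d : Lam} (h : c * a + d * b = 1) :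
    ∃ u1 v1 u2 v2 u3 v3 u4 v4 D E, Loc a b u1 v1 u2 v2 u3 v3 u4 v4 D E ∧
      ∃ ν : F3, ν * ν = 1 ∧ np D = ν ∧ Dbl.nrd E = ⟨ν, 0⟩ := by
  obtain ⟨g1, k1, g2, k2, g3, k3, g4, k4, C1, C2, C3, C4, p5, u12, v12, u34, v34⟩ := exists_cmp h
  obtain ⟨P, Q, x1, x2, x3⟩ := Dt_T4 g4 k4 C4.gk
  obtain ⟨m, n, y1, y2⟩ := Dt_T3 g3 k3 C3.gk
  have h2 := mod2_cmp C3 C4 u34 v34 x1 y1
  obtain ⟨E, E3, E4, hE⟩ := mod3_cmp24 C2 C4 x1
  obtain ⟨D, D3, D4, hD⟩ := mod3_cmp13 C1 C3 p5 y1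
  exact ⟨_, _, _, _, _, _, _, _, D, E, ⟨C1.KG, C2.KG, C3.KG, C4.KG, u12, v12, u34, v34, D3, D4,
    E3, E4⟩, arith3 x2 x3 y2 h2 hD hE⟩

end Vale.Agent.P246.Q24
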