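import Vale.Agent.P246.Q24.Base

/-!
# Block F: the determinant of `2 × 2` matrices over `Dbl R b`
-/

set_option linter.all false

namespace Vale.Agent.P246.Q24

variable {R : Type} [CommRing R] [Invo R] {b : Bool}

/-- the `4 × 4` matrix of a `2 × 2` matrix over `Dbl R b` -/
def big (g : Matrix (Fin 2) (Fin 2) (Dbl R b)) : Matrix (Fin 2 ⊕ Fin 2) (Fin 2 ⊕ Fin 2) R :=
  Matrix.fromBlocks (Dbl.rho (g 0 0)) (Dbl.rho (g 0 1)) (Dbl.rho (g 1 0)) (Dbl.rho (g 1 1))

theorem big_mul (g h : Matrix (Fin 2) (Fin 2) (Dbl R b)) : big (g * h) = big g * big h := by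
  rw [big, big, big, Matrix.fromBlocks_multiply]
  simp only [Matrix.mul_apply, Fin.sum_univ_two, map_add, map_mul]

theorem big_one : big (1 : Matrix (Fin 2) (Fin 2) (Dbl R b)) = 1 := by
  rw [big]
  simp [Matrix.one_apply]

/-- the determinant -/
def Dt (g : Matrix (Fin 2) (Fin 2) (Dbl R b)) : R := (big g).det

theorem Dt_mul (g h : Matrix (Fin 2) (Fin 2) (Dbl R b)) : Dt (g * h) = Dt g * Dt h := by
  rw [Dt, big_mul, Matrix.det_mul, Dt, Dt]

theorem Dt_one : Dt (1 : Matrix (Fin 2) (Fin 2) (Dbl R b)) = 1 := by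
  rw [Dt, big_one, Matrix.det_one]

theorem det_rho (x : Dbl R b) : (Dbl.rho x).det = Dbl.nrd x := by
  rw [Matrix.det_fin_two, Dbl.nrd]
  simp [Dbl.rho]
  ring

theorem Dt_upper (x y z : Dbl R b) : Dt !![x, y; 0, z] = Dbl.nrd x * Dbl.nrd z := by
  rw [Dt, big]
  simp only [Matrix.of_apply, Matrix.cons_val', Matrix.cons_val_zero, Matrix.cons_val_one,
    Matrix.cons_val_fin_one, map_zero]
  rw [Matrix.det_fromBlocks_zero₂₁, det_rho, det_rho]

theorem Dt_lower (x y z : Dbl R b) : Dt !![x, 0; y, z] = Dbl.nrd x * Dbl.nrd z := by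
  rw [Dt, big]
  simp only [Matrix.of_apply, Matrix.cons_val', Matrix.cons_val_zero, Matrix.cons_val_one,
    Matrix.cons_val_fin_one, map_zero]
  rw [Matrix.det_fromBlocks_zero₁₂, det_rho, det_rho]

/-- `C r` is central for `conj r = r` -/
theorem C_comm {r : R} (hr : conj r = r) (x : Dbl R b) : Dbl.C r * x = x * Dbl.C r := by
  ext <;> simp [hr] <;> ring

theorem Dbl.nrd_C (r : R) : Dbl.nrd (Dbl.C r : Dbl R b) = r * conj r := by
  simp [Dbl.nrd]

/-- the Schur complement identity -/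
theorem Dt_schur (g : Matrix (Fin 2) (Fin 2) (Dbl R b)) :
    Dbl.nrd (g 0 0) * Dbl.nrd (g 0 0) * Dt g = Dbl.nrd (g 0 0) *
      Dbl.nrd (Dbl.C (Dbl.nrd (g 0 0)) * g 1 1 - g 1 0 * Dbl.star (g 0 0) * g 0 1) := by
  have h1 : !![1, 0; -(g 1 0 * Dbl.star (g 0 0)), Dbl.C (Dbl.nrd (g 0 0))] * g =
      !![g 0 0, g 0 1; 0, Dbl.C (Dbl.nrd (g 0 0)) * g 1 1 -
        g 1 0 * Dbl.star (g 0 0) * g 0 1] := by
    apply Matrix.ext
    intro i j
    fin_cases i <;> fin_cases j
    · simp [Matrix.mul_apply, Fin.sum_univ_two]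
    · simp [Matrix.mul_apply, Fin.sum_univ_two]
    · simp only [Matrix.mul_apply, Fin.sum_univ_two, Fin.zero_eta, Fin.mk_one, Fin.isValue,
        Matrix.of_apply, Matrix.cons_val', Matrix.cons_val_zero, Matrix.cons_val_one,
        Matrix.cons_val_fin_one]
      rw [neg_mul, mul_assoc, Dbl.star_mul_self, C_comm (Dbl.conj_nrd _), neg_add_cancel]
    · simp only [Matrix.mul_apply, Fin.sum_univ_two, Fin.zero_eta, Fin.mk_one, Fin.isValue,
        Matrix.of_apply, Matrix.cons_val', Matrix.cons_val_zero, Matrix.cons_val_one,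
        Matrix.cons_val_fin_one]
      rw [neg_mul]
      abel
  have h2 := congrArg Dt h1
  rw [Dt_mul, Dt_lower, Dt_upper, Dbl.nrd_C, Dbl.conj_nrd] at h2
  have h3 : Dbl.nrd (1 : Dbl R b) = 1 := by simp [Dbl.nrd]
  rw [h3, one_mul] at h2
  exact h2

theorem Dt_swap (g : Matrix (Fin 2) (Fin 2) (Dbl R b)) (h : g 0 0 = 0) :
    Dt g = Dbl.nrd (g 0 1) * Dbl.nrd (g 1 0) := by
  have h1 : !![0, 1; 1, 0] * g = !![g 1 0, g 1 1; 0, g 0 1] := by
    apply Matrix.ext
    intro i j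
    fin_cases i <;> fin_cases j <;> simp [Matrix.mul_apply, Fin.sum_univ_two, h]
  have h0 : Dt (!![0, 1; 1, 0] : Matrix (Fin 2) (Fin 2) (Dbl R b)) = 1 := by
    rw [Dt, big]
    simp only [Matrix.of_apply, Matrix.cons_val', Matrix.cons_val_zero, Matrix.cons_val_one,
      Matrix.cons_val_fin_one, map_zero, map_one]
    have h4 : (Matrix.fromBlocks 0 1 1 0 : Matrix (Fin 2 ⊕ Fin 2) (Fin 2 ⊕ Fin 2) R) =
        Matrix.fromBlocks 1 1 0 1 * Matrix.fromBlocks 1 0 (-1) 1 * Matrix.fromBlocks 1 1 0 1 *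
          Matrix.fromBlocks (-1) 0 0 1 := by
      simp [Matrix.fromBlocks_multiply]
    rw [h4, Matrix.det_mul, Matrix.det_mul, Matrix.det_mul]
    simp [Matrix.det_fromBlocks_zero₂₁, Matrix.det_fromBlocks_zero₁₂, Matrix.det_neg]
  have h2 := congrArg Dt h1
  rw [Dt_mul, Dt_upper, h0, one_mul] at h2
  rw [h2, mul_comm]

/-- functoriality of the determinant -/
theorem Dt_map {S : Type} [CommRing S] [Invo S] (f : R →+* S)
    (hf : ∀ r, f (conj r) = conj (f r)) (g : Matrix (Fin 2) (Fin 2) (Dbl R b)) :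
    Dt ((Dbl.map f hf).mapMatrix g) = f (Dt g) := by
  rw [Dt, Dt, RingHom.map_det]
  congr 1
  have h : ∀ x : Dbl R b, Dbl.rho (Dbl.map f hf x) = f.mapMatrix (Dbl.rho x) := by
    intro x
    ext i j
    fin_cases i <;> fin_cases j <;> simp [Dbl.rho, hf]
  simp only [big, RingHom.mapMatrix_apply, Matrix.map_apply, h, Matrix.fromBlocks_map]

theorem Dt_red2 {S : Type} [CommRing S] [Invo S] (h2 : (-1 : S) = 1) (f : R →+* S)
    (hf : ∀ r, f (conj r) = conj (f r)) (g : Matrix (Fin 2) (Fin 2) (Dbl R b)) :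
    Dt ((Dbl.red2 h2 f hf).mapMatrix g) = f (Dt g) := by
  rw [Dt, Dt, RingHom.map_det]
  congr 1
  have h' : ∀ z : S, -z = z := fun z => by rw [← neg_one_mul, h2, one_mul]
  have h : ∀ x : Dbl R b, Dbl.rho (Dbl.red2 h2 f hf x) = f.mapMatrix (Dbl.rho x) := by
    intro x
    cases b <;> ext i j <;> fin_cases i <;> fin_cases j <;> simp [Dbl.rho, hf, h']
  simp only [big, RingHom.mapMatrix_apply, Matrix.map_apply, h, Matrix.fromBlocks_map]

theorem conj_Dt (g : Matrix (Fin 2) (Fin 2) (Dbl R b)) : conj (Dt g) = Dt g := by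
  have h : ∀ x : Dbl R b, (conj : R →+* R).mapMatrix (Dbl.rho x) =
      !![0, 1; sg R b, 0] * Dbl.rho x * !![0, sg R b; 1, 0] := by
    intro x
    cases b <;> ext i j <;> fin_cases i <;> fin_cases j <;>
      simp [Dbl.rho, Matrix.mul_apply, Fin.sum_univ_two]
  have hs : (sg R b) * sg R b = 1 := sg_mul_sg R b
  have h1 : (conj : R →+* R).mapMatrix (big g) =
      Matrix.fromBlocks !![0, 1; sg R b, 0] 0 0 !![0, 1; sg R b, 0] * big g *
      Matrix.fromBlocks !![0, sg R b; 1, 0] 0 0 !![0, sg R b; 1, 0] := by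
    simp only [big, Matrix.fromBlocks_multiply, RingHom.mapMatrix_apply, Matrix.fromBlocks_map]
    simp only [RingHom.mapMatrix_apply] at h
    simp [h]
  rw [Dt, RingHom.map_det, h1, Matrix.det_mul, Matrix.det_mul, Matrix.det_fromBlocks_zero₂₁,
    Matrix.det_fromBlocks_zero₂₁, Matrix.det_fin_two, Matrix.det_fin_two]
  simp only [Matrix.of_apply, Matrix.cons_val', Matrix.cons_val_zero, Matrix.cons_val_one,
    Matrix.cons_val_fin_one]
  linear_combination (sg R b * sg R b + 1) * (big g).det * hs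

end Vale.Agent.P246.Q24
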