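import Vale.Agent.P246.Q24.B

/-!
# Block B, part 2: the `4`-periodic resolution
-/

set_option linter.all false

namespace Vale.Agent.P246.Q24

open Vale.Agent.P246 Function QuaternionGroup

section Coeff

variable {G : Type} [Group G]

theorem coeff_mul_elt (l : ZG G) (g h : G) : (l * elt g).coeff (h * g) = l.coeff h := by
  classical
  induction l using MonoidAlgebra.induction_linear with
  | zero => rw [zero_mul]; rfl
  | add s t hs ht =>
    rw [add_mul, MonoidAlgebra.coeff_add, Finsupp.add_apply, hs, ht, MonoidAlgebra.coeff_add,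
      Finsupp.add_apply]
  | single k m =>
    rw [elt, MonoidAlgebra.single_mul_single, MonoidAlgebra.coeff_single,
      MonoidAlgebra.coeff_single, Finsupp.single_apply, Finsupp.single_apply, mul_one]
    simp only [mul_left_inj]

theorem tf_ZG (k : ℤ) (hk : k ≠ 0) (l : ZG G) (h : k • l = 0) : l = 0 := by
  apply MonoidAlgebra.ext
  ext g
  have h3 := congrArg (fun l : ZG G => l.coeff g) h
  simp only [MonoidAlgebra.coeff_smul, Finsupp.smul_apply, MonoidAlgebra.coeff_zero,
    Finsupp.coe_zero, Pi.zero_apply, smul_eq_mul] at h3 ⊢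
  rcases mul_eq_zero.1 h3 with h4 | h4
  · exact absurd h4 hk
  · exact h4

variable [Fintype G]

theorem nrm_mul_elt (g : G) : nrm G * elt g = nrm G := by
  rw [nrm, Finset.sum_mul]
  simp only [elt_mul_elt]
  exact Equiv.sum_comp (Equiv.mulRight g) (fun h => elt h)

theorem right_inv (l : ZG G) (h : ∀ g : G, l * elt g = l) : ∃ m : ℤ, l = m • nrm G := by
  refine ⟨l.coeff 1, ?_⟩
  conv_lhs => rw [← sum_coeff_elt l]
  rw [nrm, Finset.smul_sum]
  refine Finset.sum_congr rfl fun g _ => ?_
  have h1 := coeff_mul_elt l g 1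
  rw [h g, one_mul] at h1
  rw [h1]

end Coeff

section Elements

variable (n : ℕ) [NeZero n]

instance neZero_two_mul : NeZero (2 * n) := ⟨by have := NeZero.ne n; omega⟩

/-- `x` -/
noncomputable def Xn : ZG (QuaternionGroup n) := elt (a 1)
/-- `x⁻¹` -/
noncomputable def Xn' : ZG (QuaternionGroup n) := elt (a (-1))
/-- `y` -/
noncomputable def Yn : ZG (QuaternionGroup n) := elt (xa 0)
/-- the sum of the powers of `x` -/
noncomputable def Sg : ZG (QuaternionGroup n) := ∑ i : ZMod (2 * n), elt (a i)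
/-- `1 + x + ⋯ + x^(n-1)` -/
noncomputable def Nx : ZG (QuaternionGroup n) := ∑ k ∈ Finset.range n, elt (a (k : ZMod (2 * n)))

theorem two_n_zero : (n : ZMod (2 * n)) + n = 0 := by
  have h2 : ((2 * n : ℕ) : ZMod (2 * n)) = 0 := ZMod.natCast_self _
  push_cast at h2
  linear_combination h2

theorem XX' : Xn n * Xn' n = 1 := by
  rw [Xn, Xn', elt_mul_elt, a_mul_a, add_neg_cancel, a_zero, elt_one]

theorem X'X : Xn' n * Xn n = 1 := by
  rw [Xn, Xn', elt_mul_elt, a_mul_a, neg_add_cancel, a_zero, elt_one]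

theorem YX : Yn n * Xn n = Xn' n * Yn n := by
  rw [Xn, Xn', Yn, elt_mul_elt, elt_mul_elt, xa_mul_a, a_mul_xa, zero_add, sub_neg_eq_add, zero_add]

theorem YX' : Yn n * Xn' n = Xn n * Yn n := by
  rw [Xn, Xn', Yn, elt_mul_elt, elt_mul_elt, xa_mul_a, a_mul_xa, zero_add, zero_sub]

theorem YY : Yn n * Yn n = elt (a (n : ZMod (2 * n))) := by
  rw [Yn, elt_mul_elt, xa_mul_xa, add_zero, sub_zero]

theorem a_Sg (j : ZMod (2 * n)) : elt (a j) * Sg n = Sg n := by
  rw [Sg, Finset.mul_sum]
  simp only [elt_mul_elt, a_mul_a]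
  exact Equiv.sum_comp (Equiv.addLeft j) (fun i => elt (a i))

theorem Sg_a (j : ZMod (2 * n)) : Sg n * elt (a j) = Sg n := by
  rw [Sg, Finset.sum_mul]
  simp only [elt_mul_elt, a_mul_a]
  exact Equiv.sum_comp (Equiv.addRight j) (fun i => elt (a i))

theorem Sg_Y : Sg n * Yn n = Yn n * Sg n := by
  rw [Sg, Finset.sum_mul, Finset.mul_sum, Yn]
  simp only [elt_mul_elt, a_mul_xa, xa_mul_a, zero_sub, zero_add]
  exact Equiv.sum_comp (Equiv.neg (ZMod (2 * n))) (fun i => elt (xa i))

theorem Nx_Sg : Nx n * Sg n = (n : ℤ) • Sg n := by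
  rw [Nx, Finset.sum_mul]
  simp only [a_Sg, Finset.sum_const, Finset.card_range, natCast_zsmul]

theorem Y_Sg : Yn n * Sg n = ∑ i : ZMod (2 * n), elt (xa i) := by
  rw [Sg, Finset.mul_sum, Yn]
  simp only [elt_mul_elt, xa_mul_a, zero_add]

theorem coeff_Sg_one : (Sg n).coeff 1 = 1 := by
  classical
  rw [Sg, MonoidAlgebra.coeff_sum, Finsupp.finsetSum_apply, Finset.sum_eq_single 0]
  · rw [elt, MonoidAlgebra.coeff_single, a_zero, Finsupp.single_eq_same]
  · intro i _ hi
    rw [elt, MonoidAlgebra.coeff_single, Finsupp.single_eq_of_ne]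
    intro h
    rw [one_def] at h
    injection h with h
    exact hi h.symm
  · intro h
    exact absurd (Finset.mem_univ _) h

theorem coeff_YSg_one : (Yn n * Sg n).coeff 1 = 0 := by
  classical
  rw [Y_Sg, MonoidAlgebra.coeff_sum, Finsupp.finsetSum_apply]
  apply Finset.sum_eq_zero
  intro i _
  rw [elt, MonoidAlgebra.coeff_single, Finsupp.single_eq_of_ne]
  intro h
  rw [one_def] at h
  injection h

theorem coeff_Sg_y : (Sg n).coeff (xa 0) = 0 := by
  classical
  rw [Sg, MonoidAlgebra.coeff_sum, Finsupp.finsetSum_apply]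
  apply Finset.sum_eq_zero
  intro i _
  rw [elt, MonoidAlgebra.coeff_single, Finsupp.single_eq_of_ne]
  intro h
  injection h

theorem coeff_YSg_y : (Yn n * Sg n).coeff (xa 0) = 1 := by
  classical
  rw [Y_Sg, MonoidAlgebra.coeff_sum, Finsupp.finsetSum_apply, Finset.sum_eq_single 0]
  · rw [elt, MonoidAlgebra.coeff_single, Finsupp.single_eq_same]
  · intro i _ hi
    rw [elt, MonoidAlgebra.coeff_single, Finsupp.single_eq_of_ne]
    intro h
    injection h with h
    exact hi h.symm
  · intro h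
    exact absurd (Finset.mem_univ _) h

/-- independence -/
theorem Sg_indep (p q : ℤ) (h : p • Sg n + q • (Yn n * Sg n) = 0) : p = 0 ∧ q = 0 := by
  have h1 := congrArg (fun l : ZG (QuaternionGroup n) => l.coeff 1) h
  have h2 := congrArg (fun l : ZG (QuaternionGroup n) => l.coeff (xa 0)) h
  simp only [MonoidAlgebra.coeff_add, MonoidAlgebra.coeff_smul, Finsupp.add_apply,
    Finsupp.smul_apply, coeff_Sg_one, coeff_YSg_one, coeff_Sg_y, coeff_YSg_y,
    MonoidAlgebra.coeff_zero, Finsupp.coe_zero, Pi.zero_apply, smul_eq_mul, mul_one, mul_zero,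
    add_zero, zero_add] at h1 h2
  exact ⟨h1, h2⟩

/-- powers of `x` are congruent to one -/
theorem a_sub_one (i : ZMod (2 * n)) : ∃ l, elt (a i) - 1 = l * (Xn n - 1) := by
  have key : ∀ k : ℕ, ∃ l, elt (a (k : ZMod (2 * n))) - 1 = l * (Xn n - 1) := by
    intro k
    induction k with
    | zero =>
      refine ⟨0, ?_⟩
      rw [Nat.cast_zero, a_zero, elt_one, sub_self, zero_mul]
    | succ k ih =>
      obtain ⟨l, hl⟩ := ih
      refine ⟨l + elt (a (k : ZMod (2 * n))), ?_⟩
      rw [add_mul, ← hl, Xn, mul_sub, mul_one, elt_mul_elt, a_mul_a, Nat.cast_succ]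
      abel
  have := key i.val
  rwa [ZMod.natCast_zmod_val] at this

/-- normal form modulo `x - 1` -/
theorem mod_X (v : ZG (QuaternionGroup n)) :
    ∃ (l : ZG (QuaternionGroup n)) (p q : ℤ), v = l * (Xn n - 1) + p • 1 + q • Yn n := by
  induction v using MonoidAlgebra.induction_linear with
  | zero => exact ⟨0, 0, 0, by simp⟩
  | add s t hs ht =>
    obtain ⟨l, p, q, rfl⟩ := hs
    obtain ⟨l', p', q', rfl⟩ := ht
    refine ⟨l + l', p + p', q + q', ?_⟩
    rw [add_mul, add_smul, add_smul]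
    abel
  | single g m =>
    have h1 : (MonoidAlgebra.single g m : ZG (QuaternionGroup n)) = m • elt g := by
      rw [elt, MonoidAlgebra.smul_single, smul_eq_mul, mul_one]
    rw [h1]
    rcases g with i | i
    · obtain ⟨l, hl⟩ := a_sub_one n i
      refine ⟨m • l, m, 0, ?_⟩
      rw [smul_mul_assoc, ← hl, zero_smul, add_zero, ← smul_add, sub_add_cancel]
    · obtain ⟨l, hl⟩ := a_sub_one n i
      refine ⟨m • (Yn n * l), 0, m, ?_⟩
      have h2 : (elt (xa i) : ZG (QuaternionGroup n)) = Yn n * elt (a i) := by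
        rw [Yn, elt_mul_elt, xa_mul_a, zero_add]
      rw [smul_mul_assoc, mul_assoc, ← hl, zero_smul, add_zero, ← smul_add, mul_sub, mul_one,
        sub_add_cancel, h2]

theorem X_Sg : Xn n * Sg n = Sg n := a_Sg n 1
theorem X'_Sg : Xn' n * Sg n = Sg n := a_Sg n (-1)
theorem Sg_X : Sg n * Xn n = Sg n := Sg_a n 1

/-- `v Σ = 0` -/
theorem of_mul_Sg (v : ZG (QuaternionGroup n)) (h : v * Sg n = 0) : ∃ l, v = l * (Xn n - 1) := by
  obtain ⟨l, p, q, rfl⟩ := mod_X n v
  have h1 : (l * (Xn n - 1) + p • 1 + q • Yn n) * Sg n = p • Sg n + q • (Yn n * Sg n) := by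
    rw [add_mul, add_mul, mul_assoc, sub_mul, X_Sg, one_mul, sub_self, mul_zero, zero_add,
      smul_mul_assoc, one_mul, smul_mul_assoc]
  rw [h1] at h
  obtain ⟨rfl, rfl⟩ := Sg_indep n p q h
  exact ⟨l, by simp⟩

/-- `v x = v` -/
theorem of_mul_X (v : ZG (QuaternionGroup n)) (h : v * Xn n = v) :
    ∃ p q : ℤ, v = p • Sg n + q • (Yn n * Sg n) := by
  have h1 : ∀ (k : ℕ), v * elt (a (k : ZMod (2 * n))) = v := by
    intro k
    induction k with
    | zero => rw [Nat.cast_zero, a_zero, elt_one, mul_one]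
    | succ k ih =>
      have h2 : (elt (a ((k + 1 : ℕ) : ZMod (2 * n))) : ZG (QuaternionGroup n))
          = elt (a (k : ZMod (2 * n))) * Xn n := by
        rw [Xn, elt_mul_elt, a_mul_a, Nat.cast_succ]
      rw [h2, ← mul_assoc, ih, h]
  have h2 : ∀ i : ZMod (2 * n), v * elt (a i) = v := by
    intro i
    have := h1 i.val
    rwa [ZMod.natCast_zmod_val] at this
  refine ⟨v.coeff 1, v.coeff (xa 0), ?_⟩
  have h3 : ∀ i : ZMod (2 * n), v.coeff (a i) = v.coeff 1 := by
    intro i
    have := coeff_mul_elt v (a i) 1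
    rwa [h2, one_mul] at this
  have h4 : ∀ i : ZMod (2 * n), v.coeff (xa i) = v.coeff (xa 0) := by
    intro i
    have := coeff_mul_elt v (a i) (xa 0)
    rwa [h2, xa_mul_a, zero_add] at this
  conv_lhs => rw [← sum_coeff_elt v]
  let e : ZMod (2 * n) ⊕ ZMod (2 * n) ≃ QuaternionGroup n :=
    { toFun := fun i => match i with
        | Sum.inl j => a j
        | Sum.inr j => xa j
      invFun := fun g => match g with
        | a j => Sum.inl j
        | xa j => Sum.inr j
      left_inv := by rintro (x | x) <;> rfl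
      right_inv := by rintro (x | x) <;> rfl }
  rw [← Equiv.sum_comp e, Fintype.sum_sum_type, Y_Sg, Sg, Finset.smul_sum, Finset.smul_sum]
  congr 1
  · refine Finset.sum_congr rfl fun i _ => ?_
    change v.coeff (a i) • elt (a i) = _
    rw [h3]
  · refine Finset.sum_congr rfl fun i _ => ?_
    change v.coeff (xa i) • elt (xa i) = _
    rw [h4]

end Elements

end Vale.Agent.P246.Q24
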