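import Vale.Agent.P246.Q24.G1

/-!
# Block G: the order `{(a, b; 3c, d)}` of `M_2(ℤ)`
-/

set_option linter.all false

namespace Vale.Agent.P246.Q24

/-- the matrix `(a, b; 3c, d)` -/
@[ext] structure Gm where
  a : ℤ
  b : ℤ
  c : ℤ
  d : ℤ
deriving DecidableEq

namespace Gm

instance : Zero Gm := ⟨⟨0, 0, 0, 0⟩⟩
instance : One Gm := ⟨⟨1, 0, 0, 1⟩⟩
instance : Add Gm := ⟨fun x y => ⟨x.a + y.a, x.b + y.b, x.c + y.c, x.d + y.d⟩⟩
instance : Neg Gm := ⟨fun x => ⟨-x.a, -x.b, -x.c, -x.d⟩⟩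
instance : Sub Gm := ⟨fun x y => ⟨x.a - y.a, x.b - y.b, x.c - y.c, x.d - y.d⟩⟩
instance : Mul Gm := ⟨fun x y => ⟨x.a * y.a + 3 * (x.b * y.c), x.a * y.b + x.b * y.d,
  x.c * y.a + x.d * y.c, 3 * (x.c * y.b) + x.d * y.d⟩⟩

@[simp] theorem zero_a : (0 : Gm).a = 0 := rfl
@[simp] theorem zero_b : (0 : Gm).b = 0 := rfl
@[simp] theorem zero_c : (0 : Gm).c = 0 := rfl
@[simp] theorem zero_d : (0 : Gm).d = 0 := rfl
@[simp] theorem one_a : (1 : Gm).a = 1 := rfl
@[simp] theorem one_b : (1 : Gm).b = 0 := rfl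
@[simp] theorem one_c : (1 : Gm).c = 0 := rfl
@[simp] theorem one_d : (1 : Gm).d = 1 := rfl
@[simp] theorem add_a (x y : Gm) : (x + y).a = x.a + y.a := rfl
@[simp] theorem add_b (x y : Gm) : (x + y).b = x.b + y.b := rfl
@[simp] theorem add_c (x y : Gm) : (x + y).c = x.c + y.c := rfl
@[simp] theorem add_d (x y : Gm) : (x + y).d = x.d + y.d := rfl
@[simp] theorem neg_a (x : Gm) : (-x).a = -x.a := rfl
@[simp] theorem neg_b (x : Gm) : (-x).b = -x.b := rfl
@[simp] theorem neg_c (x : Gm) : (-x).c = -x.c := rfl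
@[simp] theorem neg_d (x : Gm) : (-x).d = -x.d := rfl
@[simp] theorem sub_a (x y : Gm) : (x - y).a = x.a - y.a := rfl
@[simp] theorem sub_b (x y : Gm) : (x - y).b = x.b - y.b := rfl
@[simp] theorem sub_c (x y : Gm) : (x - y).c = x.c - y.c := rfl
@[simp] theorem sub_d (x y : Gm) : (x - y).d = x.d - y.d := rfl
@[simp] theorem mul_a (x y : Gm) : (x * y).a = x.a * y.a + 3 * (x.b * y.c) := rfl
@[simp] theorem mul_b (x y : Gm) : (x * y).b = x.a * y.b + x.b * y.d := rfl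
@[simp] theorem mul_c (x y : Gm) : (x * y).c = x.c * y.a + x.d * y.c := rfl
@[simp] theorem mul_d (x y : Gm) : (x * y).d = 3 * (x.c * y.b) + x.d * y.d := rfl

instance : AddCommGroup Gm where
  add_assoc a b c := by ext <;> simp [add_assoc]
  zero_add a := by ext <;> simp
  add_zero a := by ext <;> simp
  add_comm a b := by ext <;> simp [add_comm]
  neg_add_cancel a := by ext <;> simp
  sub_eq_add_neg a b := by ext <;> simp [sub_eq_add_neg]
  nsmul := nsmulRec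
  zsmul := zsmulRec

instance : Ring Gm where
  __ := (inferInstance : AddCommGroup Gm)
  mul_assoc a b c := by ext <;> simp <;> ring
  one_mul a := by ext <;> simp
  mul_one a := by ext <;> simp
  left_distrib a b c := by ext <;> simp <;> ring
  right_distrib a b c := by ext <;> simp <;> ring
  zero_mul a := by ext <;> simp
  mul_zero a := by ext <;> simp

/-- equivalence of columns under invertible matrices -/
def Eqv (A B A' B' : Gm) : Prop := ∃ g h : Matrix (Fin 2) (Fin 2) Gm, g * h = 1 ∧ h * g = 1 ∧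
  g 0 0 * A + g 0 1 * B = A' ∧ g 1 0 * A + g 1 1 * B = B'

theorem Eqv.trans {A B A' B' A'' B'' : Gm} (h1 : Eqv A B A' B') (h2 : Eqv A' B' A'' B'') :
    Eqv A B A'' B'' := by
  obtain ⟨g, h, a1, a2, a3, a4⟩ := h1
  obtain ⟨g', h', b1, b2, b3, b4⟩ := h2
  refine ⟨g' * g, h * h', ?_, ?_, ?_, ?_⟩
  · rw [mul_assoc, ← mul_assoc g, a1, one_mul, b1]
  · rw [mul_assoc, ← mul_assoc h', b2, one_mul, a2]
  · simp only [Matrix.mul_apply, Fin.sum_univ_two]
    rw [← b3, ← a3, ← a4]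
    noncomm_ring
  · simp only [Matrix.mul_apply, Fin.sum_univ_two]
    rw [← b4, ← a3, ← a4]
    noncomm_ring

/-- unimodular columns -/
def Um (A B : Gm) : Prop := ∃ C D : Gm, C * A + D * B = 1

theorem Um.eqv {A B A' B' : Gm} (h : Um A B) (h1 : Eqv A B A' B') : Um A' B' := by
  obtain ⟨C, D, hCD⟩ := h
  obtain ⟨g, k, a1, a2, rfl, rfl⟩ := h1
  refine ⟨C * k 0 0 + D * k 1 0, C * k 0 1 + D * k 1 1, ?_⟩
  have e1 := congrFun (congrFun a2 0) 0
  have e2 := congrFun (congrFun a2 0) 1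
  have e3 := congrFun (congrFun a2 1) 0
  have e4 := congrFun (congrFun a2 1) 1
  simp only [Matrix.mul_apply, Fin.sum_univ_two] at e1 e2 e3 e4
  have : (C * k 0 0 + D * k 1 0) * (g 0 0 * A + g 0 1 * B) +
      (C * k 0 1 + D * k 1 1) * (g 1 0 * A + g 1 1 * B) =
      C * ((k 0 0 * g 0 0 + k 0 1 * g 1 0) * A + (k 0 0 * g 0 1 + k 0 1 * g 1 1) * B) +
      D * ((k 1 0 * g 0 0 + k 1 1 * g 1 0) * A + (k 1 0 * g 0 1 + k 1 1 * g 1 1) * B) := by
    noncomm_ring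
  rw [this, e1, e2, e3, e4]
  simpa using hCD

/-- integer matrices `(x, y; z, w)` of determinant `1` sending `(a, b)` to `(h, 0)` -/
theorem bez (a b : ℤ) : ∃ x y z w h : ℤ, x * w - y * z = 1 ∧ x * a + y * b = h ∧
    z * a + w * b = 0 := by
  by_cases h : (Int.gcd a b : ℤ) = 0
  · have h1 : Int.gcd a b = 0 := by exact_mod_cast h
    rw [Int.gcd_eq_zero_iff] at h1
    obtain ⟨rfl, rfl⟩ := h1
    exact ⟨1, 0, 0, 1, 0, by norm_num, by norm_num, by norm_num⟩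
  · obtain ⟨a', ha⟩ := Int.gcd_dvd_left a b
    obtain ⟨b', hb⟩ := Int.gcd_dvd_right a b
    have h2 := Int.gcd_eq_gcd_ab a b
    refine ⟨Int.gcdA a b, Int.gcdB a b, -b', a', Int.gcd a b, ?_, ?_, ?_⟩
    · apply mul_left_cancel₀ h
      linear_combination (-1 : ℤ) * h2 - Int.gcdA a b * ha - Int.gcdB a b * hb
    · rw [h2]; ring
    · linear_combination (-b') * ha + a' * hb

/-- operation on the rows of type two -/
theorem op_S (A B : Gm) {x y z w : ℤ} (h : x * w - y * z = 1) :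
    Eqv A B ⟨A.a, A.b, x * A.c + y * B.c, x * A.d + y * B.d⟩
      ⟨B.a, B.b, z * A.c + w * B.c, z * A.d + w * B.d⟩ := by
  refine ⟨!![⟨1, 0, 0, x⟩, ⟨0, 0, 0, y⟩; ⟨0, 0, 0, z⟩, ⟨1, 0, 0, w⟩],
    !![⟨1, 0, 0, w⟩, ⟨0, 0, 0, -y⟩; ⟨0, 0, 0, -z⟩, ⟨1, 0, 0, x⟩], ?_, ?_, ?_, ?_⟩
  · apply Matrix.ext
    intro i j
    fin_cases i <;> fin_cases j <;>
      simp [Matrix.mul_apply, Fin.sum_univ_two] <;> ext <;> simp <;>
      first | linear_combination h | ring1
  · apply Matrix.ext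
    intro i j
    fin_cases i <;> fin_cases j <;>
      simp [Matrix.mul_apply, Fin.sum_univ_two] <;> ext <;> simp <;>
      first | linear_combination h | ring1
  · ext <;> simp
  · ext <;> simp

/-- operation on the rows of type one -/
theorem op_P (A B : Gm) {x y z w : ℤ} (h : x * w - y * z = 1) :
    Eqv A B ⟨x * A.a + y * B.a, x * A.b + y * B.b, A.c, A.d⟩
      ⟨z * A.a + w * B.a, z * A.b + w * B.b, B.c, B.d⟩ := by
  refine ⟨!![⟨x, 0, 0, 1⟩, ⟨y, 0, 0, 0⟩; ⟨z, 0, 0, 0⟩, ⟨w, 0, 0, 1⟩],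
    !![⟨w, 0, 0, 1⟩, ⟨-y, 0, 0, 0⟩; ⟨-z, 0, 0, 0⟩, ⟨x, 0, 0, 1⟩], ?_, ?_, ?_, ?_⟩
  · apply Matrix.ext
    intro i j
    fin_cases i <;> fin_cases j <;>
      simp [Matrix.mul_apply, Fin.sum_univ_two] <;> ext <;> simp <;>
      first | linear_combination h | ring1
  · apply Matrix.ext
    intro i j
    fin_cases i <;> fin_cases j <;>
      simp [Matrix.mul_apply, Fin.sum_univ_two] <;> ext <;> simp <;>
      first | linear_combination h | ring1
  · ext <;> simp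
  · ext <;> simp

/-- multiplication of the first entry by an element of `Γ_0(3)` -/
theorem op_G (A B : Gm) {x y z w : ℤ} (h : x * w - 3 * (y * z) = 1) :
    Eqv A B (⟨x, y, z, w⟩ * A) B := by
  refine ⟨!![⟨x, y, z, w⟩, 0; 0, 1], !![⟨w, -y, -z, x⟩, 0; 0, 1], ?_, ?_, ?_, ?_⟩
  · apply Matrix.ext
    intro i j
    fin_cases i <;> fin_cases j <;>
      simp [Matrix.mul_apply, Fin.sum_univ_two] <;> ext <;> simp <;>
      first | linear_combination h | ring1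
  · apply Matrix.ext
    intro i j
    fin_cases i <;> fin_cases j <;>
      simp [Matrix.mul_apply, Fin.sum_univ_two] <;> ext <;> simp <;>
      first | linear_combination h | ring1
  · simp
  · simp

/-- mixed operation on the first row of `A` and the second row of `B` -/
theorem op_M (A B : Gm) {x y z w : ℤ} (h : x * w - 3 * (y * z) = 1) :
    Eqv A B ⟨x * A.a + 3 * (y * B.c), x * A.b + y * B.d, A.c, A.d⟩
      ⟨B.a, B.b, z * A.a + w * B.c, 3 * (z * A.b) + w * B.d⟩ := by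
  refine ⟨!![⟨x, 0, 0, 1⟩, ⟨0, y, 0, 0⟩; ⟨0, 0, z, 0⟩, ⟨1, 0, 0, w⟩],
    !![⟨w, 0, 0, 1⟩, ⟨0, -y, 0, 0⟩; ⟨0, 0, -z, 0⟩, ⟨1, 0, 0, x⟩], ?_, ?_, ?_, ?_⟩
  · apply Matrix.ext
    intro i j
    fin_cases i <;> fin_cases j <;>
      simp [Matrix.mul_apply, Fin.sum_univ_two] <;> ext <;> simp <;>
      first | linear_combination h | ring1
  · apply Matrix.ext
    intro i j
    fin_cases i <;> fin_cases j <;>
      simp [Matrix.mul_apply, Fin.sum_univ_two] <;> ext <;> simp <;>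
      first | linear_combination h | ring1
  · ext <;> simp
  · ext <;> simp

theorem um_iff {A B : Gm} (h : Um A B) : ∃ p1 p2 q1 q2 r1 r2 s1 s2 : ℤ,
    (p1 * A.a + 3 * (q1 * A.c) + p2 * B.a + 3 * (q2 * B.c) = 1) ∧
    (p1 * A.b + q1 * A.d + p2 * B.b + q2 * B.d = 0) ∧
    (3 * (r1 * A.b) + s1 * A.d + 3 * (r2 * B.b) + s2 * B.d = 1) := by
  obtain ⟨C, D, h⟩ := h
  refine ⟨C.a, D.a, C.b, D.b, C.c, D.c, C.d, D.d, ?_, ?_, ?_⟩
  · have := congrArg Gm.a h
    simp at this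
    linarith
  · have := congrArg Gm.b h
    simp at this
    linarith
  · have := congrArg Gm.d h
    simp at this
    linarith

theorem reduce (A B : Gm) (h : Um A B) : Eqv A B 1 0 := by
  -- step 1
  obtain ⟨x, y, z, w, g, e1, e2, e3⟩ := bez A.d B.d
  have s1 := op_S A B e1
  rw [e2, e3] at s1
  have u1 := h.eqv s1
  refine s1.trans ?_
  generalize x * A.c + y * B.c = c1 at *
  generalize z * A.c + w * B.c = c2 at *
  -- step 2
  obtain ⟨x', y', z', w', k, f1, f2, f3⟩ := bez A.b B.b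
  have s2 := op_P ⟨A.a, A.b, c1, g⟩ ⟨B.a, B.b, c2, 0⟩ f1
  simp only [f2, f3] at s2
  have u2 := u1.eqv s2
  refine s2.trans ?_
  generalize x' * A.a + y' * B.a = a1 at *
  generalize z' * A.a + w' * B.a = a2 at *
  -- step 3
  obtain ⟨p1, p2, q1, q2, r1, r2, t1, t2, i1, i2, i3⟩ := um_iff u2
  simp only [mul_zero, add_zero] at i1 i2 i3
  have s3 := op_G ⟨a1, k, c1, g⟩ ⟨a2, 0, c2, 0⟩ (x := g) (y := -k) (z := r1) (w := t1)
    (by linear_combination i3)
  have v3 : (⟨g, -k, r1, t1⟩ : Gm) * ⟨a1, k, c1, g⟩ =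
      ⟨g * a1 + 3 * (-k * c1), 0, r1 * a1 + t1 * c1, 1⟩ := by
    ext
    · simp
    · simp; ring
    · simp
    · simp; linear_combination i3
  rw [v3] at s3
  have u3 := u2.eqv s3
  refine s3.trans ?_
  generalize g * a1 + 3 * (-k * c1) = a1' at *
  generalize r1 * a1 + t1 * c1 = c1' at *
  -- step 4
  obtain ⟨x'', y'', z'', w'', l, g1, g2, g3⟩ := bez a1' a2
  have s4 := op_P ⟨a1', 0, c1', 1⟩ ⟨a2, 0, c2, 0⟩ g1
  simp only [g2, g3, mul_zero, add_zero] at s4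
  have u4 := u3.eqv s4
  refine s4.trans ?_
  -- step 5
  obtain ⟨m1, m2, n1, n2, -, -, -, -, j1, j2, -⟩ := um_iff u4
  simp only [mul_zero, add_zero, mul_one, zero_add] at j1 j2
  have s5 := op_M ⟨l, 0, c1', 1⟩ ⟨0, 0, c2, 0⟩ (x := m1) (y := n2) (z := -c2) (w := l)
    (by rw [j2] at j1; linear_combination j1)
  have v5 : m1 * l + 3 * (n2 * c2) = 1 := by rw [j2] at j1; linear_combination j1
  simp only [v5, mul_zero, add_zero] at s5
  have w5 : -c2 * l + l * c2 = 0 := by ring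
  rw [w5] at s5
  refine s5.trans ?_
  -- step 6
  have s6 := op_G ⟨1, 0, c1', 1⟩ ⟨0, 0, 0, 0⟩ (x := 1) (y := 0) (z := -c1') (w := 1) (by norm_num)
  have v6 : (⟨1, 0, -c1', 1⟩ : Gm) * ⟨1, 0, c1', 1⟩ = 1 := by
    ext <;> simp
  rw [v6] at s6
  exact s6

theorem TR_Gm : TR Gm := by
  intro a b c d h
  exact reduce a b ⟨c, d, h⟩

end Gm

end Vale.Agent.P246.Q24
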