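import Vale.Agent.P246.Q24.E1

/-!
# Block E: the four projections of `ℤ[Q_24]`
-/

set_option linter.all false

namespace Vale.Agent.P246.Q24

open Vale.Agent.P246 QuaternionGroup

section rep

variable {K : Type} [CommRing K] [Invo K] {b : Bool}

/-- the image `w t⁻¹` of `x` -/
def xx (w : K) (b : Bool) : T K b := ⟨⟨0, sg K b * w⟩, 0⟩
/-- the image of `y` -/
def yy (K : Type) [CommRing K] [Invo K] (b : Bool) : T K b := ⟨0, 1⟩

theorem xx_sq (w : K) : xx w b * xx w b = ⟨⟨sg K b * (w * w), 0⟩, 0⟩ := by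
  cases b <;> ext <;> simp [xx]

theorem xx_six (w : K) (hw : w * w * w = 1) : xx w b ^ 6 = (⟨⟨sg K b, 0⟩, 0⟩ : T K b) := by
  have h : xx w b ^ 6 = (xx w b * xx w b) * (xx w b * xx w b) * (xx w b * xx w b) := by
    noncomm_ring
  have h6 : w * w * (w * w) * (w * w) = 1 := by linear_combination (w * w * w + 1) * hw
  rw [h, xx_sq]
  cases b <;> ext <;> simp [h6]

theorem xx_twelve (w : K) (hw : w * w * w = 1) : xx w b ^ (2 * 6) = (1 : T K b) := by
  rw [two_mul, pow_add, xx_six w hw]
  cases b <;> ext <;> simp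

theorem yy_sq (w : K) (hw : w * w * w = 1) : yy K b * yy K b = xx w b ^ 6 := by
  rw [xx_six w hw]
  cases b <;> ext <;> simp [yy]

theorem xx_yy (w : K) (hw : w * w * w = 1) (hc : w * conj w = 1) :
    xx w b * yy K b * xx w b = yy K b := by
  cases b <;> ext <;> simp [yy, xx, hc]

/-- the representation of `Q_24` in `T K b` -/
def qrep (w : K) (hw : w * w * w = 1) (hc : w * conj w = 1) : Q24 →* T K b :=
  quatHom (xx w b) (yy K b) (xx_twelve w hw) (yy_sq w hw) (xx_yy w hw hc)

/-- the projection `ℤ[Q_24] → T K b` -/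
noncomputable def prj (w : K) (hw : w * w * w = 1) (hc : w * conj w = 1) : Lam →+* T K b :=
  (MonoidAlgebra.lift ℤ (T K b) Q24 (qrep (b := b) w hw hc)).toRingHom

theorem prj_elt (w : K) (hw : w * w * w = 1) (hc : w * conj w = 1) (g : Q24) :
    prj (b := b) w hw hc (elt g) = qrep (b := b) w hw hc g := by
  simp [prj, elt]

theorem prj_X (w : K) (hw : w * w * w = 1) (hc : w * conj w = 1) :
    prj (b := b) w hw hc X = xx w b := by
  rw [X, prj_elt]
  exact pow_one _

theorem prj_Y (w : K) (hw : w * w * w = 1) (hc : w * conj w = 1) :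
    prj (b := b) w hw hc Y = yy K b := by
  rw [Y, prj_elt]
  change yy K b * xx w b ^ 0 = _
  rw [pow_zero, mul_one]

end rep

/-- two ring homomorphisms out of `ℤ[Q_24]` agree if they agree on `X` and `Y` -/
theorem Lam_hom_ext {R : Type*} [Ring R] {f g : Lam →+* R} (h1 : f X = g X) (h2 : f Y = g Y) :
    f = g := by
  apply MonoidAlgebra.ringHom_ext'
  · exact RingHom.ext_int _ _
  · exact quat_hom_ext h1 h2

/-- `ω` -/
def om : ZW := ⟨0, 1⟩

/-- the projection to `ℤ[C_2²]` -/
noncomputable def pi1 : Lam →+* T1 := prj (1 : ℤ) (by norm_num) (by simp)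
/-- the projection to the Lipschitz quaternions -/
noncomputable def pi2 : Lam →+* T2 := prj (1 : ℤ) (by norm_num) (by simp)
/-- the projection to `O[C_2]` -/
noncomputable def pi3 : Lam →+* T3 := prj om (by decide) (by decide)
/-- the projection to `B` -/
noncomputable def pi4 : Lam →+* T4 := prj om (by decide) (by decide)

theorem pi1_X : pi1 X = xx 1 false := prj_X _ _ _
theorem pi2_X : pi2 X = xx 1 true := prj_X _ _ _
theorem pi3_X : pi3 X = xx om false := prj_X _ _ _
theorem pi4_X : pi4 X = xx om true := prj_X _ _ _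
theorem pi1_Y : pi1 Y = yy ℤ false := prj_Y _ _ _
theorem pi2_Y : pi2 Y = yy ℤ true := prj_Y _ _ _
theorem pi3_Y : pi3 Y = yy ZW false := prj_Y _ _ _
theorem pi4_Y : pi4 Y = yy ZW true := prj_Y _ _ _

theorem pi_12 (a : Lam) : a12 (pi1 a) = b12 (pi2 a) := by
  have h : a12.comp pi1 = b12.comp pi2 := by
    apply Lam_hom_ext
    · rw [RingHom.comp_apply, RingHom.comp_apply, pi1_X, pi2_X]; decide
    · rw [RingHom.comp_apply, RingHom.comp_apply, pi1_Y, pi2_Y]; decide
  exact DFunLike.congr_fun h a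

theorem pi_34 (a : Lam) : a34 (pi3 a) = b34 (pi4 a) := by
  have h : a34.comp pi3 = b34.comp pi4 := by
    apply Lam_hom_ext
    · rw [RingHom.comp_apply, RingHom.comp_apply, pi3_X, pi4_X]; decide
    · rw [RingHom.comp_apply, RingHom.comp_apply, pi3_Y, pi4_Y]; decide
  exact DFunLike.congr_fun h a

theorem pi_13 (a : Lam) : a13 (pi1 a) = b13 (pi3 a) := by
  have h : a13.comp pi1 = b13.comp pi3 := by
    apply Lam_hom_ext
    · rw [RingHom.comp_apply, RingHom.comp_apply, pi1_X, pi3_X]; decide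
    · rw [RingHom.comp_apply, RingHom.comp_apply, pi1_Y, pi3_Y]; decide
  exact DFunLike.congr_fun h a

theorem pi_24 (a : Lam) : a24 (pi2 a) = b24 (pi4 a) := by
  have h : a24.comp pi2 = b24.comp pi4 := by
    apply Lam_hom_ext
    · rw [RingHom.comp_apply, RingHom.comp_apply, pi2_X, pi4_X]; decide
    · rw [RingHom.comp_apply, RingHom.comp_apply, pi2_Y, pi4_Y]; decide
  exact DFunLike.congr_fun h a

/-- the element `∑ u_i X^i + ∑ v_i Y X^i` -/
noncomputable def comb (u v : Fin 12 → ℤ) : Lam :=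
  ∑ i : Fin 12, u i • X ^ (i : ℕ) + ∑ i : Fin 12, v i • (Y * X ^ (i : ℕ))

theorem elt_mul (g h : Q24) : elt g * elt h = elt (g * h) := by
  simp [elt, MonoidAlgebra.single_mul_single]

theorem X_pow (k : ℕ) : X ^ k = elt (a 1 ^ k : Q24) := by
  induction k with
  | zero => rw [pow_zero, pow_zero]; rfl
  | succ k ih => rw [pow_succ, ih, pow_succ, X, elt_mul]

theorem X_pow_val (i : ZMod (2 * 6)) : X ^ i.val = elt (a i : Q24) := by
  have : NeZero (2 * 6) := ⟨by decide⟩
  rw [X_pow, a_one_pow, ZMod.natCast_zmod_val]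

theorem comb_add (u v u' v' : Fin 12 → ℤ) : comb u v + comb u' v' = comb (u + u') (v + v') := by
  simp only [comb, Pi.add_apply, add_smul, Finset.sum_add_distrib]
  abel

theorem comb_single_a (i : Fin 12) (n : ℤ) : comb (Pi.single i n) 0 = n • X ^ (i : ℕ) := by
  rw [comb]
  rw [Finset.sum_eq_single i, Pi.single_eq_same]
  · simp
  · intro j _ hj
    rw [Pi.single_eq_of_ne hj, zero_smul]
  · simp

theorem comb_single_xa (i : Fin 12) (n : ℤ) : comb 0 (Pi.single i n) = n • (Y * X ^ (i : ℕ)) := by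
  rw [comb]
  rw [Finset.sum_eq_single (s := Finset.univ) (f := fun j : Fin 12 =>
    (Pi.single i n : Fin 12 → ℤ) j • (Y * X ^ (j : ℕ))) i, Pi.single_eq_same]
  · simp
  · intro j _ hj
    rw [Pi.single_eq_of_ne hj, zero_smul]
  · simp

theorem exists_comb (x : Lam) : ∃ u v, x = comb u v := by
  induction x using MonoidAlgebra.induction_linear with
  | zero => exact ⟨0, 0, by simp [comb]⟩
  | add x y hx hy =>
    obtain ⟨u, v, rfl⟩ := hx
    obtain ⟨u', v', rfl⟩ := hy
    exact ⟨u + u', v + v', comb_add _ _ _ _⟩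
  | single g n =>
    have h0 : (MonoidAlgebra.single g n : Lam) = n • elt g := by
      simp [elt]
    rw [h0]
    rcases g with i | i
    · let j : Fin 12 := i
      refine ⟨Pi.single j n, 0, ?_⟩
      rw [comb_single_a, ← X_pow_val]
      rfl
    · let j : Fin 12 := i
      refine ⟨0, Pi.single j n, ?_⟩
      rw [comb_single_xa]
      have : (xa i : Q24) = xa 0 * a i := by rw [xa_mul_a, zero_add]
      rw [this, ← elt_mul, ← X_pow_val]
      rfl

end Vale.Agent.P246.Q24
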