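import Vale.Agent.P246.Q24.H1

/-!
# Block H: the Lipschitz quaternions
-/

set_option linter.all false

namespace Vale.Agent.P246.Q24

instance : Nontrivial (Qd ℤ true) := ⟨0, 1, by decide⟩

namespace Lip

/-- norm on `ℤ[i]` -/
def nz (x : Qd ℤ true) : ℤ := x.re * x.re + x.im * x.im

theorem nz_nonneg (x : Qd ℤ true) : 0 ≤ nz x := by
  exact add_nonneg (mul_self_nonneg _) (mul_self_nonneg _)

theorem nz_mul (x y : Qd ℤ true) : nz (x * y) = nz x * nz y := by
  simp [nz]; ring

theorem nz_eq_zero (x : Qd ℤ true) (h : nz x = 0) : x = 0 := by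
  unfold nz at h
  have h1 : x.re = 0 := by nlinarith [mul_self_nonneg x.re, mul_self_nonneg x.im]
  have h2 : x.im = 0 := by nlinarith [mul_self_nonneg x.re, mul_self_nonneg x.im]
  ext
  · simpa using h1
  · simpa using h2

/-- rounding -/
theorem round (x m : ℤ) (hm : 0 < m) : ∃ q, 4 * ((x - q * m) * (x - q * m)) ≤ m * m := by
  refine ⟨(2 * x + m) / (2 * m), ?_⟩
  have h1 := Int.emod_add_mul_ediv (2 * x + m) (2 * m)
  have h2 := Int.emod_nonneg (2 * x + m) (by omega : 2 * m ≠ 0)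
  have h3 := Int.emod_lt_of_pos (2 * x + m) (by omega : 0 < 2 * m)
  set q := (2 * x + m) / (2 * m)
  set r := (2 * x + m) % (2 * m)
  have h4 : 2 * (x - q * m) = r - m := by linarith
  have h5 : 4 * ((x - q * m) * (x - q * m)) = (r - m) * (r - m) := by
    rw [← h4]; ring
  rw [h5]
  nlinarith

theorem nz_conj (x : Qd ℤ true) : nz (conj x) = nz x := by
  simp [nz]

/-- division with remainder of norm at most half -/
theorem div (α n : Qd ℤ true) (hn : n ≠ 0) : ∃ q, 2 * nz (α - q * n) ≤ nz n := by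
  have hm : 0 < nz n := lt_of_le_of_ne (nz_nonneg n) (fun h => hn (nz_eq_zero n h.symm))
  obtain ⟨q1, h1⟩ := round (α * conj n).re (nz n) hm
  obtain ⟨q2, h2⟩ := round (α * conj n).im (nz n) hm
  refine ⟨⟨q1, q2⟩, ?_⟩
  have h3 : (α - ⟨q1, q2⟩ * n) * conj n =
      ⟨(α * conj n).re - q1 * nz n, (α * conj n).im - q2 * nz n⟩ := by
    ext <;> simp [nz] <;> ring
  have h4 := congrArg nz h3
  rw [nz_mul, nz_conj] at h4
  have h5 : nz (⟨(α * conj n).re - q1 * nz n, (α * conj n).im - q2 * nz n⟩ : Qd ℤ true) =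
    ((α * conj n).re - q1 * nz n) * ((α * conj n).re - q1 * nz n) +
    ((α * conj n).im - q2 * nz n) * ((α * conj n).im - q2 * nz n) := rfl
  rw [h5] at h4
  have h6 : 2 * nz (α - ⟨q1, q2⟩ * n) * nz n ≤ nz n * nz n := by linarith
  exact le_of_mul_le_mul_right h6 hm

theorem conj_fixed {x : Qd ℤ true} (h : conj x = x) : x.im = 0 := by
  have := congrArg Qd.im h
  simp at this
  omega

theorem nrd_re (x : Dbl (Qd ℤ true) true) : (Dbl.nrd x).re = nz x.fst + nz x.snd := by
  simp [Dbl.nrd, nz]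

theorem nrd_im (x : Dbl (Qd ℤ true) true) : (Dbl.nrd x).im = 0 := conj_fixed (Dbl.conj_nrd x)

theorem nrd_nonneg (x : Dbl (Qd ℤ true) true) : 0 ≤ (Dbl.nrd x).re := by
  rw [nrd_re]; exact add_nonneg (nz_nonneg _) (nz_nonneg _)

theorem nrd_zero (x : Dbl (Qd ℤ true) true) (h : Dbl.nrd x = 0) : x = 0 := by
  have h1 := congrArg Qd.re h
  rw [nrd_re] at h1
  have h2 := nz_nonneg x.fst
  have h3 := nz_nonneg x.snd
  have h4 : (0 : Qd ℤ true).re = 0 := rfl
  ext : 1
  · exact nz_eq_zero _ (by linarith)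
  · exact nz_eq_zero _ (by linarith)

/-- the determinant is a non-negative integer -/
theorem Dt_nonneg (g : Matrix (Fin 2) (Fin 2) (Dbl (Qd ℤ true) true)) : 0 ≤ (Dt g).re := by
  by_cases h : g 0 0 = 0
  · rw [Dt_swap g h]
    have h1 := nrd_nonneg (g 0 1)
    have h2 := nrd_nonneg (g 1 0)
    have h3 := nrd_im (g 0 1)
    simp only [Qd.mul_re, h3, zero_mul, mul_zero, add_zero]
    exact mul_nonneg h1 h2
  · have h0 := Dt_schur g
    have h1 := congrArg Qd.re h0
    have h2 := nrd_im (g 0 0)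
    have h3 := nrd_nonneg (g 0 0)
    have h4 : (Dbl.nrd (g 0 0)).re ≠ 0 := by
      intro h5
      exact h (nrd_zero _ (by ext <;> simp [h5, h2]))
    have h5 : 0 < (Dbl.nrd (g 0 0)).re := lt_of_le_of_ne h3 (Ne.symm h4)
    simp only [Qd.mul_re, Qd.mul_im, h2, mul_zero, zero_mul, add_zero] at h1
    have h6 := nrd_nonneg (Dbl.C (Dbl.nrd (g 0 0)) * g 1 1 - g 1 0 * Dbl.star (g 0 0) * g 0 1)
    by_contra hcon
    have h7 : (Dbl.nrd (g 0 0)).re * (Dbl.nrd (g 0 0)).re * (Dt g).re < 0 :=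
      mul_neg_of_pos_of_neg (mul_pos h5 h5) (not_le.1 hcon)
    have h8 : 0 ≤ (Dbl.nrd (g 0 0)).re *
      (Dbl.nrd (Dbl.C (Dbl.nrd (g 0 0)) * g 1 1 - g 1 0 * Dbl.star (g 0 0) * g 0 1)).re :=
      mul_nonneg h3 h6
    linarith

theorem Dt_im (g : Matrix (Fin 2) (Fin 2) (Dbl (Qd ℤ true) true)) : (Dt g).im = 0 :=
  conj_fixed (conj_Dt g)

/-- the arithmetic data -/
def data : QuatData (Qd ℤ true) where
  N x := (nz x).natAbs
  mul x y := by rw [nz_mul, Int.natAbs_mul]
  zero x := by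
    rw [Int.natAbs_eq_zero]
    constructor
    · exact nz_eq_zero x
    · rintro rfl
      simp [nz]
  conj' x := by rw [nz_conj]
  euclid α n hn := by
    obtain ⟨q, hq⟩ := div α n hn
    refine ⟨q, ?_⟩
    have hm : 0 < nz n := lt_of_le_of_ne (nz_nonneg n) (fun h => hn (nz_eq_zero n h.symm))
    have h1 := nz_nonneg (α - q * n)
    omega
  B := 3
  hP w hB hw := by
    refine ⟨1, one_ne_zero, ?_⟩
    intro α
    obtain ⟨q, hq⟩ := div α w hw
    refine ⟨q, ?_⟩
    have h0 : (α - q * w) * conj (α - q * w) + 1 * conj 1 =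
      (⟨nz (α - q * w) + 1, 0⟩ : Qd ℤ true) := by
      ext <;> simp [nz] <;> ring
    have h1 : nz (⟨nz (α - q * w) + 1, 0⟩ : Qd ℤ true) =
      (nz (α - q * w) + 1) * (nz (α - q * w) + 1) := by simp [nz]
    rw [h0, h1]
    have h2 := nz_nonneg (α - q * w)
    have h3 := nz_nonneg w
    have h4 : nz (α - q * w) + 1 < nz w := by omega
    rw [← Int.natAbs_mul]
    have h5 : (nz (α - q * w) + 1) * (nz (α - q * w) + 1) < nz w * nz w := by nlinarith
    have h6 : 0 ≤ (nz (α - q * w) + 1) * (nz (α - q * w) + 1) := mul_self_nonneg _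
    omega
  hQ g hN h0 := by
    have h1 := Dt_nonneg g
    have h2 := Dt_im g
    have h3 : nz (Dt g) = (Dt g).re * (Dt g).re := by rw [nz, h2]; ring
    rw [h3] at hN
    have h4 : (Dt g).re ≠ 0 := by
      intro h5
      apply h0
      ext
      · simpa using h5
      · simpa using h2
    have h5 : (Dt g).re = 1 := by
      have h6 : 0 ≤ (Dt g).re * (Dt g).re := mul_self_nonneg _
      have h7 : (Dt g).re * (Dt g).re < 3 := by omega
      have h8 : (Dt g).re < 2 := by nlinarith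
      omega
    have h6 : Dt g = 1 := by
      ext
      · simpa using h5
      · simpa using h2
    rw [h6]
    exact isUnit_one
  nz := nrd_zero

end Lip

theorem TR_T2 : TR T2 := Lip.data.TR

/-- the determinant of an invertible matrix over the Lipschitz quaternions is `1` -/
theorem Dt_T2 (g h : Matrix (Fin 2) (Fin 2) T2) (hgh : g * h = 1) : Dt g = 1 := by
  have h1 := congrArg Dt hgh
  rw [Dt_mul, Dt_one] at h1
  have h2 := congrArg Qd.re h1
  have h3 := Lip.Dt_im g
  have h4 := Lip.Dt_im h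
  have h5 := Lip.Dt_nonneg g
  simp only [Qd.mul_re, h3, h4, mul_zero, add_zero, Qd.one_re] at h2
  have h6 : (Dt g).re = 1 := by
    rcases Int.isUnit_iff.1 (IsUnit.of_mul_eq_one _ h2) with h7 | h7 <;> omega
  ext
  · simpa using h6
  · simpa using h3

end Vale.Agent.P246.Q24
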