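import Vale.Agent.P246.Q24.I1

/-!
# Block I: lifting units from `𝔽_2[C_2²]` and `𝔽_4∘C_2 [C_2]`
-/

set_option linter.all false

namespace Vale.Agent.P246.Q24

/-- the number of non-zero coordinates -/
def wt (x : T F2 false) : ℕ := x.fst.re.val + x.fst.im.val + x.snd.re.val + x.snd.im.val

/-- the four group elements -/
def grp2 : List (T F2 false) := [⟨⟨1, 0⟩, ⟨0, 0⟩⟩, ⟨⟨0, 1⟩, ⟨0, 0⟩⟩, ⟨⟨0, 0⟩, ⟨1, 0⟩⟩, ⟨⟨0, 0⟩, ⟨0, 1⟩⟩]

theorem wt_fin : ∀ p δ : T F2 false, wt p % 2 = 1 → wt (p * δ) % 4 = wt p % 4 → δ ∈ grp2 := by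
  decide

/-- augmentation -/
def aug2 (x : T F2 false) : F2 := x.fst.re + x.fst.im + x.snd.re + x.snd.im

theorem aug2_mul : ∀ x y : T F2 false, aug2 (x * y) = aug2 x * aug2 y := by decide

theorem aug2_add (x y : T F2 false) : aug2 (x + y) = aug2 x + aug2 y := by
  simp [aug2]; ring

theorem aug2_wt : ∀ x : T F2 false, aug2 x ≠ 0 → wt x % 2 = 1 := by decide

theorem sq_mod4 (n : ℤ) : (n * n) % 4 = ((zF2 n).val : ℤ) % 4 := by
  have h : n % 2 = 0 ∨ n % 2 = 1 := by omega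
  rcases h with h | h
  · have h1 : zF2 n = 0 := (ZMod.intCast_zmod_eq_zero_iff_dvd n 2).2 (Int.dvd_of_emod_eq_zero h)
    rw [h1]
    obtain ⟨k, rfl⟩ : (2 : ℤ) ∣ n := Int.dvd_of_emod_eq_zero h
    have : 2 * k * (2 * k) = 4 * (k * k) := by ring
    rw [this]
    simp
  · have h1 : zF2 n = 1 := by
      have h2 : zF2 (n - 1) = 0 :=
        (ZMod.intCast_zmod_eq_zero_iff_dvd (n - 1) 2).2 (by omega)
      rw [map_sub, map_one, sub_eq_zero] at h2
      exact h2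
    rw [h1]
    obtain ⟨k, hk⟩ : (2 : ℤ) ∣ n - 1 := by omega
    have h3 : n = 2 * k + 1 := by linarith
    have : n * n = 1 + 4 * (k * k + k) := by rw [h3]; ring
    rw [this]
    have h4 : ((ZMod.val (1 : F2) : ℕ) : ℤ) = 1 := rfl
    rw [h4]
    omega

theorem nrd_wt (x : T2) : (Dbl.nrd x).re % 4 = (wt (b12 x) : ℤ) % 4 := by
  rw [Lip.nrd_re]
  have h1 := sq_mod4 x.fst.re
  have h2 := sq_mod4 x.fst.im
  have h3 := sq_mod4 x.snd.re
  have h4 := sq_mod4 x.snd.im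
  have h5 : (wt (b12 x) : ℤ) = ((zF2 x.fst.re).val : ℤ) + ((zF2 x.fst.im).val : ℤ) +
      ((zF2 x.snd.re).val : ℤ) + ((zF2 x.snd.im).val : ℤ) := by
    have : wt (b12 x) = (zF2 x.fst.re).val + (zF2 x.fst.im).val +
      (zF2 x.snd.re).val + (zF2 x.snd.im).val := rfl
    rw [this]
    push_cast
    rfl
  rw [h5]
  unfold Lip.nz
  omega

theorem neg_R2 : ∀ x : T F2 false, -x = x := by decide

theorem b12_star (x : T2) : b12 (Dbl.star x) = b12 x := by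
  have h : ∀ n : ℤ, zF2 (-n) = zF2 n := by
    intro n
    rw [map_neg]
    generalize zF2 n = z
    revert z
    decide
  apply Dbl.ext
  · apply Qd.ext
    · rfl
    · change zF2 (-1 * x.fst.im) = zF2 x.fst.im
      rw [neg_one_mul, h]
  · apply Qd.ext
    · exact h _
    · exact h _

theorem det_R2_aux (g k : Matrix (Fin 2) (Fin 2) T2) (hgk : g * k = 1)
    (h : wt (b12 (g 0 0)) % 2 = 1) :
    b12 (g 0 0) * b12 (g 1 1) - b12 (g 0 1) * b12 (g 1 0) ∈ grp2 := by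
  have hD := Dt_T2 g k hgk
  have h1 := Dt_schur g
  rw [hD, mul_one] at h1
  set p := g 0 0
  set X := Dbl.C (Dbl.nrd p) * g 1 1 - g 1 0 * Dbl.star p * g 0 1
  have him : (Dbl.nrd p).im = 0 := Lip.nrd_im p
  have hre : (Dbl.nrd p).re ≠ 0 := by
    intro h0
    have h2 := nrd_wt p
    rw [h0] at h2
    omega
  have h2 : (Dbl.nrd X).re = (Dbl.nrd p).re := by
    have h3 := congrArg Qd.re h1
    simp only [Qd.mul_re, him, zero_mul, mul_zero, add_zero] at h3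
    exact (mul_left_cancel₀ hre h3).symm
  have h3 : b12 X = b12 p * (b12 p * b12 (g 1 1) - b12 (g 0 1) * b12 (g 1 0)) := by
    have e1 : b12 (Dbl.C (Dbl.nrd p)) = b12 p * b12 p := by
      rw [← Dbl.mul_star, map_mul, b12_star]
    rw [map_sub, map_mul, map_mul, map_mul, e1, b12_star, mul_sub, mul_assoc,
      R2_comm (b12 (g 1 0)) (b12 p), mul_assoc, R2_comm (b12 (g 0 1)) (b12 (g 1 0))]
  apply wt_fin (b12 p) _ h
  rw [← h3]
  have h4 := nrd_wt X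
  have h5 := nrd_wt p
  rw [h2] at h4
  omega

/-- the swap matrix -/
def sw : Matrix (Fin 2) (Fin 2) T2 := !![0, 1; 1, 0]

theorem sw_sw : sw * sw = 1 := by
  apply Matrix.ext
  intro i j
  fin_cases i <;> fin_cases j <;> simp [sw, Matrix.mul_apply, Fin.sum_univ_two]

theorem det_R2 (g k : Matrix (Fin 2) (Fin 2) T2) (hgk : g * k = 1) (hkg : k * g = 1) :
    b12 (g 0 0) * b12 (g 1 1) - b12 (g 0 1) * b12 (g 1 0) ∈ grp2 := by
  by_cases h : wt (b12 (g 0 0)) % 2 = 1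
  · exact det_R2_aux g k hgk h
  · have h1 : aug2 (b12 (g 0 0)) = 0 := by
      by_contra h2
      exact h (aug2_wt _ h2)
    have h2 : aug2 (b12 (g 1 0)) ≠ 0 := by
      intro h3
      have h4 := congrFun (congrFun hkg 0) 0
      simp only [Matrix.mul_apply, Fin.sum_univ_two] at h4
      have h5 := congrArg (fun z => aug2 (b12 z)) h4
      simp only [map_add, map_mul, aug2_add, aug2_mul, h1, h3, mul_zero, add_zero] at h5
      have h6 : (1 : Matrix (Fin 2) (Fin 2) T2) 0 0 = 1 := rfl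
      rw [h6, map_one] at h5
      exact absurd h5 (by decide)
    have e1 : (sw * g) 0 0 = g 1 0 := by simp [sw, Matrix.mul_apply, Fin.sum_univ_two]
    have e2 : (sw * g) 0 1 = g 1 1 := by simp [sw, Matrix.mul_apply, Fin.sum_univ_two]
    have e3 : (sw * g) 1 0 = g 0 0 := by simp [sw, Matrix.mul_apply, Fin.sum_univ_two]
    have e4 : (sw * g) 1 1 = g 0 1 := by simp [sw, Matrix.mul_apply, Fin.sum_univ_two]
    have h3 := det_R2_aux (sw * g) (k * sw) (by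
      rw [mul_assoc, ← mul_assoc g, hgk, one_mul, sw_sw]) (by
      rw [e1]
      exact aug2_wt _ h2)
    rw [e1, e2, e3, e4, R2_comm, R2_comm (b12 (g 1 1)), ← neg_R2 (_ - _), neg_sub] at h3
    exact h3

/-- units of the Lipschitz quaternions lifting the group elements -/
def lip4 : List (T2 × T2) :=
  [(⟨⟨1, 0⟩, ⟨0, 0⟩⟩, ⟨⟨1, 0⟩, ⟨0, 0⟩⟩), (⟨⟨0, 1⟩, ⟨0, 0⟩⟩, ⟨⟨0, -1⟩, ⟨0, 0⟩⟩),
   (⟨⟨0, 0⟩, ⟨1, 0⟩⟩, ⟨⟨0, 0⟩, ⟨-1, 0⟩⟩), (⟨⟨0, 0⟩, ⟨0, 1⟩⟩, ⟨⟨0, 0⟩, ⟨0, -1⟩⟩)]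

theorem lip4_spec : ∀ p ∈ lip4, p.1 * p.2 = 1 ∧ p.2 * p.1 = 1 := by decide

theorem lip4_lift : ∀ δ ∈ grp2, ∃ p ∈ lip4, b12 p.1 = δ := by decide

theorem grp2_sq : ∀ δ ∈ grp2, δ * δ = 1 := by decide

/-- `𝔽_2[C_2²]` as a commutative ring -/
local instance : CommRing (T F2 false) :=
  { (inferInstance : Ring (T F2 false)) with mul_comm := R2_comm }

theorem comm_aux {P Q R S A B : T F2 false} (e0 : P * A + Q * B = 1) (e1 : R * A + S * B = 0)
    (h : (P * S - Q * R) * (P * S - Q * R) = 1) :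
    -B = (P * S - Q * R) * R ∧ A = (P * S - Q * R) * S := by
  constructor
  · linear_combination (P * S - Q * R) * R * e0 - (P * S - Q * R) * P * e1 + B * h
  · linear_combination (P * S - Q * R) * S * e0 - (P * S - Q * R) * Q * e1 - A * h

/-- adjusting the kernel generator over `T2` -/
theorem lift12 {a1 b1 : T1} {a2 b2 : T2} (ha : a12 a1 = b12 a2) (hb : a12 b1 = b12 b2)
    {g k : Matrix (Fin 2) (Fin 2) T2} (hgk : g * k = 1) (hkg : k * g = 1)
    (h0 : g 0 0 * a2 + g 0 1 * b2 = 1) (h1 : g 1 0 * a2 + g 1 1 * b2 = 0) :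
    ∃ ε ε' : T2, ε * ε' = 1 ∧ ε' * ε = 1 ∧ a12 (-b1) = b12 (ε * g 1 0) ∧
      a12 a1 = b12 (ε * g 1 1) := by
  have hΔ := det_R2 g k hgk hkg
  obtain ⟨p, hp, hp1⟩ := lip4_lift _ hΔ
  have hsq := grp2_sq _ hΔ
  refine ⟨p.1, p.2, (lip4_spec p hp).1, (lip4_spec p hp).2, ?_, ?_⟩
  · have e0 := congrArg b12 h0
    have e1 := congrArg b12 h1
    simp only [map_add, map_mul, map_one, map_zero] at e0 e1
    rw [map_neg, map_mul, hp1, hb]
    exact (comm_aux e0 e1 hsq).1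
  · have e0 := congrArg b12 h0
    have e1 := congrArg b12 h1
    simp only [map_add, map_mul, map_one, map_zero] at e0 e1
    rw [map_mul, hp1, ha]
    exact (comm_aux e0 e1 hsq).2

end Vale.Agent.P246.Q24
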