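import Vale.Agent.P246.Q24.G2

/-!
# Block G: transitivity for `T3`
-/

set_option linter.all false

namespace Vale.Agent.P246.Q24

/-- the hereditary order `ℤ[ω] ⊕ ℤ[ω] y`, `y² = 1` -/
abbrev Or : Type := Dbl ZW false

/-- `Or ≃ {(a, b; 3c, d)}` -/
def orEquiv : Or ≃+* Gm where
  toFun x := ⟨x.fst.re - 2 * x.fst.im + 2 * x.snd.re - x.snd.im, x.fst.im - x.snd.re,
    -x.fst.im + x.snd.re - x.snd.im, x.fst.re + x.fst.im - 2 * x.snd.re + x.snd.im⟩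
  invFun m := ⟨⟨m.a + m.b - m.c, m.a - m.d + 2 * m.b - 2 * m.c⟩,
    ⟨m.a - m.d + m.b - 2 * m.c, -m.b - m.c⟩⟩
  left_inv x := by ext <;> simp <;> ring
  right_inv m := by ext <;> simp <;> ring
  map_add' x y := by ext <;> simp <;> ring
  map_mul' x y := by ext <;> simp <;> ring

theorem TR_Or : TR Or := TR_equiv orEquiv Gm.TR_Gm

/-- `t ↦ 1` -/
def evp : Qd ZW false →+* ZW where
  toFun x := x.re + x.im
  map_one' := by simp
  map_zero' := by simp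
  map_add' x y := by simp; ring
  map_mul' x y := by simp; ring

/-- `t ↦ -1` -/
def evm : Qd ZW false →+* ZW where
  toFun x := x.re - x.im
  map_one' := by simp
  map_zero' := by simp
  map_add' x y := by simp; ring
  map_mul' x y := by simp; ring

/-- `T3 → Or`, `t ↦ 1` -/
def fp : T3 →+* Or := Dbl.map evp (fun r => by simp [evp])
/-- `T3 → Or`, `t ↦ -1` -/
def fm : T3 →+* Or := Dbl.map evm (fun r => by simp [evm])
/-- `Or → Or / 2` -/
def o2 : Or →+* Dbl F4 false := Dbl.map wF4 wF4_conj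

instance {A : Type} [Fintype A] : Fintype (Eis A) :=
  Fintype.ofEquiv (A × A) ⟨fun x => ⟨x.1, x.2⟩, fun x => (x.re, x.im), fun _ => rfl, fun _ => rfl⟩
instance {K : Type} {b : Bool} [Fintype K] : Fintype (Qd K b) :=
  Fintype.ofEquiv (K × K) ⟨fun x => ⟨x.1, x.2⟩, fun x => (x.re, x.im), fun _ => rfl, fun _ => rfl⟩
instance {R : Type} {b : Bool} [Fintype R] : Fintype (Dbl R b) :=
  Fintype.ofEquiv (R × R) ⟨fun x => ⟨x.1, x.2⟩, fun x => (x.fst, x.snd), fun _ => rfl,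
    fun _ => rfl⟩

theorem two_zero_F4 (x : F4) : x + x = 0 := by
  revert x; decide

theorem o2_fp_fm (t : T3) : o2 (fp t) = o2 (fm t) := by
  have h : ∀ a b : ZW, wF4 (a + b) = wF4 (a - b) := by
    intro a b
    rw [map_add, map_sub, sub_eq_add_neg]
    congr 1
    exact (neg_eq_of_add_eq_zero_left (two_zero_F4 _)).symm
  ext : 1
  · exact h _ _
  · exact h _ _

theorem wF4_eq {x y : ZW} (h : wF4 x = wF4 y) : ∃ z : ZW, x = y + (z + z) := by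
  have h1 : zF2 x.re = zF2 y.re := congrArg Eis.re h
  have h2 : zF2 x.im = zF2 y.im := congrArg Eis.im h
  have d1 : (2 : ℤ) ∣ x.re - y.re := (ZMod.intCast_eq_intCast_iff_dvd_sub y.re x.re 2).1 h1.symm
  have d2 : (2 : ℤ) ∣ x.im - y.im := (ZMod.intCast_eq_intCast_iff_dvd_sub y.im x.im 2).1 h2.symm
  obtain ⟨a, ha⟩ := d1
  obtain ⟨b, hb⟩ := d2
  refine ⟨⟨a, b⟩, ?_⟩
  ext <;> simp <;> linarith

theorem fp_fm_surj (x y : Or) (h : o2 x = o2 y) : ∃ t : T3, fp t = x ∧ fm t = y := by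
  obtain ⟨a, ha⟩ := wF4_eq (congrArg Dbl.fst h)
  obtain ⟨b, hb⟩ := wF4_eq (congrArg Dbl.snd h)
  refine ⟨⟨⟨y.fst + a, a⟩, ⟨y.snd + b, b⟩⟩, ?_, ?_⟩
  · apply Dbl.ext
    · change y.fst + a + a = x.fst
      rw [ha, add_assoc]
    · change y.snd + b + b = x.snd
      rw [hb, add_assoc]
  · apply Dbl.ext
    · exact add_sub_cancel_right _ _
    · exact add_sub_cancel_right _ _

theorem two_mul_ZW {x : ZW} (h : x + x = 0) : x = 0 := by
  have h1 := congrArg Eis.re h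
  have h2 := congrArg Eis.im h
  simp at h1 h2
  ext <;> simp <;> omega

theorem fp_fm_inj (t : T3) (h1 : fp t = 0) (h2 : fm t = 0) : t = 0 := by
  have a1 : t.fst.re + t.fst.im = 0 := congrArg Dbl.fst h1
  have a2 : t.fst.re - t.fst.im = 0 := congrArg Dbl.fst h2
  have a3 : t.snd.re + t.snd.im = 0 := congrArg Dbl.snd h1
  have a4 : t.snd.re - t.snd.im = 0 := congrArg Dbl.snd h2
  have b1 : t.fst.im = 0 := two_mul_ZW (by linear_combination a1 - a2)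
  have b2 : t.snd.im = 0 := two_mul_ZW (by linear_combination a3 - a4)
  rw [b1, add_zero] at a1
  rw [b2, add_zero] at a3
  apply Dbl.ext
  · apply Qd.ext
    · exact a1
    · exact b1
  · apply Qd.ext
    · exact a3
    · exact b2

/-- list of unit lifts -/
def orUnits : List (Or × Or) :=
  [(1, 1), (⟨⟨0, 1⟩, 0⟩, ⟨⟨-1, -1⟩, 0⟩), (⟨⟨-1, -1⟩, 0⟩, ⟨⟨0, 1⟩, 0⟩),
   (⟨0, 1⟩, ⟨0, 1⟩), (⟨0, ⟨0, 1⟩⟩, ⟨0, ⟨0, 1⟩⟩), (⟨0, ⟨-1, -1⟩⟩, ⟨0, ⟨-1, -1⟩⟩)]

theorem orUnits_spec : ∀ p ∈ orUnits, p.1 * p.2 = 1 ∧ p.2 * p.1 = 1 := by decide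

theorem orUnits_lift : ∀ δ δ' : Dbl F4 false, δ * δ' = 1 → ∃ p ∈ orUnits, o2 p.1 = δ := by
  decide

theorem TR_T3 : TR T3 :=
  TR_glue fp fm o2 o2 o2_fp_fm fp_fm_inj fp_fm_surj TR_Or TR_Or (by
    intro δ δ' h1 _
    obtain ⟨p, hp, h2⟩ := orUnits_lift δ δ' h1
    exact ⟨p.1, p.2, (orUnits_spec p hp).1, (orUnits_spec p hp).2, h2⟩)

end Vale.Agent.P246.Q24
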