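import Vale.Agent.P246.Q24.C3

/-!
# Block C, part 4: invariants, ranks
-/

set_option linter.all false

namespace Vale.Agent.P246.Q24

open Vale.Agent.P246 Function

section General

variable {G : Type} [Group G] [Fintype G]

theorem coeff_nrm (g : G) : (nrm G).coeff g = 1 := by
  classical
  have h : (nrm G).coeff g = ∑ h : G, (elt h : ZG G).coeff g := by
    rw [nrm, MonoidAlgebra.coeff_sum, Finsupp.finsetSum_apply]
  rw [h, Finset.sum_eq_single g]
  · rw [elt, MonoidAlgebra.coeff_single, Finsupp.single_eq_same]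
  · intro b _ hb
    rw [elt, MonoidAlgebra.coeff_single, Finsupp.single_eq_of_ne hb.symm]
  · intro h0
    exact absurd (Finset.mem_univ g) h0

theorem elt_mul_nrm (g : G) : elt g * nrm G = nrm G := by
  rw [nrm, Finset.mul_sum]
  simp only [elt_mul_elt]
  exact Equiv.sum_comp (Equiv.mulLeft g) (fun h => elt h)

theorem inv_self (l : ZG G) (h : ∀ g : G, elt g * l = l) : ∃ n : ℤ, l = n • nrm G := by
  refine ⟨l.coeff 1, ?_⟩
  conv_lhs => rw [← sum_coeff_elt l]
  rw [nrm, Finset.smul_sum]
  refine Finset.sum_congr rfl fun g _ => ?_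
  rw [← coeff_elt_inv_mul, h]

theorem zsmul_nrm_inj (n : ℤ) (h : n • nrm G = 0) : n = 0 := by
  have h1 := congrArg (fun l : ZG G => l.coeff 1) h
  simp only [MonoidAlgebra.coeff_smul, Finsupp.smul_apply, coeff_nrm, MonoidAlgebra.coeff_zero,
    Finsupp.coe_zero, Pi.zero_apply, smul_eq_mul, mul_one] at h1
  exact h1

/-- `v` is not divisible -/
def Prim {M : Type} [AddCommGroup M] (v : M) : Prop := ∀ (k : ℤ) (w : M), v = k • w → IsUnit k

theorem prim_map {M N : Type} [AddCommGroup M] [AddCommGroup N] (e : M ≃+ N) {v : M}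
    (h : Prim v) : Prim (e v) := by
  intro k w hw
  apply h k (e.symm w)
  rw [← map_zsmul, ← hw, e.symm_apply_apply]

/-- invariant elements -/
def Inv {M : Type} [AddCommGroup M] [Module (ZG G) M] (v : M) : Prop := ∀ g : G, elt g • v = v

theorem inv_map {M N : Type} [AddCommGroup M] [Module (ZG G) M] [AddCommGroup N]
    [Module (ZG G) N] (e : M →ₗ[ZG G] N) {v : M} (h : Inv (G := G) v) : Inv (G := G) (e v) := by
  intro g
  rw [← map_smul, h]

theorem inv_fin {n : ℕ} (v : Fin n → ZG G) (h : Inv (G := G) v) :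
    ∃ x : Fin n → ℤ, v = fun i => x i • nrm G := by
  have h1 : ∀ i, ∃ k : ℤ, v i = k • nrm G := fun i =>
    inv_self (v i) (fun g => congrFun (h g) i)
  choose x hx using h1
  exact ⟨x, funext hx⟩

theorem nrm_eq_zsmul (k : ℤ) (l : ZG G) (h : nrm G = k • l) : IsUnit k := by
  have h1 := congrArg (fun l : ZG G => l.coeff 1) h
  simp only [MonoidAlgebra.coeff_smul, Finsupp.smul_apply, coeff_nrm, smul_eq_mul] at h1
  exact IsUnit.of_mul_eq_one _ h1.symm

/-- the rank one case -/
theorem rank_one_sign {M : Type} [AddCommGroup M] [Module (ZG G) M]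
    (e : (M × ZG G) ≃ₗ[ZG G] (Fin 2 → ZG G)) (u v : M) (hu : Inv (G := G) u)
    (hv : Inv (G := G) v) (pu : Prim u) (pv : Prim v) : u = v ∨ u = -v := by
  -- torsion-freeness
  have htf : ∀ (n : ℤ) (w : M), n ≠ 0 → n • w = 0 → w = 0 := by
    intro n w hn hw
    have h1 : n • e (w, 0) = 0 := by
      rw [← map_zsmul]
      have : n • ((w, 0) : M × ZG G) = 0 := by
        apply Prod.ext
        · exact hw
        · exact smul_zero n
      rw [this, map_zero]
    have h2 : e (w, 0) = 0 := by
      funext i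
      apply MonoidAlgebra.ext
      ext g
      have h3 := congrArg (fun l : ZG G => l.coeff g) (congrFun h1 i)
      simp only [Pi.smul_apply, MonoidAlgebra.coeff_smul, Finsupp.smul_apply, Pi.zero_apply,
        MonoidAlgebra.coeff_zero, Finsupp.coe_zero, smul_eq_mul] at h3
      rcases mul_eq_zero.1 h3 with h4 | h4
      · exact absurd h4 hn
      · exact h4
    have h3 : ((w, 0) : M × ZG G) = 0 := by
      apply e.injective
      rw [h2, map_zero]
    exact congrArg Prod.fst h3
  obtain ⟨x, hx⟩ := inv_fin _ (inv_map (e.toLinearMap ∘ₗ LinearMap.inl _ _ _) hu)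
  obtain ⟨y, hy⟩ := inv_fin _ (inv_map (e.toLinearMap ∘ₗ LinearMap.inl _ _ _) hv)
  have hN : Inv (G := G) (nrm G) := fun g => elt_mul_nrm g
  obtain ⟨z, hz⟩ := inv_fin _ (inv_map (e.toLinearMap ∘ₗ LinearMap.inr _ _ _) hN)
  have hx' : e (u, 0) = fun i => x i • nrm G := hx
  have hy' : e (v, 0) = fun i => y i • nrm G := hy
  have hz' : e (0, nrm G) = fun i => z i • nrm G := hz
  have hdep : ¬ LinearIndependent ℤ ![x, y, z] := by
    intro h
    have := h.fintype_card_le_finrank
    rw [Module.finrank_fin_fun, Fintype.card_fin] at this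
    omega
  rw [Fintype.not_linearIndependent_iff] at hdep
  obtain ⟨g, hg, i, hi⟩ := hdep
  rw [Fin.sum_univ_three] at hg
  simp only [Matrix.cons_val_zero, Matrix.cons_val_one, Matrix.cons_val] at hg
  have h1 : e (g 0 • u + g 1 • v, g 2 • nrm G) = 0 := by
    have h2 : ((g 0 • u + g 1 • v, g 2 • nrm G) : M × ZG G)
        = g 0 • (u, 0) + g 1 • (v, 0) + g 2 • (0, nrm G) := by
      apply Prod.ext
      · change g 0 • u + g 1 • v = g 0 • u + g 1 • v + g 2 • 0
        rw [smul_zero, add_zero]
      · change g 2 • nrm G = g 0 • 0 + g 1 • 0 + g 2 • nrm G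
        rw [smul_zero, smul_zero, zero_add, zero_add]
    rw [h2, map_add, map_add, map_zsmul, map_zsmul, map_zsmul, hx', hy', hz']
    funext i
    have h3 := congrFun hg i
    simp only [Pi.add_apply, Pi.smul_apply, smul_eq_mul, Pi.zero_apply] at h3 ⊢
    rw [smul_smul, smul_smul, smul_smul, ← add_smul, ← add_smul, h3, zero_smul]
  have h2 : ((g 0 • u + g 1 • v, g 2 • nrm G) : M × ZG G) = 0 := by
    apply e.injective
    rw [h1, map_zero]
  have h3 : g 0 • u + g 1 • v = 0 := congrArg Prod.fst h2
  have h4 : g 2 = 0 := zsmul_nrm_inj _ (congrArg Prod.snd h2)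
  have hne : ¬ (g 0 = 0 ∧ g 1 = 0) := by
    rintro ⟨h5, h6⟩
    apply hi
    fin_cases i
    · exact h5
    · exact h6
    · exact h4
  -- make the coefficients coprime
  have hgcd : 0 < Int.gcd (g 0) (g 1) := by
    rw [Nat.pos_iff_ne_zero]
    intro h0
    exact hne (Int.gcd_eq_zero_iff.1 h0)
  obtain ⟨a, b, hab, ha, hb⟩ := Int.exists_gcd_one hgcd
  have h5 : a • u + b • v = 0 := by
    apply htf (Int.gcd (g 0) (g 1) : ℤ) _ (by exact_mod_cast hgcd.ne')
    rw [smul_add, smul_smul, smul_smul, mul_comm _ a, mul_comm _ b, ← ha, ← hb, h3]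
  have h6 : (1 : ℤ) = a * Int.gcdA a b + b * Int.gcdB a b := by
    have := Int.gcd_eq_gcd_ab a b
    rw [hab] at this
    exact_mod_cast this
  set s := Int.gcdA a b
  set t := Int.gcdB a b
  have h7 : a • u = - (b • v) := eq_neg_of_add_eq_zero_left h5
  have h8 : b • v = - (a • u) := by rw [h7, neg_neg]
  have hbu : IsUnit b := by
    apply pu b (t • u - s • v)
    calc u = (a * s + b * t) • u := by rw [← h6, one_smul]
      _ = s • (a • u) + b • t • u := by rw [add_smul, mul_comm a s, mul_smul, mul_smul]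
      _ = b • (t • u - s • v) := by
        rw [h7, smul_neg, smul_sub, smul_comm s b v]
        abel
  have hau : IsUnit a := by
    apply pv a (s • v - t • u)
    calc v = (a * s + b * t) • v := by rw [← h6, one_smul]
      _ = a • s • v + t • (b • v) := by rw [add_smul, mul_smul, mul_comm b t, mul_smul]
      _ = a • (s • v - t • u) := by
        rw [h8, smul_neg, smul_sub, smul_comm t a u]
        abel
  rcases Int.isUnit_iff.1 hau with rfl | rfl <;> rcases Int.isUnit_iff.1 hbu with rfl | rfl
  · right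
    simpa using h7
  · left
    simpa using h7
  · left
    simpa using h7
  · right
    have h9 : -u = v := by simpa using h7
    rw [← h9, neg_neg]

/-- stable freeness with positive rank -/
theorem SF.lt {M : Type} [AddCommGroup M] [Module (ZG G) M] {a b : ℕ} (h : SF (ZG G) M a b)
    (v : M) (hv : v ≠ 0) : a < b := by
  by_contra hcon
  have hcon : b ≤ a := not_lt.1 hcon
  obtain ⟨e⟩ := h
  have h1 := free_int (G := G)
  have h2 := finite_int (G := G)
  -- an injective map `R^a → R^a`, which is not surjective, contradiction with ranks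
  let eZ : (M × (Fin a → ZG G)) ≃ₗ[ℤ] (Fin b → ZG G) := e.toAddEquiv.toIntLinearEquiv
  have hfin : Module.Finite ℤ M := by
    refine Module.Finite.of_surjective (LinearMap.fst ℤ M _ ∘ₗ eZ.symm.toLinearMap) ?_
    intro x
    exact ⟨eZ (x, 0), by simp⟩
  have htf : Module.IsTorsionFree ℤ M :=
    Function.Injective.moduleIsTorsionFree (fun x : M => eZ (x, 0)) (by
      intro x y hxy
      exact congrArg Prod.fst (eZ.injective hxy)) (by
      intro n x
      rw [← map_zsmul]
      congr 1
      apply Prod.ext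
      · rfl
      · exact (smul_zero n).symm)
  have hfree : Module.Free ℤ M := inferInstance
  have h3 := eZ.finrank_eq
  have h4 : Module.finrank ℤ (ZG G) ≠ 0 := by
    have : Nontrivial (ZG G) := inferInstance
    exact (Module.finrank_pos).ne'
  rw [Module.finrank_prod, Module.finrank_pi_fintype, Module.finrank_pi_fintype] at h3
  simp only [Finset.sum_const, Finset.card_univ, Fintype.card_fin, smul_eq_mul] at h3
  have h5 : Module.finrank ℤ M = 0 := by
    have h6 : b * Module.finrank ℤ (ZG G) ≤ a * Module.finrank ℤ (ZG G) :=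
      Nat.mul_le_mul_right _ hcon
    omega
  have h6 : Subsingleton M := Module.finrank_zero_iff.1 h5
  exact hv (Subsingleton.elim _ _)

end General

end Vale.Agent.P246.Q24
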