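import Vale.Agent.P246.Q24.A
import Vale.Agent.P246.Q24.C4

/-!
# Block B: the standard presentation and the periodic resolution of the generalized quaternion
group of order `4 n`
-/

set_option linter.all false

namespace Vale.Agent.P246.Q24

open Vale.Agent.P246 Function QuaternionGroup

section QuatHom

variable {n : ℕ}

/-- homomorphisms out of a generalized quaternion group -/
theorem quat_hom {H : Type} [Group H] (x y : H) (h1 : x ^ (2 * n) = 1) (h2 : y * y = x ^ n)
    (h3 : x * y = y * x⁻¹) :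
    ∃ ψ : QuaternionGroup n →* H, ψ (a 1) = x ∧ ψ (xa 0) = y := by
  let f0 : ℤ →+ Additive H := zmultiplesHom (Additive H) (Additive.ofMul x)
  have hf0 : ∀ k : ℤ, (f0 k).toMul = x ^ k := fun k => rfl
  let f : ZMod (2 * n) →+ Additive H := ZMod.lift (2 * n) ⟨f0, by
    apply Additive.toMul.injective
    rw [hf0]
    change x ^ ((2 * n : ℕ) : ℤ) = 1
    rw [zpow_natCast]
    exact h1⟩
  let F : ZMod (2 * n) → H := fun i => (f i).toMul
  have hF : ∀ k : ℤ, F (k : ZMod (2 * n)) = x ^ k := by
    intro k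
    change (f (k : ZMod (2 * n))).toMul = x ^ k
    rw [ZMod.lift_coe]
    rfl
  have hadd : ∀ i j, F (i + j) = F i * F j := by
    intro i j
    change (f (i + j)).toMul = _
    rw [map_add]
    rfl
  have hneg : ∀ i, F (-i) = (F i)⁻¹ := by
    intro i
    change (f (-i)).toMul = _
    rw [map_neg]
    rfl
  have hcomm : ∀ i, F i * y = y * F (-i) := by
    intro i
    obtain ⟨k, rfl⟩ := ZMod.intCast_surjective i
    rw [← Int.cast_neg, hF, hF]
    have h4 : SemiconjBy y x⁻¹ x := h3.symm
    have h5 := h4.zpow_right k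
    rw [zpow_neg, ← inv_zpow]
    exact h5.eq.symm
  have hn : F (n : ZMod (2 * n)) = y * y := by
    have := hF (n : ℤ)
    rw [Int.cast_natCast, zpow_natCast] at this
    rw [this, h2]
  have h0 : F 0 = 1 := by
    have := hF 0
    rwa [Int.cast_zero, zpow_zero] at this
  have hone : F 1 = x := by
    have := hF 1
    rwa [Int.cast_one, zpow_one] at this
  let ψ0 : QuaternionGroup n → H := fun g => match g with
    | a i => F i
    | xa i => y * F i
  refine ⟨{ toFun := ψ0, map_one' := h0, map_mul' := ?_ }, hone, ?_⟩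
  · rintro (i | i) (j | j)
    · change F (i + j) = F i * F j
      exact hadd i j
    · change y * F (j - i) = F i * (y * F j)
      rw [← mul_assoc, hcomm, mul_assoc, ← hadd]
      congr 2
      abel
    · change y * F (i + j) = y * F i * F j
      rw [hadd, mul_assoc]
    · change F ((n : ZMod (2 * n)) + j - i) = y * F i * (y * F j)
      rw [mul_assoc, ← mul_assoc (F i), hcomm, ← mul_assoc, ← mul_assoc, ← hn, ← hadd, ← hadd]
      congr 1
      abel
  · change y * F 0 = y
    rw [h0, mul_one]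

end QuatHom

section Pres

variable (n : ℕ) [NeZero n]

/-- the generators `x = a 1` and `y = xa 0` -/
def gensQ : Fin 2 → QuaternionGroup n := ![a 1, xa 0]

/-- the relators `x^n y⁻²` and `y x y⁻¹ x` -/
def relsQ : Fin 2 → FreeGroup (Fin 2) := ![FreeGroup.of 0 ^ n * (FreeGroup.of 1)⁻¹ ^ 2,
    FreeGroup.of 1 * FreeGroup.of 0 * (FreeGroup.of 1)⁻¹ * FreeGroup.of 0]

theorem gensQ_surj : Function.Surjective (FreeGroup.lift (gensQ n)) := by
  have hn : NeZero (2 * n) := ⟨by have := NeZero.ne n; omega⟩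
  have h1 : ∀ i : ZMod (2 * n), FreeGroup.lift (gensQ n) (FreeGroup.of 0 ^ i.val) = a i := by
    intro i
    rw [map_pow, FreeGroup.lift_apply_of]
    change (a 1 : QuaternionGroup n) ^ i.val = a i
    rw [a_one_pow, ZMod.natCast_zmod_val]
  rintro (i | i)
  · exact ⟨_, h1 i⟩
  · refine ⟨FreeGroup.of 1 * FreeGroup.of 0 ^ i.val, ?_⟩
    rw [map_mul, h1, FreeGroup.lift_apply_of]
    change (xa 0 : QuaternionGroup n) * a i = xa i
    rw [xa_mul_a, zero_add]

theorem gensQ_ker : (FreeGroup.lift (gensQ n)).ker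
    = Subgroup.normalClosure (Set.range (relsQ n)) := by
  set N := Subgroup.normalClosure (Set.range (relsQ n)) with hN
  apply le_antisymm
  · let x : FreeGroup (Fin 2) ⧸ N := QuotientGroup.mk (FreeGroup.of 0)
    let y : FreeGroup (Fin 2) ⧸ N := QuotientGroup.mk (FreeGroup.of 1)
    have hr0 : x ^ n * y⁻¹ ^ 2 = 1 := by
      have h : relsQ n 0 ∈ N := Subgroup.subset_normalClosure ⟨0, rfl⟩
      exact (QuotientGroup.eq_one_iff _).2 h
    have hr1 : y * x * y⁻¹ * x = 1 := by
      have h : relsQ n 1 ∈ N := Subgroup.subset_normalClosure ⟨1, rfl⟩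
      exact (QuotientGroup.eq_one_iff _).2 h
    have h2 : y * y = x ^ n := by
      have h := mul_eq_one_iff_eq_inv.1 hr0
      rw [h, inv_pow, inv_inv, sq]
    have h3' : y * x * y⁻¹ = x⁻¹ := mul_eq_one_iff_eq_inv.1 hr1
    have h3 : x * y = y * x⁻¹ := by
      have h4 : y * x⁻¹ * y⁻¹ = x := by
        have h5 : y * x⁻¹ * y⁻¹ = (y * x * y⁻¹)⁻¹ := conj_inv.symm
        rw [h5, h3', inv_inv]
      calc x * y = (y * x⁻¹ * y⁻¹) * y := by rw [h4]
        _ = y * x⁻¹ := by rw [inv_mul_cancel_right]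
    have h1 : x ^ (2 * n) = 1 := by
      have h4 : y * x ^ n * y⁻¹ = (x ^ n)⁻¹ := by
        rw [← conj_pow, h3', inv_pow]
      have h5 : y * x ^ n * y⁻¹ = x ^ n := by
        rw [← h2]
        group
      rw [two_mul, pow_add]
      nth_rewrite 1 [← h5]
      rw [h4, inv_mul_cancel]
    obtain ⟨ψ, hx, hy⟩ := quat_hom x y h1 h2 h3
    have hψ : ψ.comp (FreeGroup.lift (gensQ n)) = QuotientGroup.mk' N := by
      apply FreeGroup.ext_hom
      intro i
      rw [MonoidHom.comp_apply, FreeGroup.lift_apply_of]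
      fin_cases i
      · exact hx
      · exact hy
    intro w hw
    rw [MonoidHom.mem_ker] at hw
    have h1 : QuotientGroup.mk' N w = 1 := by
      rw [← hψ, MonoidHom.comp_apply, hw, map_one]
    exact (QuotientGroup.eq_one_iff w).1 h1
  · apply Subgroup.normalClosure_le_normal
    rintro _ ⟨j, rfl⟩
    rw [SetLike.mem_coe, MonoidHom.mem_ker]
    fin_cases j
    · change FreeGroup.lift (gensQ n) (FreeGroup.of 0 ^ n * (FreeGroup.of 1)⁻¹ ^ 2) = 1
      rw [map_mul, map_pow, map_pow, map_inv, FreeGroup.lift_apply_of, FreeGroup.lift_apply_of]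
      change (a 1 : QuaternionGroup n) ^ n * (xa 0)⁻¹ ^ 2 = 1
      rw [inv_pow, xa_sq, a_one_pow, mul_inv_cancel]
    · change FreeGroup.lift (gensQ n)
        (FreeGroup.of 1 * FreeGroup.of 0 * (FreeGroup.of 1)⁻¹ * FreeGroup.of 0) = 1
      rw [map_mul, map_mul, map_mul, map_inv, FreeGroup.lift_apply_of, FreeGroup.lift_apply_of]
      change (xa 0 : QuaternionGroup n) * a 1 * (xa 0)⁻¹ * a 1 = 1
      have h : (xa 0 : QuaternionGroup n)⁻¹ = xa (n + 0) := rfl
      rw [h, xa_mul_a, xa_mul_xa, a_mul_a, one_def]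
      congr 1
      have : ((n : ZMod (2 * n)) + n) = 0 := by
        have h2 : ((2 * n : ℕ) : ZMod (2 * n)) = 0 := ZMod.natCast_self _
        push_cast at h2
        linear_combination h2
      linear_combination this

/-- the standard presentation `⟨x, y | x^n y^{-2}, y x y^{-1} x⟩` -/
def P0n : FinPresentation (QuaternionGroup n) where
  gens := 2
  rels := 2
  x := gensQ n
  r := relsQ n
  surj := gensQ_surj n
  ker_eq := gensQ_ker n

end Pres

end Vale.Agent.P246.Q24
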