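import Vale.Agent.P246.Q24.B2

/-!
# Block B, part 3: exactness of the `4`-periodic resolution
-/

set_option linter.all false

namespace Vale.Agent.P246.Q24

open Vale.Agent.P246 Function QuaternionGroup

section Reso

variable (n : ℕ) [NeZero n]

theorem fox_pow_gen {G : Type} [Group G] {m : ℕ} (x : Fin m → G) (i : Fin m) (k : ℕ) :
    fox x (FreeGroup.of i ^ k) = (∑ j ∈ Finset.range k, elt (x i ^ j)) • Pi.single i 1 := by
  induction k with
  | zero => rw [pow_zero, fox_one, Finset.range_zero, Finset.sum_empty, zero_smul]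
  | succ k ih =>
    rw [pow_succ, fox_mul, ih, fox_of, map_pow, FreeGroup.lift_apply_of, Finset.sum_range_succ,
      add_smul]

theorem fox_r0 : fox (gensQ n) (relsQ n 0) = ![Nx n, -(Yn n + 1)] := by
  have h1 : relsQ n 0 = FreeGroup.of 0 ^ n * ((FreeGroup.of 1)⁻¹ * (FreeGroup.of 1)⁻¹) := by
    rw [← sq]
    rfl
  have hx : ∀ j : ℕ, gensQ n 0 ^ j = a (j : ZMod (2 * n)) := fun j => a_one_pow j
  have hy : (gensQ n 1)⁻¹ = xa (n : ZMod (2 * n)) := by
    change (xa 0 : QuaternionGroup n)⁻¹ = _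
    have : (xa 0 : QuaternionGroup n)⁻¹ = xa (n + 0) := rfl
    rw [this, add_zero]
  rw [h1, fox_mul, fox_pow_gen, fox_mul, fox_inv, fox_of, map_pow, map_inv,
    FreeGroup.lift_apply_of, FreeGroup.lift_apply_of, hx, hy]
  simp only [hx]
  funext i
  fin_cases i
  · simp only [Fin.zero_eta, Fin.mk_one, Fin.isValue, Pi.add_apply, Pi.smul_apply,
      Pi.neg_apply, Pi.single_eq_same, ne_eq, zero_ne_one, not_false_eq_true,
      Pi.single_eq_of_ne, smul_eq_mul, mul_one, mul_zero, neg_zero, add_zero,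
      Matrix.cons_val_zero]
    rfl
  · have e1 : elt (a (n : ZMod (2 * n))) * elt (xa (n : ZMod (2 * n))) = Yn n := by
      rw [elt_mul_elt, a_mul_xa, sub_self]
      rfl
    have e2 : elt (xa (n : ZMod (2 * n))) * elt (xa (n : ZMod (2 * n)))
        = (elt (a (n : ZMod (2 * n))) : ZG (QuaternionGroup n)) := by
      rw [elt_mul_elt, xa_mul_xa, add_sub_cancel_right]
    have e3 : elt (a (n : ZMod (2 * n))) * elt (a (n : ZMod (2 * n)))
        = (1 : ZG (QuaternionGroup n)) := by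
      rw [elt_mul_elt, a_mul_a, two_n_zero, a_zero, elt_one]
    change (∑ j ∈ Finset.range n, elt (a (j : ZMod (2 * n)))) * 0 + elt (a (n : ZMod (2 * n))) *
      (-(elt (xa (n : ZMod (2 * n))) * 1)
        + elt (xa (n : ZMod (2 * n))) * -(elt (xa (n : ZMod (2 * n))) * 1)) = -(Yn n + 1)
    rw [mul_zero, zero_add, mul_one, mul_neg, e2, mul_add, mul_neg, mul_neg, e1, e3]
    abel

theorem fox_r1 : fox (gensQ n) (relsQ n 1) = ![Yn n + Xn' n, 1 - Xn' n] := by
  have h1 : relsQ n 1 = FreeGroup.of 1 * FreeGroup.of 0 * (FreeGroup.of 1)⁻¹ * FreeGroup.of 0 := rfl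
  have hx : gensQ n 0 = a 1 := rfl
  have hy' : gensQ n 1 = xa 0 := rfl
  have hy : (xa 0 : QuaternionGroup n)⁻¹ = xa (n : ZMod (2 * n)) := by
    have : (xa 0 : QuaternionGroup n)⁻¹ = xa (n + 0) := rfl
    rw [this, add_zero]
  have h3 : (n : ZMod (2 * n)) + n - (0 + 1) = -1 := by
    have := two_n_zero n
    linear_combination this
  rw [h1, fox_mul, fox_mul, fox_mul, fox_inv, fox_of, fox_of]
  simp only [map_mul, map_inv, FreeGroup.lift_apply_of, hx, hy', hy]
  funext i
  fin_cases i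
  · simp only [Fin.zero_eta, Fin.mk_one, Fin.isValue, Pi.add_apply, Pi.smul_apply,
      Pi.neg_apply, Pi.single_eq_same, ne_eq, zero_ne_one, not_false_eq_true,
      Pi.single_eq_of_ne, smul_eq_mul, mul_one, mul_zero, neg_zero, add_zero, zero_add,
      Matrix.cons_val_zero, xa_mul_a, xa_mul_xa]
    rw [zero_add] at h3
    rw [h3, Yn, Xn']
  · rw [zero_add] at h3
    simp only [Fin.zero_eta, Fin.mk_one, Fin.isValue, Pi.add_apply, Pi.smul_apply,
      Pi.neg_apply, Pi.single_eq_same, ne_eq, one_ne_zero, not_false_eq_true,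
      Pi.single_eq_of_ne, smul_eq_mul, mul_one, mul_zero, zero_add, add_zero,
      Matrix.cons_val_one, mul_neg, mul_add, elt_mul_elt, a_mul_xa, xa_mul_xa, xa_mul_a, h3]
    rw [Xn']
    simp only [Matrix.cons_val_fin_one]
    abel

theorem foxD2_P0n (v : Fin 2 → ZG (QuaternionGroup n)) :
    foxD2 (P0n n) v = ![v 0 * Nx n + v 1 * (Yn n + Xn' n), -(v 0 * (Yn n + 1)) + v 1 * (1 - Xn' n)] := by
  have h1 : foxD2 (P0n n) v = ∑ j : Fin 2, v j • fox (gensQ n) (relsQ n j) :=
    Fintype.linearCombination_apply _ _ _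
  rw [h1, Fin.sum_univ_two, fox_r0, fox_r1]
  funext i
  fin_cases i
  · rfl
  · change v 0 * -(Yn n + 1) + v 1 * (1 - Xn' n) = -(v 0 * (Yn n + 1)) + v 1 * (1 - Xn' n)
    rw [mul_neg]

theorem YXS : (Yn n + 1) * (Yn n + 1) * Sg n = (2 : ℤ) • ((Yn n + 1) * Sg n) := by
  have h1 : Yn n * Yn n * Sg n = Sg n := by rw [YY, a_Sg]
  rw [add_mul, mul_add, mul_add, mul_one, mul_one, one_mul, add_mul, add_mul, h1, add_mul,
    one_mul, two_zsmul]
  abel

theorem XNx : (Xn n - 1) * Nx n = elt (a (n : ZMod (2 * n))) - 1 := by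
  rw [Nx, sub_mul, one_mul, Finset.mul_sum]
  simp only [Xn, elt_mul_elt, a_mul_a]
  have h : ∀ k : ℕ, (1 : ZMod (2 * n)) + k = ((k + 1 : ℕ) : ZMod (2 * n)) := by
    intro k
    rw [Nat.cast_succ, add_comm]
  simp only [h]
  rw [← Finset.sum_sub_distrib, Finset.sum_range_sub
    (fun k => (elt (a ((k : ℕ) : ZMod (2 * n))) : ZG (QuaternionGroup n))), Nat.cast_zero, a_zero,
    elt_one]

/-- the two identities `κ ∂ = 0` -/
theorem kap_a : (Xn n - 1) * Nx n + (Xn n - Yn n) * (Yn n + Xn' n) = 0 := by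
  rw [XNx, sub_mul, mul_add, mul_add, XX', YY, YX']
  abel

theorem kap_b : -((Xn n - 1) * (Yn n + 1)) + (Xn n - Yn n) * (1 - Xn' n) = 0 := by
  rw [sub_mul, sub_mul, mul_add, mul_sub, mul_sub, XX', YX']
  simp only [mul_one, one_mul]
  abel

/-- the element `κ` -/
noncomputable def kapQ : Fin 2 → ZG (QuaternionGroup n) := ![Xn n - 1, Xn n - Yn n]

theorem kap_dk : foxD2 (P0n n) (kapQ n) = 0 := by
  rw [foxD2_P0n]
  funext i
  fin_cases i
  · exact kap_a n
  · exact kap_b n

theorem kap_ex (v : Fin 2 → ZG (QuaternionGroup n)) (hv : foxD2 (P0n n) v = 0) :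
    ∃ l : ZG (QuaternionGroup n), v = l • kapQ n := by
  rw [foxD2_P0n] at hv
  have E1 : v 0 * Nx n + v 1 * (Yn n + Xn' n) = 0 := congrFun hv 0
  have E2 : -(v 0 * (Yn n + 1)) + v 1 * (1 - Xn' n) = 0 := congrFun hv 1
  have hY : (Yn n + 1) * Sg n = Sg n * (Yn n + 1) := by
    rw [add_mul, mul_add, Sg_Y, one_mul, mul_one]
  -- `v0 Σ (1 + y) = 0`
  have h1 : v 0 * ((Yn n + 1) * Sg n) = 0 := by
    have h := congrArg (fun l => l * Sg n) E2
    simp only [add_mul, zero_mul, neg_mul, mul_assoc, sub_mul, one_mul, X'_Sg, sub_self, mul_zero,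
      add_zero] at h
    have h' := neg_eq_zero.1 h
    rw [add_mul, one_mul]
    exact h'
  have h2 : (n : ℤ) • (v 0 * Sg n) + v 1 * ((Yn n + 1) * Sg n) = 0 := by
    have h := congrArg (fun l => l * Sg n) E1
    simp only [add_mul, zero_mul, mul_assoc, Nx_Sg, X'_Sg, mul_smul_comm] at h
    rw [add_mul, one_mul]
    exact h
  have h3 : v 1 * ((Yn n + 1) * Sg n) = 0 := by
    apply tf_ZG 2 two_ne_zero
    have h := congrArg (fun l => l * (Yn n + 1)) h2
    beta_reduce at h
    rw [add_mul, zero_mul, smul_mul_assoc, mul_assoc, ← hY, h1, smul_zero, zero_add, mul_assoc,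
      mul_assoc, ← hY, ← mul_assoc (Yn n + 1), YXS, mul_smul_comm] at h
    exact h
  have h4 : v 0 * Sg n = 0 := by
    rw [h3, add_zero] at h2
    exact tf_ZG (n : ℤ) (by exact_mod_cast NeZero.ne n) _ h2
  obtain ⟨l, hl⟩ := of_mul_Sg n _ h4
  -- subtract `l κ`
  set w := v 1 - l * (Xn n - Yn n) with hw
  have e1 : w * (1 - Xn' n) = 0 := by
    have h := kap_b n
    have h5 : l * (-((Xn n - 1) * (Yn n + 1)) + (Xn n - Yn n) * (1 - Xn' n)) = 0 := by
      rw [h, mul_zero]
    rw [hl] at E2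
    calc w * (1 - Xn' n) = (-(l * (Xn n - 1) * (Yn n + 1)) + v 1 * (1 - Xn' n))
          - l * (-((Xn n - 1) * (Yn n + 1)) + (Xn n - Yn n) * (1 - Xn' n)) := by
          rw [hw, sub_mul, mul_assoc l (Xn n - Yn n), mul_add l, mul_neg, mul_assoc l (Xn n - 1)]
          abel
      _ = 0 := by rw [E2, h5, sub_zero]
  have e2 : w * (Yn n + Xn' n) = 0 := by
    have h := kap_a n
    have h5 : l * ((Xn n - 1) * Nx n + (Xn n - Yn n) * (Yn n + Xn' n)) = 0 := by
      rw [h, mul_zero]
    rw [hl] at E1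
    calc w * (Yn n + Xn' n) = (l * (Xn n - 1) * Nx n + v 1 * (Yn n + Xn' n))
          - l * ((Xn n - 1) * Nx n + (Xn n - Yn n) * (Yn n + Xn' n)) := by
          rw [hw, sub_mul, mul_assoc l (Xn n - Yn n), mul_add l, mul_assoc l (Xn n - 1)]
          abel
      _ = 0 := by rw [E1, h5, sub_zero]
  have e3 : w * Xn' n = w := by
    rw [mul_sub, mul_one, sub_eq_zero] at e1
    exact e1.symm
  have e4 : w * Xn n = w := by
    conv_lhs => rw [← e3]
    rw [mul_assoc, X'X, mul_one]
  obtain ⟨p, q, hpq⟩ := of_mul_X n w e4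
  have e5 : w * (Yn n + 1) = 0 := by
    rw [mul_add, e3] at e2
    rw [mul_add, mul_one]
    exact e2
  have hYS : Yn n * Sg n * Yn n = Sg n := by
    rw [mul_assoc, Sg_Y, ← mul_assoc, YY, a_Sg]
  have e6 : (p + q) • Sg n + (p + q) • (Yn n * Sg n) = 0 := by
    rw [hpq, mul_add, mul_one, add_mul, smul_mul_assoc, smul_mul_assoc, hYS, Sg_Y] at e5
    rw [add_smul, add_smul, ← e5]
    abel
  obtain ⟨e7, -⟩ := Sg_indep n _ _ e6
  have e8 : q = -p := by linarith
  refine ⟨l + p • Sg n, ?_⟩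
  funext i
  fin_cases i
  · change v 0 = (l + p • Sg n) * (Xn n - 1)
    rw [add_mul, ← hl, smul_mul_assoc, mul_sub, mul_one, Sg_X, sub_self, smul_zero, add_zero]
  · change v 1 = (l + p • Sg n) * (Xn n - Yn n)
    have e9 : v 1 = l * (Xn n - Yn n) + w := by
      rw [hw]
      abel
    have e10 : Sg n * (Xn n - Yn n) = Sg n - Yn n * Sg n := by rw [mul_sub, Sg_X, Sg_Y]
    rw [e9, add_mul, hpq, e8, smul_mul_assoc, e10, smul_sub, neg_smul]
    abel

theorem kap_ann (l : ZG (QuaternionGroup n)) :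
    l • kapQ n = 0 ↔ ∃ k : ℤ, l = k • nrm (QuaternionGroup n) := by
  constructor
  · intro h
    have h0 : l * (Xn n - 1) = 0 := congrFun h 0
    have h1 : l * (Xn n - Yn n) = 0 := congrFun h 1
    have hX : l * Xn n = l := by
      rw [mul_sub, mul_one, sub_eq_zero] at h0
      exact h0
    have hY : l * Yn n = l := by
      rw [mul_sub, hX, sub_eq_zero] at h1
      exact h1.symm
    apply right_inv
    have h2 : ∀ (k : ℕ), l * elt (a (k : ZMod (2 * n))) = l := by
      intro k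
      induction k with
      | zero => rw [Nat.cast_zero, a_zero, elt_one, mul_one]
      | succ k ih =>
        have h2 : (elt (a ((k + 1 : ℕ) : ZMod (2 * n))) : ZG (QuaternionGroup n))
            = elt (a (k : ZMod (2 * n))) * Xn n := by
          rw [Xn, elt_mul_elt, a_mul_a, Nat.cast_succ]
        rw [h2, ← mul_assoc, ih, hX]
    have h3 : ∀ i : ZMod (2 * n), l * elt (a i) = l := by
      intro i
      have := h2 i.val
      rwa [ZMod.natCast_zmod_val] at this
    rintro (i | i)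
    · exact h3 i
    · have h4 : (elt (xa i) : ZG (QuaternionGroup n)) = Yn n * elt (a i) := by
        rw [Yn, elt_mul_elt, xa_mul_a, zero_add]
      rw [h4, ← mul_assoc, hY, h3]
  · rintro ⟨k, rfl⟩
    have hX : nrm (QuaternionGroup n) * Xn n = nrm _ := nrm_mul_elt _
    have hY : nrm (QuaternionGroup n) * Yn n = nrm _ := nrm_mul_elt _
    funext i
    fin_cases i
    · change k • nrm _ * (Xn n - 1) = 0
      rw [smul_mul_assoc, mul_sub, hX, mul_one, sub_self, smul_zero]
    · change k • nrm _ * (Xn n - Yn n) = 0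
      rw [smul_mul_assoc, mul_sub, hX, hY, sub_self, smul_zero]

/-- the `4`-periodic resolution -/
noncomputable def resoN : Reso (QuaternionGroup n) where
  P := P0n n
  bal := rfl
  kap := kapQ n
  dk := kap_dk n
  ex := kap_ex n
  ann := kap_ann n

end Reso

/-- the standard presentation of the group of order `24` -/
abbrev P0 : FinPresentation Q24 := P0n 6

/-- the resolution for the group of order `24` -/
noncomputable def resoQ : Reso Q24 := resoN 6

theorem resoQ_kap : resoQ.kap = ![X - 1, X - Y] := rfl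

end Vale.Agent.P246.Q24
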