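import Vale.Agent.P246.MathlibUsed
import Mathlib.Data.ZMod.Basic
import Mathlib.LinearAlgebra.Matrix.Determinant.Basic
import Mathlib.Tactic.Ring
import Mathlib.Tactic.LinearCombination

/-!
# Base rings for the `Q_24` computation

`Eis A = A[ω]`, `ω² = -1 - ω`;  `Qd K b = K[t]`, `t² = ±1`;  `Dbl R z = R ⊕ R y`, `y² = z`,
`y r = conj r y`.  All are explicit pairs.
-/

set_option linter.all false

namespace Vale.Agent.P246.Q24

/-- a commutative ring with an involution -/
class Invo (K : Type) [CommRing K] where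
  conj : K →+* K
  conj_conj : ∀ x, conj (conj x) = x

export Invo (conj conj_conj)
attribute [simp] Invo.conj_conj

instance : Invo ℤ := ⟨RingHom.id ℤ, fun _ => rfl⟩
instance (n : ℕ) : Invo (ZMod n) := ⟨RingHom.id (ZMod n), fun _ => rfl⟩

@[simp] theorem conj_int (x : ℤ) : (conj x : ℤ) = x := rfl
@[simp] theorem conj_zmod {n : ℕ} (x : ZMod n) : (conj x : ZMod n) = x := rfl

/-! ### `A[ω]` -/

/-- `re + im ω`, `ω² = -1 - ω` -/
@[ext] structure Eis (A : Type) where
  re : A
  im : A
deriving DecidableEq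

namespace Eis

variable {A : Type} [CommRing A]

instance : Zero (Eis A) := ⟨⟨0, 0⟩⟩
instance : One (Eis A) := ⟨⟨1, 0⟩⟩
instance : Add (Eis A) := ⟨fun x y => ⟨x.re + y.re, x.im + y.im⟩⟩
instance : Neg (Eis A) := ⟨fun x => ⟨-x.re, -x.im⟩⟩
instance : Sub (Eis A) := ⟨fun x y => ⟨x.re - y.re, x.im - y.im⟩⟩
instance : Mul (Eis A) := ⟨fun x y => ⟨x.re * y.re - x.im * y.im,
  x.re * y.im + x.im * y.re - x.im * y.im⟩⟩
instance : SMul ℕ (Eis A) := ⟨fun n x => ⟨n • x.re, n • x.im⟩⟩
instance : SMul ℤ (Eis A) := ⟨fun n x => ⟨n • x.re, n • x.im⟩⟩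
instance : NatCast (Eis A) := ⟨fun n => ⟨n, 0⟩⟩
instance : IntCast (Eis A) := ⟨fun n => ⟨n, 0⟩⟩

@[simp] theorem zero_re : (0 : Eis A).re = 0 := rfl
@[simp] theorem zero_im : (0 : Eis A).im = 0 := rfl
@[simp] theorem one_re : (1 : Eis A).re = 1 := rfl
@[simp] theorem one_im : (1 : Eis A).im = 0 := rfl
@[simp] theorem add_re (x y : Eis A) : (x + y).re = x.re + y.re := rfl
@[simp] theorem add_im (x y : Eis A) : (x + y).im = x.im + y.im := rfl
@[simp] theorem neg_re (x : Eis A) : (-x).re = -x.re := rfl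
@[simp] theorem neg_im (x : Eis A) : (-x).im = -x.im := rfl
@[simp] theorem sub_re (x y : Eis A) : (x - y).re = x.re - y.re := rfl
@[simp] theorem sub_im (x y : Eis A) : (x - y).im = x.im - y.im := rfl
@[simp] theorem mul_re (x y : Eis A) : (x * y).re = x.re * y.re - x.im * y.im := rfl
@[simp] theorem mul_im (x y : Eis A) :
    (x * y).im = x.re * y.im + x.im * y.re - x.im * y.im := rfl
@[simp] theorem nsmul_re (n : ℕ) (x : Eis A) : (n • x).re = n • x.re := rfl
@[simp] theorem nsmul_im (n : ℕ) (x : Eis A) : (n • x).im = n • x.im := rfl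
@[simp] theorem zsmul_re (n : ℤ) (x : Eis A) : (n • x).re = n • x.re := rfl
@[simp] theorem zsmul_im (n : ℤ) (x : Eis A) : (n • x).im = n • x.im := rfl
@[simp] theorem natCast_re (n : ℕ) : (n : Eis A).re = n := rfl
@[simp] theorem natCast_im (n : ℕ) : (n : Eis A).im = 0 := rfl
@[simp] theorem intCast_re (n : ℤ) : (n : Eis A).re = n := rfl
@[simp] theorem intCast_im (n : ℤ) : (n : Eis A).im = 0 := rfl

instance : CommRing (Eis A) where
  add_assoc a b c := by ext <;> simp [add_assoc]
  zero_add a := by ext <;> simp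
  add_zero a := by ext <;> simp
  add_comm a b := by ext <;> simp [add_comm]
  neg_add_cancel a := by ext <;> simp
  sub_eq_add_neg a b := by ext <;> simp [sub_eq_add_neg]
  nsmul n x := n • x
  nsmul_zero x := by ext <;> simp
  nsmul_succ n x := by ext <;> simp [add_mul]
  zsmul n x := n • x
  zsmul_zero' x := by ext <;> simp
  zsmul_succ' n x := by ext <;> simp [add_mul]
  zsmul_neg' n x := by ext <;> simp <;> ring
  mul_assoc a b c := by ext <;> simp <;> ring
  one_mul a := by ext <;> simp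
  mul_one a := by ext <;> simp
  mul_comm a b := by ext <;> simp <;> ring
  left_distrib a b c := by ext <;> simp <;> ring
  right_distrib a b c := by ext <;> simp <;> ring
  zero_mul a := by ext <;> simp
  mul_zero a := by ext <;> simp
  natCast n := n
  natCast_zero := by ext <;> simp
  natCast_succ n := by ext <;> simp
  intCast n := n
  intCast_ofNat n := by ext <;> simp
  intCast_negSucc n := by ext <;> simp

@[simp] theorem ofNat_re (n : ℕ) [n.AtLeastTwo] : (ofNat(n) : Eis A).re = ofNat(n) := by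
  change ((n : ℕ) : Eis A).re = _
  simp; rfl
@[simp] theorem ofNat_im (n : ℕ) [n.AtLeastTwo] : (ofNat(n) : Eis A).im = 0 := by
  change ((n : ℕ) : Eis A).im = _
  simp

/-- `conj (a + bω) = a + bω² = (a - b) - bω` -/
instance : Invo (Eis A) where
  conj :=
    { toFun := fun x => ⟨x.re - x.im, -x.im⟩
      map_one' := by ext <;> simp
      map_zero' := by ext <;> simp
      map_add' := fun x y => by ext <;> simp <;> ring
      map_mul' := fun x y => by ext <;> simp <;> ring }
  conj_conj x := by ext <;> simp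

@[simp] theorem conj_re (x : Eis A) : (conj x : Eis A).re = x.re - x.im := rfl
@[simp] theorem conj_im (x : Eis A) : (conj x : Eis A).im = -x.im := rfl

/-- the inclusion `A → A[ω]` -/
def C : A →+* Eis A where
  toFun := fun a => ⟨a, 0⟩
  map_one' := rfl
  map_zero' := rfl
  map_add' := fun x y => by ext <;> simp
  map_mul' := fun x y => by ext <;> simp

@[simp] theorem C_re (a : A) : (C a : Eis A).re = a := rfl
@[simp] theorem C_im (a : A) : (C a : Eis A).im = 0 := rfl

/-- functoriality -/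
def map {B : Type} [CommRing B] (f : A →+* B) : Eis A →+* Eis B where
  toFun := fun x => ⟨f x.re, f x.im⟩
  map_one' := by ext <;> simp
  map_zero' := by ext <;> simp
  map_add' := fun x y => by ext <;> simp
  map_mul' := fun x y => by ext <;> simp

@[simp] theorem map_re {B : Type} [CommRing B] (f : A →+* B) (x : Eis A) :
    (map f x).re = f x.re := rfl
@[simp] theorem map_im {B : Type} [CommRing B] (f : A →+* B) (x : Eis A) :
    (map f x).im = f x.im := rfl

end Eis

/-! ### `K[t]`, `t² = ±1` -/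

/-- the sign: `sg false = 1`, `sg true = -1` -/
def sg (K : Type) [CommRing K] (b : Bool) : K := bif b then -1 else 1

@[simp] theorem sg_false (K : Type) [CommRing K] : sg K false = 1 := rfl
@[simp] theorem sg_true (K : Type) [CommRing K] : sg K true = -1 := rfl
@[simp] theorem sg_mul_sg (K : Type) [CommRing K] (b : Bool) : sg K b * sg K b = 1 := by
  cases b <;> simp
@[simp] theorem map_sg {K L : Type} [CommRing K] [CommRing L] (f : K →+* L) (b : Bool) :
    f (sg K b) = sg L b := by cases b <;> simp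

/-- `re + im t`, `t² = sg b` -/
@[ext] structure Qd (K : Type) (b : Bool) where
  re : K
  im : K
deriving DecidableEq

namespace Qd

variable {K : Type} [CommRing K] {b : Bool}

instance : Zero (Qd K b) := ⟨⟨0, 0⟩⟩
instance : One (Qd K b) := ⟨⟨1, 0⟩⟩
instance : Add (Qd K b) := ⟨fun x y => ⟨x.re + y.re, x.im + y.im⟩⟩
instance : Neg (Qd K b) := ⟨fun x => ⟨-x.re, -x.im⟩⟩
instance : Sub (Qd K b) := ⟨fun x y => ⟨x.re - y.re, x.im - y.im⟩⟩
instance : Mul (Qd K b) := ⟨fun x y => ⟨x.re * y.re + sg K b * (x.im * y.im),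
  x.re * y.im + x.im * y.re⟩⟩
instance : SMul ℕ (Qd K b) := ⟨fun n x => ⟨n • x.re, n • x.im⟩⟩
instance : SMul ℤ (Qd K b) := ⟨fun n x => ⟨n • x.re, n • x.im⟩⟩
instance : NatCast (Qd K b) := ⟨fun n => ⟨n, 0⟩⟩
instance : IntCast (Qd K b) := ⟨fun n => ⟨n, 0⟩⟩

@[simp] theorem zero_re : (0 : Qd K b).re = 0 := rfl
@[simp] theorem zero_im : (0 : Qd K b).im = 0 := rfl
@[simp] theorem one_re : (1 : Qd K b).re = 1 := rfl
@[simp] theorem one_im : (1 : Qd K b).im = 0 := rfl
@[simp] theorem add_re (x y : Qd K b) : (x + y).re = x.re + y.re := rfl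
@[simp] theorem add_im (x y : Qd K b) : (x + y).im = x.im + y.im := rfl
@[simp] theorem neg_re (x : Qd K b) : (-x).re = -x.re := rfl
@[simp] theorem neg_im (x : Qd K b) : (-x).im = -x.im := rfl
@[simp] theorem sub_re (x y : Qd K b) : (x - y).re = x.re - y.re := rfl
@[simp] theorem sub_im (x y : Qd K b) : (x - y).im = x.im - y.im := rfl
@[simp] theorem mul_re (x y : Qd K b) :
    (x * y).re = x.re * y.re + sg K b * (x.im * y.im) := rfl
@[simp] theorem mul_im (x y : Qd K b) : (x * y).im = x.re * y.im + x.im * y.re := rfl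
@[simp] theorem nsmul_re (n : ℕ) (x : Qd K b) : (n • x).re = n • x.re := rfl
@[simp] theorem nsmul_im (n : ℕ) (x : Qd K b) : (n • x).im = n • x.im := rfl
@[simp] theorem zsmul_re (n : ℤ) (x : Qd K b) : (n • x).re = n • x.re := rfl
@[simp] theorem zsmul_im (n : ℤ) (x : Qd K b) : (n • x).im = n • x.im := rfl
@[simp] theorem natCast_re (n : ℕ) : (n : Qd K b).re = n := rfl
@[simp] theorem natCast_im (n : ℕ) : (n : Qd K b).im = 0 := rfl
@[simp] theorem intCast_re (n : ℤ) : (n : Qd K b).re = n := rfl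
@[simp] theorem intCast_im (n : ℤ) : (n : Qd K b).im = 0 := rfl

instance : CommRing (Qd K b) where
  add_assoc a b c := by ext <;> simp [add_assoc]
  zero_add a := by ext <;> simp
  add_zero a := by ext <;> simp
  add_comm a b := by ext <;> simp [add_comm]
  neg_add_cancel a := by ext <;> simp
  sub_eq_add_neg a b := by ext <;> simp [sub_eq_add_neg]
  nsmul n x := n • x
  nsmul_zero x := by ext <;> simp
  nsmul_succ n x := by ext <;> simp [add_mul]
  zsmul n x := n • x
  zsmul_zero' x := by ext <;> simp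
  zsmul_succ' n x := by ext <;> simp [add_mul]
  zsmul_neg' n x := by ext <;> simp <;> ring
  mul_assoc a b c := by ext <;> simp <;> ring
  one_mul a := by ext <;> simp
  mul_one a := by ext <;> simp
  mul_comm a b := by ext <;> simp <;> ring
  left_distrib a b c := by ext <;> simp <;> ring
  right_distrib a b c := by ext <;> simp <;> ring
  zero_mul a := by ext <;> simp
  mul_zero a := by ext <;> simp
  natCast n := n
  natCast_zero := by ext <;> simp
  natCast_succ n := by ext <;> simp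
  intCast n := n
  intCast_ofNat n := by ext <;> simp
  intCast_negSucc n := by ext <;> simp

@[simp] theorem ofNat_re (n : ℕ) [n.AtLeastTwo] : (ofNat(n) : Qd K b).re = ofNat(n) := by
  change ((n : ℕ) : Qd K b).re = _
  simp; rfl
@[simp] theorem ofNat_im (n : ℕ) [n.AtLeastTwo] : (ofNat(n) : Qd K b).im = 0 := by
  change ((n : ℕ) : Qd K b).im = _
  simp

@[simp] theorem sg_re (c : Bool) : (sg (Qd K b) c).re = sg K c := by cases c <;> simp
@[simp] theorem sg_im (c : Bool) : (sg (Qd K b) c).im = 0 := by cases c <;> simp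

/-- `conj (a + bt) = conj a ± conj b t` (the sign is `sg b`, i.e. `t ↦ t⁻¹`) -/
instance [Invo K] : Invo (Qd K b) where
  conj :=
    { toFun := fun x => ⟨conj x.re, sg K b * conj x.im⟩
      map_one' := by ext <;> simp
      map_zero' := by ext <;> simp
      map_add' := fun x y => by ext <;> simp <;> ring
      map_mul' := fun x y => by cases b <;> ext <;> simp <;> ring }
  conj_conj x := by cases b <;> ext <;> simp

@[simp] theorem conj_re [Invo K] (x : Qd K b) : (conj x : Qd K b).re = conj x.re := rfl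
@[simp] theorem conj_im [Invo K] (x : Qd K b) : (conj x : Qd K b).im = sg K b * conj x.im := rfl

/-- functoriality -/
def map {L : Type} [CommRing L] (f : K →+* L) : Qd K b →+* Qd L b where
  toFun := fun x => ⟨f x.re, f x.im⟩
  map_one' := by ext <;> simp
  map_zero' := by ext <;> simp
  map_add' := fun x y => by ext <;> simp
  map_mul' := fun x y => by ext <;> simp

@[simp] theorem map_re {L : Type} [CommRing L] (f : K →+* L) (x : Qd K b) :
    (map f x).re = f x.re := rfl
@[simp] theorem map_im {L : Type} [CommRing L] (f : K →+* L) (x : Qd K b) :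
    (map f x).im = f x.im := rfl

/-- reduction to characteristic two: `K[t]/(t² ± 1) → L[t]/(t² - 1)` for `2 = 0` in `L` -/
def red2 {L : Type} [CommRing L] (h2 : (-1 : L) = 1) (f : K →+* L) : Qd K b →+* Qd L false where
  toFun := fun x => ⟨f x.re, f x.im⟩
  map_one' := by ext <;> simp
  map_zero' := by ext <;> simp
  map_add' := fun x y => by ext <;> simp
  map_mul' := fun x y => by
    have h : ∀ z : L, -z = z := fun z => by rw [← neg_one_mul, h2, one_mul]
    cases b <;> ext <;> simp [h]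

@[simp] theorem red2_re {L : Type} [CommRing L] (h2 : (-1 : L) = 1) (f : K →+* L) (x : Qd K b) :
    (red2 h2 f x).re = f x.re := rfl
@[simp] theorem red2_im {L : Type} [CommRing L] (h2 : (-1 : L) = 1) (f : K →+* L) (x : Qd K b) :
    (red2 h2 f x).im = f x.im := rfl

end Qd

/-! ### `R ⊕ R y`, `y² = sg b`, `y r = conj r y` -/

/-- `fst + snd y`, `y² = sg b`, `y r = conj r y` -/
@[ext] structure Dbl (R : Type) (b : Bool) where
  fst : R
  snd : R
deriving DecidableEq

namespace Dbl

variable {R : Type} [CommRing R] {b : Bool}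

instance : Zero (Dbl R b) := ⟨⟨0, 0⟩⟩
instance : One (Dbl R b) := ⟨⟨1, 0⟩⟩
instance : Add (Dbl R b) := ⟨fun x y => ⟨x.fst + y.fst, x.snd + y.snd⟩⟩
instance : Neg (Dbl R b) := ⟨fun x => ⟨-x.fst, -x.snd⟩⟩
instance : Sub (Dbl R b) := ⟨fun x y => ⟨x.fst - y.fst, x.snd - y.snd⟩⟩
instance [Invo R] : Mul (Dbl R b) := ⟨fun x y => ⟨x.fst * y.fst + sg R b * (x.snd * conj y.snd),
  x.fst * y.snd + x.snd * conj y.fst⟩⟩
instance : SMul ℕ (Dbl R b) := ⟨fun n x => ⟨n • x.fst, n • x.snd⟩⟩
instance : SMul ℤ (Dbl R b) := ⟨fun n x => ⟨n • x.fst, n • x.snd⟩⟩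
instance : NatCast (Dbl R b) := ⟨fun n => ⟨n, 0⟩⟩
instance : IntCast (Dbl R b) := ⟨fun n => ⟨n, 0⟩⟩

@[simp] theorem zero_fst : (0 : Dbl R b).fst = 0 := rfl
@[simp] theorem zero_snd : (0 : Dbl R b).snd = 0 := rfl
@[simp] theorem one_fst : (1 : Dbl R b).fst = 1 := rfl
@[simp] theorem one_snd : (1 : Dbl R b).snd = 0 := rfl
@[simp] theorem add_fst (x y : Dbl R b) : (x + y).fst = x.fst + y.fst := rfl
@[simp] theorem add_snd (x y : Dbl R b) : (x + y).snd = x.snd + y.snd := rfl
@[simp] theorem neg_fst (x : Dbl R b) : (-x).fst = -x.fst := rfl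
@[simp] theorem neg_snd (x : Dbl R b) : (-x).snd = -x.snd := rfl
@[simp] theorem sub_fst (x y : Dbl R b) : (x - y).fst = x.fst - y.fst := rfl
@[simp] theorem sub_snd (x y : Dbl R b) : (x - y).snd = x.snd - y.snd := rfl
@[simp] theorem mul_fst [Invo R] (x y : Dbl R b) :
    (x * y).fst = x.fst * y.fst + sg R b * (x.snd * conj y.snd) := rfl
@[simp] theorem mul_snd [Invo R] (x y : Dbl R b) :
    (x * y).snd = x.fst * y.snd + x.snd * conj y.fst := rfl
@[simp] theorem nsmul_fst (n : ℕ) (x : Dbl R b) : (n • x).fst = n • x.fst := rfl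
@[simp] theorem nsmul_snd (n : ℕ) (x : Dbl R b) : (n • x).snd = n • x.snd := rfl
@[simp] theorem zsmul_fst (n : ℤ) (x : Dbl R b) : (n • x).fst = n • x.fst := rfl
@[simp] theorem zsmul_snd (n : ℤ) (x : Dbl R b) : (n • x).snd = n • x.snd := rfl
@[simp] theorem natCast_fst (n : ℕ) : (n : Dbl R b).fst = n := rfl
@[simp] theorem natCast_snd (n : ℕ) : (n : Dbl R b).snd = 0 := rfl
@[simp] theorem intCast_fst (n : ℤ) : (n : Dbl R b).fst = n := rfl
@[simp] theorem intCast_snd (n : ℤ) : (n : Dbl R b).snd = 0 := rfl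

instance [Invo R] : Ring (Dbl R b) where
  add_assoc a b c := by ext <;> simp [add_assoc]
  zero_add a := by ext <;> simp
  add_zero a := by ext <;> simp
  add_comm a b := by ext <;> simp [add_comm]
  neg_add_cancel a := by ext <;> simp
  sub_eq_add_neg a b := by ext <;> simp [sub_eq_add_neg]
  nsmul n x := n • x
  nsmul_zero x := by ext <;> simp
  nsmul_succ n x := by ext <;> simp [add_mul]
  zsmul n x := n • x
  zsmul_zero' x := by ext <;> simp
  zsmul_succ' n x := by ext <;> simp [add_mul]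
  zsmul_neg' n x := by ext <;> simp <;> ring
  mul_assoc x y z := by cases b <;> ext <;> simp <;> ring
  one_mul a := by ext <;> simp
  mul_one a := by ext <;> simp
  left_distrib a b c := by ext <;> simp <;> ring
  right_distrib a b c := by ext <;> simp <;> ring
  zero_mul a := by ext <;> simp
  mul_zero a := by ext <;> simp
  natCast n := n
  natCast_zero := by ext <;> simp
  natCast_succ n := by ext <;> simp
  intCast n := n
  intCast_ofNat n := by ext <;> simp
  intCast_negSucc n := by ext <;> simp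

@[simp] theorem ofNat_fst [Invo R] (n : ℕ) [n.AtLeastTwo] :
    (ofNat(n) : Dbl R b).fst = ofNat(n) := by
  change ((n : ℕ) : Dbl R b).fst = _
  simp; rfl
@[simp] theorem ofNat_snd [Invo R] (n : ℕ) [n.AtLeastTwo] : (ofNat(n) : Dbl R b).snd = 0 := by
  change ((n : ℕ) : Dbl R b).snd = _
  simp

/-- the inclusion of `R` -/
def C [Invo R] : R →+* Dbl R b where
  toFun := fun a => ⟨a, 0⟩
  map_one' := rfl
  map_zero' := rfl
  map_add' := fun x y => by ext <;> simp
  map_mul' := fun x y => by ext <;> simp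

@[simp] theorem C_fst [Invo R] (a : R) : (C a : Dbl R b).fst = a := rfl
@[simp] theorem C_snd [Invo R] (a : R) : (C a : Dbl R b).snd = 0 := rfl

/-- the regular representation `T → M_2(R)`, `a + by ↦ (a, b; z σ(b), σ(a))` (row vectors:
`(1,y) x`) -/
def rho [Invo R] : Dbl R b →+* Matrix (Fin 2) (Fin 2) R where
  toFun := fun x => !![x.fst, x.snd; sg R b * conj x.snd, conj x.fst]
  map_one' := by
    ext i j; fin_cases i <;> fin_cases j <;> simp
  map_zero' := by
    ext i j; fin_cases i <;> fin_cases j <;> simp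
  map_add' := fun x y => by
    ext i j; fin_cases i <;> fin_cases j <;> simp <;> ring
  map_mul' := fun x y => by
    ext i j; fin_cases i <;> fin_cases j <;> cases b <;>
      simp [Matrix.mul_apply, Fin.sum_univ_two] <;> ring

/-- the reduced norm `a σ(a) - z b σ(b) ∈ R` -/
def nrd [Invo R] (x : Dbl R b) : R := x.fst * conj x.fst - sg R b * (x.snd * conj x.snd)

/-- the conjugate `σ(a) - by` -/
def star [Invo R] (x : Dbl R b) : Dbl R b := ⟨conj x.fst, -x.snd⟩

theorem mul_star [Invo R] (x : Dbl R b) : x * star x = C (nrd x) := by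
  cases b <;> ext <;> simp [star, nrd] <;> ring

theorem star_mul_self [Invo R] (x : Dbl R b) : star x * x = C (nrd x) := by
  cases b <;> ext <;> simp [star, nrd] <;> ring

theorem nrd_mul [Invo R] (x y : Dbl R b) : nrd (x * y) = nrd x * nrd y := by
  cases b <;> simp [nrd] <;> ring

theorem conj_nrd [Invo R] (x : Dbl R b) : conj (nrd x) = nrd x := by
  cases b <;> simp [nrd] <;> ring

/-- functoriality -/
def map [Invo R] {S : Type} [CommRing S] [Invo S] (f : R →+* S)
    (hf : ∀ r, f (conj r) = conj (f r)) : Dbl R b →+* Dbl S b where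
  toFun := fun x => ⟨f x.fst, f x.snd⟩
  map_one' := by ext <;> simp
  map_zero' := by ext <;> simp
  map_add' := fun x y => by ext <;> simp
  map_mul' := fun x y => by ext <;> simp [hf]

@[simp] theorem map_fst [Invo R] {S : Type} [CommRing S] [Invo S] (f : R →+* S)
    (hf : ∀ r, f (conj r) = conj (f r)) (x : Dbl R b) : (map f hf x).fst = f x.fst := rfl
@[simp] theorem map_snd [Invo R] {S : Type} [CommRing S] [Invo S] (f : R →+* S)
    (hf : ∀ r, f (conj r) = conj (f r)) (x : Dbl R b) : (map f hf x).snd = f x.snd := rfl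

/-- functoriality with change of sign in characteristic two -/
def red2 [Invo R] {S : Type} [CommRing S] [Invo S] (h2 : (-1 : S) = 1) (f : R →+* S)
    (hf : ∀ r, f (conj r) = conj (f r)) : Dbl R b →+* Dbl S false where
  toFun := fun x => ⟨f x.fst, f x.snd⟩
  map_one' := by ext <;> simp
  map_zero' := by ext <;> simp
  map_add' := fun x y => by ext <;> simp
  map_mul' := fun x y => by
    have h : ∀ z : S, -z = z := fun z => by rw [← neg_one_mul, h2, one_mul]
    cases b <;> ext <;> simp [hf, h]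

@[simp] theorem red2_fst [Invo R] {S : Type} [CommRing S] [Invo S] (h2 : (-1 : S) = 1)
    (f : R →+* S) (hf : ∀ r, f (conj r) = conj (f r)) (x : Dbl R b) :
    (red2 h2 f hf x).fst = f x.fst := rfl
@[simp] theorem red2_snd [Invo R] {S : Type} [CommRing S] [Invo S] (h2 : (-1 : S) = 1)
    (f : R →+* S) (hf : ∀ r, f (conj r) = conj (f r)) (x : Dbl R b) :
    (red2 h2 f hf x).snd = f x.snd := rfl

end Dbl

/-! ### the concrete rings -/

/-- `ℤ[ω]` -/
abbrev ZW : Type := Eis ℤ
/-- `𝔽_2` -/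
abbrev F2 : Type := ZMod 2
/-- `𝔽_4` -/
abbrev F4 : Type := Eis (ZMod 2)
/-- `𝔽_3` -/
abbrev F3 : Type := ZMod 3

/-- `T K b = K⟨t, y⟩`, `t² = y² = sg b`, `y t = sg b t y`, `y k = conj k y` -/
abbrev T (K : Type) (b : Bool) : Type := Dbl (Qd K b) b

/-- `ℤ[C_2²]` -/
abbrev T1 : Type := T ℤ false
/-- the Lipschitz quaternions -/
abbrev T2 : Type := T ℤ true
/-- `ℤ[ω]∘C_2 [C_2]` -/
abbrev T3 : Type := T ZW false
/-- `ℤ[ω, i] ⊕ ℤ[ω, i] j` -/
abbrev T4 : Type := T ZW true

/-- `ℤ → 𝔽_2` -/
def zF2 : ℤ →+* F2 := Int.castRingHom F2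
/-- `ℤ → 𝔽_3` -/
def zF3 : ℤ →+* F3 := Int.castRingHom F3
/-- `ℤ[ω] → 𝔽_4` -/
def wF4 : ZW →+* F4 := Eis.map zF2

/-- `ℤ[ω] → 𝔽_3`, `ω ↦ 1` -/
def wF3 : ZW →+* F3 where
  toFun := fun x => zF3 x.re + zF3 x.im
  map_one' := by simp
  map_zero' := by simp
  map_add' := fun x y => by simp; ring
  map_mul' := fun x y => by
    simp only [Eis.mul_re, Eis.mul_im, map_sub, map_add, map_mul]
    have h3 : (3 : F3) = 0 := rfl
    linear_combination (-(zF3 x.im * zF3 y.im)) * h3

@[simp] theorem wF3_apply (x : ZW) : wF3 x = zF3 x.re + zF3 x.im := rfl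

theorem neg_one_F2 : (-1 : F2) = 1 := rfl
theorem neg_one_F4 : (-1 : F4) = 1 := rfl

theorem zF2_conj (x : ℤ) : zF2 (conj x) = conj (zF2 x) := rfl
theorem zF3_conj (x : ℤ) : zF3 (conj x) = conj (zF3 x) := rfl
theorem wF4_conj (x : ZW) : wF4 (conj x) = conj (wF4 x) := by
  ext <;> simp [wF4]
theorem wF3_conj (x : ZW) : wF3 (conj x) = conj (wF3 x) := by
  have h3 : (3 : F3) = 0 := rfl
  simp only [wF3_apply, Eis.conj_re, Eis.conj_im, map_sub, map_neg, conj_zmod]
  linear_combination (-(zF3 x.im)) * h3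

/-- reduction `K[t]/(t²-z) → L[t]/(t²-z)` commutes with `conj` -/
theorem Qd.map_conj {K L : Type} [CommRing K] [CommRing L] [Invo K] [Invo L] (f : K →+* L)
    (hf : ∀ r, f (conj r) = conj (f r)) (b : Bool) (x : Qd K b) :
    Qd.map f (conj x) = conj (Qd.map f x) := by
  ext <;> simp [hf]

theorem Qd.red2_conj {K L : Type} [CommRing K] [CommRing L] [Invo K] [Invo L]
    (h2 : (-1 : L) = 1) (f : K →+* L)
    (hf : ∀ r, f (conj r) = conj (f r)) (b : Bool) (x : Qd K b) :
    Qd.red2 h2 f (conj x) = conj (Qd.red2 h2 f x) := by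
  have h : ∀ z : L, -z = z := fun z => by rw [← neg_one_mul, h2, one_mul]
  cases b <;> ext <;> simp [hf, h]

theorem neg_one_Qd {L : Type} [CommRing L] (h2 : (-1 : L) = 1) : (-1 : Qd L false) = 1 := by
  ext <;> simp [h2]

/-- `T K b → T L b` -/
def T.map {K L : Type} [CommRing K] [CommRing L] [Invo K] [Invo L] (f : K →+* L)
    (hf : ∀ r, f (conj r) = conj (f r)) (b : Bool) : T K b →+* T L b :=
  Dbl.map (Qd.map f) (Qd.map_conj f hf b)

/-- `T K b → T L false` for `2 = 0` in `L` -/
def T.red2 {K L : Type} [CommRing K] [CommRing L] [Invo K] [Invo L]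
    (h2 : (-1 : L) = 1) (f : K →+* L)
    (hf : ∀ r, f (conj r) = conj (f r)) (b : Bool) : T K b →+* T L false :=
  Dbl.red2 (neg_one_Qd h2) (Qd.red2 h2 f) (Qd.red2_conj h2 f hf b)

/-- `T1 → 𝔽_2[C_2²]` -/
def a12 : T1 →+* T F2 false := T.red2 neg_one_F2 zF2 zF2_conj false
/-- `T2 → 𝔽_2[C_2²]` -/
def b12 : T2 →+* T F2 false := T.red2 neg_one_F2 zF2 zF2_conj true
/-- `T3 → 𝔽_4∘C_2 [C_2]` -/
def a34 : T3 →+* T F4 false := T.red2 neg_one_F4 wF4 wF4_conj false
/-- `T4 → 𝔽_4∘C_2 [C_2]` -/
def b34 : T4 →+* T F4 false := T.red2 neg_one_F4 wF4 wF4_conj true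
/-- `T1 → 𝔽_3[C_2²]` -/
def a13 : T1 →+* T F3 false := T.map zF3 zF3_conj false
/-- `T3 → 𝔽_3[C_2²]` -/
def b13 : T3 →+* T F3 false := T.map wF3 wF3_conj false
/-- `T2 → 𝔽_3⟨i, j⟩` -/
def a24 : T2 →+* T F3 true := T.map zF3 zF3_conj true
/-- `T4 → 𝔽_3⟨i, j⟩` -/
def b24 : T4 →+* T F3 true := T.map wF3 wF3_conj true

/-- every unimodular column of length two over `R` is the first column of an invertible matrix -/
def TR (R : Type) [Ring R] : Prop :=
  ∀ a b c d : R, c * a + d * b = 1 → ∃ g h : Matrix (Fin 2) (Fin 2) R, g * h = 1 ∧ h * g = 1 ∧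
    g 0 0 * a + g 0 1 * b = 1 ∧ g 1 0 * a + g 1 1 * b = 0

end Vale.Agent.P246.Q24
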