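import Vale.Agent.P246.Q24.Defs

/-!
# Block C, part 1: stably free modules and kernels

`SF R M a b` : `M ⊕ R^a ≅ R^b`.
-/

set_option linter.all false

namespace Vale.Agent.P246.Q24

open Vale.Agent.P246 Function

section Stable

variable {R : Type} [Ring R]

/-- `M ⊕ R^a ≅ R^b` -/
def SF (R : Type) [Ring R] (M : Type) [AddCommGroup M] [Module R M] (a b : ℕ) : Prop :=
  Nonempty ((M × (Fin a → R)) ≃ₗ[R] (Fin b → R))

variable {M N K : Type} [AddCommGroup M] [Module R M] [AddCommGroup N] [Module R N]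
  [AddCommGroup K] [Module R K]

/-- `R^a ⊕ R^b ≅ R^(a+b)` -/
def finAdd (R : Type) [Ring R] (a b : ℕ) :
    ((Fin a → R) × (Fin b → R)) ≃ₗ[R] (Fin (a + b) → R) :=
  (LinearEquiv.sumArrowLequivProdArrow _ _ R R).symm.trans
    (LinearEquiv.funCongrLeft R R finSumFinEquiv.symm)

theorem SF.of_equiv {a b : ℕ} (h : SF R M a b) (e : M ≃ₗ[R] N) : SF R N a b :=
  ⟨(e.symm.prodCongr (LinearEquiv.refl R _)).trans h.some⟩

theorem SF.pi (n : ℕ) : SF R (Fin n → R) 0 n :=
  ⟨LinearEquiv.prodUnique (M₂ := Fin 0 → R)⟩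

theorem SF.self : SF R R 0 1 :=
  (SF.pi 1).of_equiv (LinearEquiv.funUnique (Fin 1) R R)

theorem SF.of_subsingleton [Subsingleton M] : SF R M 0 0 :=
  ⟨LinearEquiv.ofSubsingleton _ _⟩

theorem SF.of_free [Module.Free R M] [Module.Finite R M] : ∃ n, SF R M 0 n := by
  classical
  rcases subsingleton_or_nontrivial R with h | h
  · have : Subsingleton M := Module.subsingleton R M
    exact ⟨0, SF.of_subsingleton⟩
  · let b := Module.Free.chooseBasis R M
    have : Finite (Module.Free.ChooseBasisIndex R M) := Module.Finite.finite_basis b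
    have := Fintype.ofFinite (Module.Free.ChooseBasisIndex R M)
    refine ⟨Fintype.card (Module.Free.ChooseBasisIndex R M), ?_⟩
    refine (SF.pi _).of_equiv ?_
    exact ((b.reindex (Fintype.equivFin _)).equivFun).symm

theorem SF.prod {a b c d : ℕ} (h : SF R M a b) (h' : SF R N c d) :
    SF R (M × N) (a + c) (b + d) := by
  obtain ⟨e⟩ := h
  obtain ⟨e'⟩ := h'
  exact ⟨((LinearEquiv.refl R (M × N)).prodCongr (finAdd R a c).symm).trans
    ((LinearEquiv.prodProdProdComm R M N (Fin a → R) (Fin c → R)).trans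
      ((e.prodCongr e').trans (finAdd R b d)))⟩

theorem SF.projective {a b : ℕ} (h : SF R M a b) : Module.Projective R M := by
  obtain ⟨e⟩ := h
  refine Module.Projective.of_split (e.toLinearMap ∘ₗ LinearMap.inl R M _)
    (LinearMap.fst R M _ ∘ₗ e.symm.toLinearMap) ?_
  ext x
  simp

theorem SF.finite {a b : ℕ} (h : SF R M a b) : Module.Finite R M := by
  obtain ⟨e⟩ := h
  refine Module.Finite.of_surjective (LinearMap.fst R M _ ∘ₗ e.symm.toLinearMap) ?_
  intro x
  exact ⟨e (x, 0), by simp⟩

/-- the splitting of a surjection with a section -/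
def splitEq (f : M →ₗ[R] N) (s : N →ₗ[R] M) (hs : ∀ y, f (s y) = y) :
    M ≃ₗ[R] (LinearMap.ker f × N) where
  toFun x := (⟨x - s (f x), by rw [LinearMap.mem_ker, map_sub, hs, sub_self]⟩, f x)
  map_add' x y := by
    apply Prod.ext
    · apply Subtype.ext
      simp only [map_add, Prod.fst_add, Submodule.coe_add]
      abel
    · simp
  map_smul' r x := by
    apply Prod.ext
    · apply Subtype.ext
      simp [smul_sub]
    · simp
  invFun z := z.1.1 + s z.2
  left_inv x := by simp
  right_inv z := by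
    obtain ⟨⟨k, hk⟩, y⟩ := z
    rw [LinearMap.mem_ker] at hk
    apply Prod.ext
    · apply Subtype.ext
      simp [hk, hs]
    · simp [hk, hs]

/-- if `K ⊕ N ≅ M` with `M`, `N` stably free then so is `K` -/
theorem SF.cancel {a b c d : ℕ} (h : SF R M a b) (h' : SF R N c d) (e : M ≃ₗ[R] (K × N)) :
    SF R K (a + d) (b + c) := by
  obtain ⟨f⟩ := h
  obtain ⟨g⟩ := h'
  -- `K × R^(a+d) ≅ K × (R^a × R^d) ≅ K × (R^a × (N × R^c))`
  refine ⟨?_⟩
  let e1 : (K × (Fin (a + d) → R)) ≃ₗ[R] (K × ((Fin a → R) × (N × (Fin c → R)))) :=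
    (LinearEquiv.refl R K).prodCongr ((finAdd R a d).symm.trans
      ((LinearEquiv.refl R _).prodCongr g.symm))
  let e2 : (K × ((Fin a → R) × (N × (Fin c → R)))) ≃ₗ[R]
      (((K × N) × (Fin a → R)) × (Fin c → R)) :=
    { toFun := fun x => (((x.1, x.2.2.1), x.2.1), x.2.2.2)
      map_add' := fun _ _ => rfl
      map_smul' := fun _ _ => rfl
      invFun := fun y => (y.1.1.1, (y.1.2, (y.1.1.2, y.2)))
      left_inv := fun _ => rfl
      right_inv := fun _ => rfl }
  exact e1.trans (e2.trans ((((e.symm.prodCongr (LinearEquiv.refl R _)).trans f).prodCongr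
    (LinearEquiv.refl R _)).trans (finAdd R b c)))

/-- kernels of surjections between stably free modules -/
theorem SF.ker {a b c d : ℕ} (h : SF R M a b) (h' : SF R N c d) (f : M →ₗ[R] N)
    (hf : Surjective f) : SF R (LinearMap.ker f) (a + d) (b + c) := by
  have hp := h'.projective
  obtain ⟨s, hs⟩ := Module.projective_lifting_property f (LinearMap.id : N →ₗ[R] N) hf
  exact h.cancel h' (splitEq f s fun y => LinearMap.congr_fun hs y)

/-- the tail of a bounded exact complex of free modules -/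
theorem tail_SF : ∀ (N : ℕ) (X : ℕ → Type) [∀ i, AddCommGroup (X i)] [∀ i, Module R (X i)]
      (d : ∀ i, X (i + 1) →ₗ[R] X i),
      (∀ i, ∃ n, SF R (X i) 0 n) → (∀ i, N < i → Subsingleton (X i)) →
      (∀ i, LinearMap.ker (d i) = LinearMap.range (d (i + 1))) →
      Module.Projective R (LinearMap.range (d 0)) →
      ∃ a b : ℕ, SF R (LinearMap.range (d 0)) a b
  | 0, X, _, _, d, hc, hb, hex, hproj => by
    have := hb 1 one_pos
    have h1 : Subsingleton (LinearMap.range (d 0)) := by
      constructor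
      rintro ⟨_, ⟨x, rfl⟩⟩ ⟨_, ⟨y, rfl⟩⟩
      rw [Subsingleton.elim x y]
    exact ⟨0, 0, SF.of_subsingleton⟩
  | N + 1, X, _, _, d, hc, hb, hex, hproj => by
    have hsurj : Surjective (d 0).rangeRestrict := LinearMap.surjective_rangeRestrict _
    obtain ⟨s, hs⟩ := Module.projective_lifting_property (d 0).rangeRestrict LinearMap.id hsurj
    have hs' : ∀ y, (d 0).rangeRestrict (s y) = y := fun y => LinearMap.congr_fun hs y
    let e := splitEq (d 0).rangeRestrict s hs'
    have hker : LinearMap.ker (d 0).rangeRestrict = LinearMap.range (d 1) := by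
      rw [LinearMap.ker_rangeRestrict, hex 0]
    let e' : X 1 ≃ₗ[R] (LinearMap.range (d 1) × LinearMap.range (d 0)) :=
      e.trans ((LinearEquiv.ofEq _ _ hker).prodCongr (LinearEquiv.refl R _))
    obtain ⟨n, hn⟩ := hc 1
    have hX1 : Module.Projective R (X 1) := hn.projective
    have hproj1 : Module.Projective R (LinearMap.range (d 1)) := by
      refine Module.Projective.of_split (e'.symm.toLinearMap ∘ₗ LinearMap.inl R _ _)
        (LinearMap.fst R _ _ ∘ₗ e'.toLinearMap) ?_
      ext x
      simp only [Nat.reduceAdd, LinearMap.coe_comp, LinearMap.coe_fst, LinearEquiv.coe_coe,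
        LinearMap.coe_inl, comp_apply, LinearEquiv.apply_symm_apply, LinearMap.id_coe, id_eq]
    obtain ⟨a, b, h⟩ := tail_SF N (fun i => X (i + 1)) (fun i => d (i + 1))
      (fun i => hc (i + 1)) (fun i hi => hb (i + 1) (by omega))
      (fun i => hex (i + 1)) hproj1
    exact ⟨_, _, hn.cancel h (e'.trans (LinearEquiv.prodComm R _ _))⟩

end Stable

end Vale.Agent.P246.Q24
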