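import Vale.Agent.P246.Q24.C1

/-!
# Block C, part 2: the module `Q` of a truncated complex

Truncated data `X2 → X1 → X0 → ℤ` with a chain map to the resolution `S`.
-/

set_option linter.all false

namespace Vale.Agent.P246.Q24

open Vale.Agent.P246 Function

section General

variable {G : Type} [Group G]

/-- exactness of the Fox complex of `P` in degrees `0` and `1` -/
structure FoxOK (P : FinPresentation G) : Prop where
  aug : ∀ x, aug G x = 0 ↔ ∃ u, foxD1 P u = x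
  exact : ∀ u, foxD1 P u = 0 → ∃ t, foxD2 P t = u

theorem fox_dd (P : FinPresentation G) (t : Fin P.rels → ZG G) : foxD1 P (foxD2 P t) = 0 := by
  have h0 : foxD2 P t = ∑ j, t j • foxWord P.x (P.r j).toWord :=
    Fintype.linearCombination_apply _ _ _
  rw [h0, map_sum]
  apply Finset.sum_eq_zero
  intro j _
  rw [map_smul]
  have h : foxD1 P (foxWord P.x (P.r j).toWord) = 0 := by
    rw [foxD1, Fintype.linearCombination_apply]
    exact fox_rel_aux P j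
  rw [h, smul_zero]

/-- equivariant additive maps to `ℤ` are augmentation-linear -/
theorem eps_linear {M : Type} [AddCommGroup M] [Module (ZG G) M] (ε : M →+ ℤ)
    (hε : ∀ (g : G) (x : M), ε (elt g • x) = ε x) (s : ZG G) (x : M) :
    ε (s • x) = aug G s * ε x := by
  induction s using MonoidAlgebra.induction_linear with
  | zero => rw [zero_smul, map_zero, map_zero, zero_mul]
  | add s t hs ht => rw [add_smul, map_add, hs, ht, map_add, add_mul]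
  | single g n =>
    have h1 : (MonoidAlgebra.single g n : ZG G) = n • elt g := by
      rw [elt, MonoidAlgebra.smul_single, smul_eq_mul, mul_one]
    rw [h1, smul_assoc, map_zsmul, hε, map_zsmul, aug_elt]
    simp

variable [Fintype G]

/-- truncated data: an exact sequence `X2 → X1 → X0 → ℤ → 0` with a chain map to `S` -/
structure Trunc (S : Reso G) (X0 X1 X2 : Type) [AddCommGroup X0] [Module (ZG G) X0]
    [AddCommGroup X1] [Module (ZG G) X1] [AddCommGroup X2] [Module (ZG G) X2] where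
  d1 : X1 →ₗ[ZG G] X0
  d2 : X2 →ₗ[ZG G] X1
  eps : X0 →+ ℤ
  eps_surj : Surjective eps
  eps_g : ∀ (g : G) (x : X0), eps (elt g • x) = eps x
  ex0 : ∀ x, eps x = 0 ↔ ∃ y, d1 y = x
  ex1 : ∀ y, d1 y = 0 ↔ ∃ z, d2 z = y
  f0 : X0 →ₗ[ZG G] ZG G
  f1 : X1 →ₗ[ZG G] (Fin S.P.gens → ZG G)
  f2 : X2 →ₗ[ZG G] (Fin S.P.rels → ZG G)
  c0 : ∀ x, aug G (f0 x) = eps x
  c1 : ∀ y, foxD1 S.P (f1 y) = f0 (d1 y)
  c2 : ∀ z, foxD2 S.P (f2 z) = f1 (d2 z)

variable {S : Reso G} {X0 X1 X2 : Type} [AddCommGroup X0] [Module (ZG G) X0]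
    [AddCommGroup X1] [Module (ZG G) X1] [AddCommGroup X2] [Module (ZG G) X2]

/-- `{(p, l) : ∂p = 0, f₂ p = l κ}` -/
def QQ (T : Trunc S X0 X1 X2) : Submodule (ZG G) (X2 × ZG G) where
  carrier := {v | T.d2 v.1 = 0 ∧ T.f2 v.1 = v.2 • S.kap}
  add_mem' := by
    rintro a b ⟨h1, h2⟩ ⟨h3, h4⟩
    refine ⟨?_, ?_⟩
    · change T.d2 (a.1 + b.1) = 0
      rw [map_add, h1, h3, add_zero]
    · change T.f2 (a.1 + b.1) = (a.2 + b.2) • S.kap
      rw [map_add, h2, h4, add_smul]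
  zero_mem' := by
    refine ⟨?_, ?_⟩
    · exact map_zero _
    · change T.f2 0 = (0 : ZG G) • S.kap
      rw [map_zero, zero_smul]
  smul_mem' := by
    rintro c a ⟨h1, h2⟩
    refine ⟨?_, ?_⟩
    · change T.d2 (c • a.1) = 0
      rw [map_smul, h1, smul_zero]
    · change T.f2 (c • a.1) = (c * a.2) • S.kap
      rw [map_smul, h2, mul_smul]

/-- `(x, u) ↦ f₀ x - ∂u` -/
noncomputable def al1 (T : Trunc S X0 X1 X2) : (X0 × (Fin S.P.gens → ZG G)) →ₗ[ZG G] ZG G :=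
  T.f0 ∘ₗ LinearMap.fst _ _ _ - foxD1 S.P ∘ₗ LinearMap.snd _ _ _

theorem al1_apply (T : Trunc S X0 X1 X2) (x : X0) (u : Fin S.P.gens → ZG G) :
    al1 T (x, u) = T.f0 x - foxD1 S.P u := rfl

theorem aug_foxD1 {P : FinPresentation G} (hP : FoxOK P) (u : Fin P.gens → ZG G) :
    aug G (foxD1 P u) = 0 := (hP.aug _).2 ⟨u, rfl⟩

theorem al1_surj (hS : FoxOK S.P) (T : Trunc S X0 X1 X2) : Surjective (al1 T) := by
  intro l
  obtain ⟨x, hx⟩ := T.eps_surj (aug G l)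
  have h1 : aug G (T.f0 x - l) = 0 := by rw [map_sub, T.c0, hx, sub_self]
  obtain ⟨u, hu⟩ := (hS.aug _).1 h1
  refine ⟨(x, u), ?_⟩
  rw [al1_apply, hu, sub_sub_cancel]

/-- `(y, s) ↦ (∂y, f₁ y - ∂s)` -/
noncomputable def al2 (T : Trunc S X0 X1 X2) :
    (X1 × (Fin S.P.rels → ZG G)) →ₗ[ZG G] LinearMap.ker (al1 T) :=
  LinearMap.codRestrict _ (LinearMap.prod (T.d1 ∘ₗ LinearMap.fst _ _ _)
    (T.f1 ∘ₗ LinearMap.fst _ _ _ - foxD2 S.P ∘ₗ LinearMap.snd _ _ _)) (by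
    rintro ⟨y, s⟩
    rw [LinearMap.mem_ker]
    change al1 T (T.d1 y, T.f1 y - foxD2 S.P s) = 0
    rw [al1_apply, map_sub, T.c1, fox_dd, sub_zero, sub_self])

theorem al2_apply (T : Trunc S X0 X1 X2) (y : X1) (s : Fin S.P.rels → ZG G) :
    (al2 T (y, s)).1 = (T.d1 y, T.f1 y - foxD2 S.P s) := rfl

theorem al2_surj (hS : FoxOK S.P) (T : Trunc S X0 X1 X2) : Surjective (al2 T) := by
  rintro ⟨⟨x, u⟩, h⟩
  rw [LinearMap.mem_ker, al1_apply, sub_eq_zero] at h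
  have h1 : T.eps x = 0 := by rw [← T.c0, h, aug_foxD1 hS]
  obtain ⟨y, rfl⟩ := (T.ex0 x).1 h1
  have h2 : foxD1 S.P (T.f1 y - u) = 0 := by rw [map_sub, T.c1, h, sub_self]
  obtain ⟨s, hs⟩ := hS.exact _ h2
  refine ⟨(y, s), ?_⟩
  apply Subtype.ext
  rw [al2_apply, hs, sub_sub_cancel]

/-- `(p, l) ↦ (∂p, f₂ p - l κ)` -/
noncomputable def al3 (T : Trunc S X0 X1 X2) :
    (X2 × ZG G) →ₗ[ZG G] LinearMap.ker (al2 T) :=
  LinearMap.codRestrict _ (LinearMap.prod (T.d2 ∘ₗ LinearMap.fst _ _ _)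
    (T.f2 ∘ₗ LinearMap.fst _ _ _ - (LinearMap.toSpanSingleton (ZG G) _ S.kap) ∘ₗ
      LinearMap.snd _ _ _)) (by
    rintro ⟨p, l⟩
    rw [LinearMap.mem_ker]
    apply Subtype.ext
    change (al2 T (T.d2 p, T.f2 p - l • S.kap)).1 = 0
    rw [al2_apply, map_sub, T.c2, map_smul, S.dk, smul_zero, sub_zero, sub_self,
      (T.ex1 _).2 ⟨p, rfl⟩]
    rfl)

theorem al3_apply (T : Trunc S X0 X1 X2) (p : X2) (l : ZG G) :
    (al3 T (p, l)).1 = (T.d2 p, T.f2 p - l • S.kap) := rfl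

theorem al3_surj (hS : FoxOK S.P) (T : Trunc S X0 X1 X2) : Surjective (al3 T) := by
  rintro ⟨⟨y, s⟩, h⟩
  rw [LinearMap.mem_ker] at h
  have h := congrArg Subtype.val h
  rw [al2_apply] at h
  have h1 : T.d1 y = 0 := congrArg Prod.fst h
  have h2 : T.f1 y - foxD2 S.P s = 0 := congrArg Prod.snd h
  obtain ⟨p, rfl⟩ := (T.ex1 y).1 h1
  have h3 : foxD2 S.P (T.f2 p - s) = 0 := by rw [map_sub, T.c2, h2]
  obtain ⟨l, hl⟩ := S.ex _ h3
  refine ⟨(p, l), ?_⟩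
  apply Subtype.ext
  rw [al3_apply, ← hl, sub_sub_cancel]

theorem ker_al3 (T : Trunc S X0 X1 X2) : LinearMap.ker (al3 T) = QQ T := by
  ext ⟨p, l⟩
  rw [LinearMap.mem_ker, Subtype.ext_iff, al3_apply]
  change (T.d2 p, T.f2 p - l • S.kap) = (0, 0) ↔ T.d2 p = 0 ∧ T.f2 p = l • S.kap
  rw [Prod.mk.injEq, sub_eq_zero]

theorem QQ_SF (hS : FoxOK S.P) (T : Trunc S X0 X1 X2) {a0 b0 a1 b1 a2 b2 : ℕ}
    (h0 : SF (ZG G) X0 a0 b0) (h1 : SF (ZG G) X1 a1 b1) (h2 : SF (ZG G) X2 a2 b2) :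
    ∃ a b, SF (ZG G) (QQ T) a b := by
  have k1 := (h0.prod (SF.pi S.P.gens)).ker SF.self (al1 T) (al1_surj hS T)
  have k2 := (h1.prod (SF.pi S.P.rels)).ker k1 (al2 T) (al2_surj hS T)
  have k3 := (h2.prod SF.self).ker k2 (al3 T) (al3_surj hS T)
  exact ⟨_, _, k3.of_equiv (LinearEquiv.ofEq _ _ (ker_al3 T))⟩

end General

end Vale.Agent.P246.Q24
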