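import Vale.Agent.P246.Q24.C2

/-!
# Block C, part 3: an isomorphism of the modules `Q` gives a homotopy equivalence
-/

set_option linter.all false

namespace Vale.Agent.P246.Q24

open Vale.Agent.P246 Function CategoryTheory

section General

theorem lift_proj {R : Type} [Ring R] {A M N : Type} [AddCommGroup A] [Module R A]
    [AddCommGroup M] [Module R M] [AddCommGroup N] [Module R N] [Module.Projective R A]
    (g : M →ₗ[R] N) (θ : A →ₗ[R] N) (h : ∀ a, ∃ m, g m = θ a) :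
    ∃ s : A →ₗ[R] M, ∀ a, g (s a) = θ a := by
  obtain ⟨s, hs⟩ := Module.projective_lifting_property g.rangeRestrict
    (θ.codRestrict (LinearMap.range g) (fun a => by
      obtain ⟨m, hm⟩ := h a
      exact ⟨m, hm⟩)) g.surjective_rangeRestrict
  exact ⟨s, fun a => congrArg Subtype.val (LinearMap.congr_fun hs a)⟩

theorem factor_surj {R : Type} [Ring R] {A B D : Type} [AddCommGroup A] [Module R A]
    [AddCommGroup B] [Module R B] [AddCommGroup D] [Module R D]
    (q : A →ₗ[R] B) (hq : Surjective q) (f : A →ₗ[R] D) (h : ∀ a, q a = 0 → f a = 0) :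
    ∃ e : B →ₗ[R] D, ∀ a, e (q a) = f a := by
  refine ⟨(LinearMap.ker q).liftQ f (fun a ha => h a ha) ∘ₗ
    (q.quotKerEquivOfSurjective hq).symm.toLinearMap, fun a => ?_⟩
  have h1 : (q.quotKerEquivOfSurjective hq).symm (q a) = Submodule.Quotient.mk a := by
    rw [LinearEquiv.symm_apply_eq]
    rfl
  rw [LinearMap.comp_apply, LinearEquiv.coe_coe, h1]
  rfl

variable {G : Type} [Group G] [Fintype G]

theorem free_int : Module.Free ℤ (ZG G) := Module.Free.of_basis (MonoidAlgebra.basis G ℤ)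

theorem finite_int : Module.Finite ℤ (ZG G) := Module.Finite.of_basis (MonoidAlgebra.basis G ℤ)

theorem coeff_elt_inv_mul (g : G) (l : ZG G) : (elt g⁻¹ * l).coeff 1 = l.coeff g := by
  classical
  induction l using MonoidAlgebra.induction_linear with
  | zero => rw [mul_zero]; rfl
  | add s t hs ht => 
    rw [mul_add, MonoidAlgebra.coeff_add, Finsupp.add_apply, hs, ht, MonoidAlgebra.coeff_add,
      Finsupp.add_apply]
  | single h n =>
    rw [elt, MonoidAlgebra.single_mul_single, MonoidAlgebra.coeff_single,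
      MonoidAlgebra.coeff_single, Finsupp.single_apply, Finsupp.single_apply, one_mul]
    have : (g⁻¹ * h = 1) ↔ (h = g) := by
      rw [inv_mul_eq_one, eq_comm]
    simp only [this]

theorem sum_coeff_elt (l : ZG G) : ∑ g : G, l.coeff g • elt g = l := by
  classical
  induction l using MonoidAlgebra.induction_linear with
  | zero => simp
  | add s t hs ht =>
    conv_rhs => rw [← hs, ← ht, ← Finset.sum_add_distrib]
    refine Finset.sum_congr rfl fun g _ => ?_
    rw [MonoidAlgebra.coeff_add, Finsupp.add_apply, add_smul]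
  | single h n =>
    rw [Finset.sum_eq_single h]
    · rw [MonoidAlgebra.coeff_single, Finsupp.single_eq_same, elt, MonoidAlgebra.smul_single,
        smul_eq_mul, mul_one]
    · intro g _ hg
      rw [MonoidAlgebra.coeff_single, Finsupp.single_eq_of_ne hg, zero_smul]
    · intro h0
      exact absurd (Finset.mem_univ h) h0

/-- an additive map commuting with group elements is linear -/
def linOfEquivariant {A B : Type} [AddCommGroup A] [Module (ZG G) A] [AddCommGroup B]
    [Module (ZG G) B] (f : A →+ B) (hf : ∀ (g : G) (a : A), f (elt g • a) = elt g • f a) :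
    A →ₗ[ZG G] B where
  toFun := f
  map_add' := f.map_add
  map_smul' := by
    intro s a
    rw [RingHom.id_apply]
    induction s using MonoidAlgebra.induction_linear with
    | zero => rw [zero_smul, zero_smul, map_zero]
    | add s t hs ht => rw [add_smul, map_add, hs, ht, add_smul]
    | single g n =>
      have h1 : (MonoidAlgebra.single g n : ZG G) = n • elt g := by
        rw [elt, MonoidAlgebra.smul_single, smul_eq_mul, mul_one]
      rw [h1, smul_assoc, map_zsmul, hf, smul_assoc]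

/-- the linear map to the group ring attached to a linear form over `ℤ` -/
noncomputable def ofForm {A : Type} [AddCommGroup A] [Module (ZG G) A] (μ : A →+ ℤ) :
    A →ₗ[ZG G] ZG G :=
  linOfEquivariant
    { toFun := fun x => ∑ g : G, μ (elt g⁻¹ • x) • elt g
      map_zero' := by simp
      map_add' := fun x y => by
        rw [← Finset.sum_add_distrib]
        refine Finset.sum_congr rfl fun g _ => ?_
        rw [smul_add, map_add, add_smul] }
    (by
      intro h x
      change ∑ g : G, μ (elt g⁻¹ • elt h • x) • elt g = elt h • ∑ g : G, μ (elt g⁻¹ • x) • elt g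
      rw [Finset.smul_sum, ← Equiv.sum_comp (Equiv.mulLeft h)]
      refine Finset.sum_congr rfl fun g _ => ?_
      rw [Equiv.coe_mulLeft, ← smul_assoc, smul_eq_mul, elt_mul_elt, smul_eq_mul,
        mul_smul_comm, elt_mul_elt]
      congr 3
      group)

theorem ofForm_apply {A : Type} [AddCommGroup A] [Module (ZG G) A] (μ : A →+ ℤ) (x : A) :
    ofForm μ x = ∑ g : G, μ (elt g⁻¹ • x) • elt g := rfl

/-- linear maps from a kernel between free modules to `ℤ[G]` extend -/
theorem ext_free {n m : ℕ} (g : (Fin n → ZG G) →ₗ[ZG G] (Fin m → ZG G))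
    (e : LinearMap.ker g →ₗ[ZG G] ZG G) :
    ∃ E : (Fin n → ZG G) →ₗ[ZG G] ZG G, ∀ x : LinearMap.ker g, E x = e x := by
  have h1 := free_int (G := G)
  have h2 := finite_int (G := G)
  -- a retraction over `ℤ`
  let gZ : (Fin n → ZG G) →ₗ[ℤ] (Fin m → ZG G) := g.toAddMonoidHom.toIntLinearMap
  have h3 : Module.Free ℤ (LinearMap.range gZ) := inferInstance
  obtain ⟨s, hs⟩ := Module.projective_lifting_property gZ.rangeRestrict LinearMap.id
    gZ.surjective_rangeRestrict
  have hs' : ∀ y, gZ (s y) = y := fun y => congrArg Subtype.val (LinearMap.congr_fun hs y)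
  have hk : ∀ x, x - s (gZ.rangeRestrict x) ∈ LinearMap.ker g := by
    intro x
    rw [LinearMap.mem_ker]
    change gZ (x - s (gZ.rangeRestrict x)) = 0
    rw [map_sub, hs']
    exact sub_self _
  let μ : (Fin n → ZG G) →+ ℤ :=
    { toFun := fun x => (e ⟨_, hk x⟩).coeff 1
      map_zero' := by
        have : (⟨_, hk 0⟩ : LinearMap.ker g) = 0 := by
          apply Subtype.ext
          change (0 : Fin n → ZG G) - s (gZ.rangeRestrict 0) = 0
          rw [map_zero, map_zero, sub_zero]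
        rw [this, map_zero]
        rfl
      map_add' := by
        intro x y
        have : (⟨_, hk (x + y)⟩ : LinearMap.ker g) = ⟨_, hk x⟩ + ⟨_, hk y⟩ := by
          apply Subtype.ext
          change x + y - s (gZ.rangeRestrict (x + y))
            = (x - s (gZ.rangeRestrict x)) + (y - s (gZ.rangeRestrict y))
          rw [map_add, map_add]
          abel
        rw [this, map_add, MonoidAlgebra.coeff_add]
        rfl }
  have hμ : ∀ x : LinearMap.ker g, μ x = (e x).coeff 1 := by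
    intro x
    have : (⟨_, hk x.1⟩ : LinearMap.ker g) = x := by
      apply Subtype.ext
      change x.1 - s (gZ.rangeRestrict x.1) = x.1
      have h0 : gZ.rangeRestrict x.1 = 0 := Subtype.ext x.2
      rw [h0, map_zero, sub_zero]
    change (e ⟨_, hk x.1⟩).coeff 1 = _
    rw [this]
  refine ⟨ofForm μ, fun x => ?_⟩
  rw [ofForm_apply]
  conv_rhs => rw [← sum_coeff_elt (e x)]
  refine Finset.sum_congr rfl fun h _ => ?_
  have h5 := hμ (elt h⁻¹ • x)
  rw [map_smul, smul_eq_mul, coeff_elt_inv_mul] at h5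
  rw [← h5]
  rfl

/-- the same for stably free targets -/
theorem ext_SF {n m : ℕ} (g : (Fin n → ZG G) →ₗ[ZG G] (Fin m → ZG G)) {M : Type}
    [AddCommGroup M] [Module (ZG G) M] {a b : ℕ} (hM : SF (ZG G) M a b)
    (e : LinearMap.ker g →ₗ[ZG G] M) :
    ∃ E : (Fin n → ZG G) →ₗ[ZG G] M, ∀ x : LinearMap.ker g, E x = e x := by
  obtain ⟨f⟩ := hM
  have h1 : ∀ i : Fin b, ∃ E : (Fin n → ZG G) →ₗ[ZG G] ZG G,
      ∀ x : LinearMap.ker g, E x = f (e x, 0) i := fun i =>
    ext_free g (LinearMap.proj i ∘ₗ f.toLinearMap ∘ₗ LinearMap.inl _ _ _ ∘ₗ e)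
  choose E hE using h1
  refine ⟨LinearMap.fst _ _ _ ∘ₗ f.symm.toLinearMap ∘ₗ LinearMap.pi E, fun x => ?_⟩
  have h2 : LinearMap.pi E (x : Fin n → ZG G) = f (e x, 0) := by
    funext i
    exact hE i x
  change (f.symm (LinearMap.pi E (x : Fin n → ZG G))).1 = e x
  rw [h2, f.symm_apply_apply]

variable {S : Reso G} {X0 X1 X2 : Type} [AddCommGroup X0] [Module (ZG G) X0]
    [AddCommGroup X1] [Module (ZG G) X1] [AddCommGroup X2] [Module (ZG G) X2]

theorem nrm_smul_kap (S : Reso G) : nrm G • S.kap = 0 := (S.ann _).2 ⟨1, (one_smul _ _).symm⟩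

/-- the element `(0, N)` of `Q` -/
noncomputable def nQ (T : Trunc S X0 X1 X2) : QQ T :=
  ⟨(0, nrm G), by
    refine ⟨map_zero _, ?_⟩
    change T.f2 0 = nrm G • S.kap
    rw [map_zero, nrm_smul_kap]⟩

/-- the element `(0, N)` of `Q_P` -/
noncomputable def nP (S : Reso G) (P : FinPresentation G)
    (φ : (Fin P.rels → ZG G) →ₗ[ZG G] (Fin S.P.rels → ZG G)) : QP S P φ :=
  ⟨(0, nrm G), by
    refine ⟨map_zero _, ?_⟩
    change φ 0 = nrm G • S.kap
    rw [map_zero, nrm_smul_kap]⟩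

theorem homotopy (T : Trunc S X0 X1 X2) (hS : FoxOK S.P) (P : FinPresentation G)
    (φ : (Fin P.rels → ZG G) →ₗ[ZG G] (Fin S.P.rels → ZG G))
    (φ1 : (Fin P.gens → ZG G) →ₗ[ZG G] (Fin S.P.gens → ZG G))
    (h1 : ∀ u, foxD1 S.P (φ1 u) = foxD1 P u) (h2 : ∀ t, foxD2 S.P (φ t) = φ1 (foxD2 P t))
    (F0 : ZG G →ₗ[ZG G] X0) (F1 : (Fin P.gens → ZG G) →ₗ[ZG G] X1)
    (F2 : (Fin P.rels → ZG G) →ₗ[ZG G] X2)
    (k0 : ∀ x, T.eps (F0 x) = aug G x) (k1 : ∀ u, T.d1 (F1 u) = F0 (foxD1 P u))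
    (k2 : ∀ t, T.d2 (F2 t) = F1 (foxD2 P t)) :
    ∃ s : (Fin P.rels → ZG G) →ₗ[ZG G] ZG G,
      ∀ p, foxD2 P p = 0 → T.f2 (F2 p) = φ p + s p • S.kap := by
  obtain ⟨s0, hs0⟩ := lift_proj (foxD1 S.P) (T.f0 ∘ₗ F0 - LinearMap.id) (fun x => by
    apply (hS.aug _).1
    change aug G (T.f0 (F0 x) - x) = 0
    rw [map_sub, T.c0, k0, sub_self])
  have hs0' : ∀ x, foxD1 S.P (s0 x) = T.f0 (F0 x) - x := hs0
  obtain ⟨s1, hs1⟩ := lift_proj (foxD2 S.P) (T.f1 ∘ₗ F1 - φ1 - s0 ∘ₗ foxD1 P) (fun u => by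
    apply hS.exact
    change foxD1 S.P (T.f1 (F1 u) - φ1 u - s0 (foxD1 P u)) = 0
    rw [map_sub, map_sub, hs0', h1, T.c1, k1, sub_self])
  have hs1' : ∀ u, foxD2 S.P (s1 u) = T.f1 (F1 u) - φ1 u - s0 (foxD1 P u) := hs1
  obtain ⟨s2, hs2⟩ := lift_proj (LinearMap.toSpanSingleton (ZG G) _ S.kap)
    (T.f2 ∘ₗ F2 - φ - s1 ∘ₗ foxD2 P) (fun t => by
    obtain ⟨l, hl⟩ := S.ex (T.f2 (F2 t) - φ t - s1 (foxD2 P t)) (by
      rw [map_sub, map_sub, hs1', h2, T.c2, k2, fox_dd, map_zero, sub_zero, sub_self])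
    exact ⟨l, hl.symm⟩)
  have hs2' : ∀ t, s2 t • S.kap = T.f2 (F2 t) - φ t - s1 (foxD2 P t) := hs2
  refine ⟨s2, fun p hp => ?_⟩
  rw [hs2', hp, map_zero, sub_zero]
  abel

/-- the key lemma -/
theorem key_F2 (T : Trunc S X0 X1 X2) (hS : FoxOK S.P) (P : FinPresentation G)
    (φ : (Fin P.rels → ZG G) →ₗ[ZG G] (Fin S.P.rels → ZG G))
    (φ1 : (Fin P.gens → ZG G) →ₗ[ZG G] (Fin S.P.gens → ZG G))
    (h1 : ∀ u, foxD1 S.P (φ1 u) = foxD1 P u) (h2 : ∀ t, foxD2 S.P (φ t) = φ1 (foxD2 P t))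
    (F0 : ZG G →ₗ[ZG G] X0) (F1 : (Fin P.gens → ZG G) →ₗ[ZG G] X1)
    (F2 : (Fin P.rels → ZG G) →ₗ[ZG G] X2)
    (k0 : ∀ x, T.eps (F0 x) = aug G x) (k1 : ∀ u, T.d1 (F1 u) = F0 (foxD1 P u))
    (k2 : ∀ t, T.d2 (F2 t) = F1 (foxD2 P t)) {a b : ℕ} (hsf : SF (ZG G) (QQ T) a b)
    (h : QP S P φ ≃ₗ[ZG G] QQ T) (hN : h (nP S P φ) = nQ T) :
    ∃ F2' : (Fin P.rels → ZG G) →ₗ[ZG G] X2, (∀ t, T.d2 (F2' t) = F1 (foxD2 P t)) ∧
      (∀ x, foxD2 P x = 0 → F2' x = 0 → x = 0) ∧
      ∀ y, T.d2 y = 0 → ∃ x, foxD2 P x = 0 ∧ F2' x = y := by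
  obtain ⟨s, hs⟩ := homotopy T hS P φ φ1 h1 h2 F0 F1 F2 k0 k1 k2
  -- the comparison map
  let Fh : QP S P φ →ₗ[ZG G] QQ T :=
    { toFun := fun v => ⟨(F2 v.1.1, v.1.2 + s v.1.1), by
        obtain ⟨⟨p, l⟩, hp, hl⟩ := v
        have hp' : foxD2 P p = 0 := hp
        have hl' : φ p = l • S.kap := hl
        refine ⟨?_, ?_⟩
        · change T.d2 (F2 p) = 0
          rw [k2, hp', map_zero]
        · change T.f2 (F2 p) = (l + s p) • S.kap
          rw [hs p hp', hl', add_smul]⟩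
      map_add' := by
        intro v w
        apply Subtype.ext
        change (F2 (v.1.1 + w.1.1), (v.1.2 + w.1.2) + s (v.1.1 + w.1.1))
          = (F2 v.1.1 + F2 w.1.1, (v.1.2 + s v.1.1) + (w.1.2 + s w.1.1))
        rw [map_add, map_add]
        congr 1
        abel
      map_smul' := by
        intro c v
        apply Subtype.ext
        change (F2 (c • v.1.1), (c * v.1.2) + s (c • v.1.1))
          = (c • F2 v.1.1, c • (v.1.2 + s v.1.1))
        rw [map_smul, map_smul, smul_add]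
        rfl }
  have hFh : ∀ v : QP S P φ, (Fh v).1 = (F2 v.1.1, v.1.2 + s v.1.1) := fun v => rfl
  -- the projection onto `J_P`
  let q : QP S P φ →ₗ[ZG G] LinearMap.ker (foxD2 P) :=
    LinearMap.codRestrict _ (LinearMap.fst _ _ _ ∘ₗ (QP S P φ).subtype) (fun v => v.2.1)
  have hq : Surjective q := by
    rintro ⟨p, hp⟩
    rw [LinearMap.mem_ker] at hp
    obtain ⟨l, hl⟩ := S.ex (φ p) (by rw [h2, hp, map_zero])
    exact ⟨⟨(p, l), hp, hl⟩, rfl⟩
  have hq0 : ∀ v, q v = 0 → ∃ n : ℤ, v = n • nP S P φ := by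
    rintro ⟨⟨p, l⟩, hp, hl⟩ hv
    have hp0 : p = 0 := congrArg Subtype.val hv
    subst hp0
    have hl' : φ 0 = l • S.kap := hl
    rw [map_zero] at hl'
    obtain ⟨n, hn⟩ := (S.ann l).1 hl'.symm
    refine ⟨n, ?_⟩
    apply Subtype.ext
    change ((0 : Fin P.rels → ZG G), l) = n • ((0 : Fin P.rels → ZG G), nrm G)
    rw [hn]
    apply Prod.ext
    · exact (smul_zero n).symm
    · rfl
  have hFN : Fh (nP S P φ) = nQ T := by
    apply Subtype.ext
    rw [hFh]
    change (F2 0, nrm G + s 0) = (0, nrm G)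
    rw [map_zero, map_zero, add_zero]
  obtain ⟨e, he⟩ := factor_surj q hq (h.toLinearMap - Fh) (by
    intro v hv
    obtain ⟨n, rfl⟩ := hq0 v hv
    change h (n • nP S P φ) - Fh (n • nP S P φ) = 0
    rw [map_zsmul, map_zsmul, hN, hFN, sub_self])
  have he' : ∀ v, e (q v) = h v - Fh v := he
  obtain ⟨E, hE⟩ := ext_SF (foxD2 P) hsf e
  have hkey : ∀ v : QP S P φ, F2 v.1.1 + (E v.1.1).1.1 = (h v).1.1 := by
    intro v
    have h5 : E v.1.1 = h v - Fh v := by
      rw [← he' v]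
      exact hE (q v)
    rw [h5]
    change F2 v.1.1 + ((h v).1.1 - F2 v.1.1) = (h v).1.1
    abel
  refine ⟨F2 + LinearMap.fst _ _ _ ∘ₗ (QQ T).subtype ∘ₗ E, ?_, ?_, ?_⟩
  · intro t
    change T.d2 (F2 t + (E t).1.1) = F1 (foxD2 P t)
    have h6 : T.d2 (E t).1.1 = 0 := (E t).2.1
    rw [map_add, k2, h6, add_zero]
  · intro x hx hFx
    have hFx' : F2 x + (E x).1.1 = 0 := hFx
    obtain ⟨l, hl⟩ := S.ex (φ x) (by rw [h2, hx, map_zero])
    let v : QP S P φ := ⟨(x, l), hx, hl⟩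
    have h7 : (h v).1.1 = 0 := (hkey v).symm.trans hFx'
    have h8 : (0 : Fin S.P.rels → ZG G) = (h v).1.2 • S.kap := by
      have := (h v).2.2
      change T.f2 (h v).1.1 = (h v).1.2 • S.kap at this
      rw [h7, map_zero] at this
      exact this
    obtain ⟨n, hn⟩ := (S.ann _).1 h8.symm
    have h9 : h v = h (n • nP S P φ) := by
      rw [map_zsmul, hN]
      apply Subtype.ext
      apply Prod.ext
      · rw [h7]
        exact (smul_zero n).symm
      · exact hn
    have h10 := congrArg (fun w : QP S P φ => w.1.1) (h.injective h9)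
    change x = n • (0 : Fin P.rels → ZG G) at h10
    rw [h10, smul_zero]
  · intro y hy
    obtain ⟨l, hl⟩ := S.ex (T.f2 y) (by rw [T.c2, hy, map_zero])
    let w : QQ T := ⟨(y, l), hy, hl⟩
    refine ⟨(h.symm w).1.1, (h.symm w).2.1, ?_⟩
    change F2 (h.symm w).1.1 + (E (h.symm w).1.1).1.1 = y
    rw [hkey, h.apply_symm_apply]

end General

end Vale.Agent.P246.Q24
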