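import Vale.Agent.P246.Q24.C4

/-!
# Block C, part 5: higher rank, and the presentations with trivial relators
-/

set_option linter.all false

namespace Vale.Agent.P246.Q24

open Vale.Agent.P246 Function

section General

variable {G : Type} [Group G] [Fintype G]

/-- the action of an integer matrix -/
noncomputable def intMat {m n : ℕ} (A : Matrix (Fin m) (Fin n) ℤ) : (Fin n → ZG G) →ₗ[ZG G] (Fin m → ZG G) where
  toFun u i := ∑ j, A i j • u j
  map_add' u v := by
    funext i
    simp only [Pi.add_apply, smul_add, Finset.sum_add_distrib]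
  map_smul' c u := by
    funext i
    simp only [Pi.smul_apply, RingHom.id_apply, smul_eq_mul, Finset.mul_sum, mul_smul_comm]

theorem intMat_apply {m n : ℕ} (A : Matrix (Fin m) (Fin n) ℤ) (u : Fin n → ZG G) (i : Fin m) :
    intMat A u i = ∑ j, A i j • u j := rfl

theorem intMat_mul {m n k : ℕ} (A : Matrix (Fin m) (Fin n) ℤ) (B : Matrix (Fin n) (Fin k) ℤ)
    (u : Fin k → ZG G) : intMat (A * B) u = intMat A (intMat B u) := by
  funext i
  simp only [intMat_apply, Matrix.mul_apply, Finset.sum_smul, Finset.smul_sum, mul_smul]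
  rw [Finset.sum_comm]

theorem intMat_one {n : ℕ} (u : Fin n → ZG G) : intMat (1 : Matrix (Fin n) (Fin n) ℤ) u = u := by
  funext i
  rw [intMat_apply, Finset.sum_eq_single i]
  · rw [Matrix.one_apply_eq, one_smul]
  · intro j _ hj
    rw [Matrix.one_apply_ne hj.symm, zero_smul]
  · intro h
    exact absurd (Finset.mem_univ i) h

/-- a primitive integer vector is the first column of an invertible matrix -/
theorem prim_column {n : ℕ} (x : Fin (n + 1) → ℤ) (hx : Prim x) :
    ∃ A B : Matrix (Fin (n + 1)) (Fin (n + 1)) ℤ, A * B = 1 ∧ B * A = 1 ∧ ∀ i, A i 0 = x i := by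
  -- unimodularity
  have h1 : Ideal.span (Set.range x) = ⊤ := by
    obtain ⟨d, hd⟩ : ∃ d, Ideal.span (Set.range x) = Ideal.span {d} :=
      ⟨_, (Submodule.IsPrincipal.span_singleton_generator _).symm⟩
    have h2 : ∀ i, ∃ y, x i = d * y := by
      intro i
      have : x i ∈ Ideal.span {d} := hd ▸ Ideal.subset_span ⟨i, rfl⟩
      obtain ⟨y, hy⟩ := Ideal.mem_span_singleton.1 this
      exact ⟨y, hy⟩
    choose y hy using h2
    have h3 : IsUnit d := hx d y (funext fun i => by
      rw [hy i]
      rfl)
    rw [hd, Ideal.span_singleton_eq_top]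
    exact h3
  have h2 : ∃ w : Fin (n + 1) → ℤ, ∑ i, w i * x i = 1 := by
    have : (1 : ℤ) ∈ Ideal.span (Set.range x) := by rw [h1]; trivial
    exact (Ideal.mem_span_range_iff_exists_fun).1 this
  obtain ⟨w, hw⟩ := h2
  let θ : (Fin (n + 1) → ℤ) →ₗ[ℤ] ℤ := Fintype.linearCombination ℤ x
  have hθ : ∀ y, θ y = ∑ i, y i * x i := fun y => by
    rw [Fintype.linearCombination_apply]
    rfl
  have hθs : Surjective θ := by
    intro k
    refine ⟨k • w, ?_⟩
    rw [map_zsmul, hθ, hw, smul_eq_mul, mul_one]
  obtain ⟨g, hg⟩ := isTrans_int (n + 1) (LinearMap.proj 0) θ (fun s => ⟨fun _ => s, rfl⟩) hθs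
  have hg' : ∀ y, θ y = g y 0 := hg
  refine ⟨(LinearMap.toMatrix' g.toLinearMap).transpose,
    (LinearMap.toMatrix' g.symm.toLinearMap).transpose, ?_, ?_, ?_⟩
  · rw [← Matrix.transpose_mul, ← LinearMap.toMatrix'_comp]
    have : g.symm.toLinearMap ∘ₗ g.toLinearMap = LinearMap.id := by
      ext; simp
    rw [this, LinearMap.toMatrix'_id, Matrix.transpose_one]
  · rw [← Matrix.transpose_mul, ← LinearMap.toMatrix'_comp]
    have : g.toLinearMap ∘ₗ g.symm.toLinearMap = LinearMap.id := by
      ext; simp
    rw [this, LinearMap.toMatrix'_id, Matrix.transpose_one]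
  · intro i
    rw [Matrix.transpose_apply, LinearMap.toMatrix'_apply]
    change g (Pi.single i 1) 0 = x i
    rw [← hg', hθ, Finset.sum_eq_single i]
    · rw [Pi.single_eq_same, one_mul]
    · intro j _ hj
      rw [Pi.single_eq_of_ne hj, zero_mul]
    · intro h
      exact absurd (Finset.mem_univ i) h

/-- in rank `n + 1`, a primitive invariant vector may be moved to `(N, 0, ..., 0)` -/
theorem move_nrm {n : ℕ} {M : Type} [AddCommGroup M] [Module (ZG G) M]
    (f : M ≃ₗ[ZG G] (Fin (n + 1) → ZG G)) (v : M) (hv : Inv (G := G) v) (pv : Prim v) :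
    ∃ f' : M ≃ₗ[ZG G] (Fin (n + 1) → ZG G), f' v = Pi.single 0 (nrm G) := by
  obtain ⟨x, hx⟩ := inv_fin _ (inv_map f.toLinearMap hv)
  have hx' : f v = fun i => x i • nrm G := hx
  have px : Prim x := by
    intro k y hy
    apply pv k (f.symm fun i => y i • nrm G)
    apply f.injective
    rw [hx', map_zsmul, f.apply_symm_apply, hy]
    funext i
    simp only [Pi.smul_apply, smul_eq_mul, mul_smul]
  obtain ⟨A, B, hAB, hBA, hA⟩ := prim_column x px
  let E : (Fin (n + 1) → ZG G) ≃ₗ[ZG G] (Fin (n + 1) → ZG G) :=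
    LinearEquiv.ofLinearMap (intMat B) (intMat A)
      (LinearMap.ext fun u => by
        change intMat B (intMat A u) = u
        rw [← intMat_mul, hBA, intMat_one])
      (LinearMap.ext fun u => by
        change intMat A (intMat B u) = u
        rw [← intMat_mul, hAB, intMat_one])
  refine ⟨f.trans E, ?_⟩
  have h1 : f v = E.symm (Pi.single 0 (nrm G)) := by
    rw [hx']
    change _ = intMat A (Pi.single 0 (nrm G))
    funext i
    rw [intMat_apply, Finset.sum_eq_single 0]
    · rw [Pi.single_eq_same, hA]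
    · intro j _ hj
      rw [Pi.single_eq_of_ne hj, smul_zero]
    · intro h
      exact absurd (Finset.mem_univ _) h
  rw [LinearEquiv.trans_apply, h1, E.apply_symm_apply]

/-! ### presentations with trivial relators -/

variable (S : Reso G)

theorem addTriv_foxD2 (P : FinPresentation G) (s : ℕ) (t : Fin (P.rels + s) → ZG G) :
    foxD2 (addTriv P s) t = foxD2 P (fun i => t (Fin.castAdd s i)) := by
  have h1 : foxD2 (addTriv P s) t
      = ∑ j : Fin (P.rels + s), t j • foxWord P.x ((Fin.append P.r (fun _ => 1)) j).toWord :=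
    Fintype.linearCombination_apply _ _ _
  have h2 : foxD2 P (fun i => t (Fin.castAdd s i))
      = ∑ j : Fin P.rels, t (Fin.castAdd s j) • foxWord P.x (P.r j).toWord :=
    Fintype.linearCombination_apply _ _ _
  rw [h1, h2, Fin.sum_univ_add]
  have h3 : ∀ i : Fin s, t (Fin.natAdd P.rels i) •
      foxWord P.x ((Fin.append P.r (fun _ => 1)) (Fin.natAdd P.rels i)).toWord = 0 := by
    intro i
    rw [Fin.append_right, FreeGroup.toWord_one, foxWord_nil, smul_zero]
  rw [Finset.sum_congr rfl fun i _ => h3 i, Finset.sum_const_zero, add_zero]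
  refine Finset.sum_congr rfl fun i _ => ?_
  rw [Fin.append_left]

/-- the chain map in degree two for `addTriv` -/
def phiT (s : ℕ) : (Fin (addTriv S.P s).rels → ZG G) →ₗ[ZG G] (Fin S.P.rels → ZG G) where
  toFun t := fun i => t (Fin.castAdd s i)
  map_add' _ _ := rfl
  map_smul' _ _ := rfl

theorem phiT_c2 (s : ℕ) (t : Fin (addTriv S.P s).rels → ZG G) :
    foxD2 S.P (phiT S s t) = foxD2 (addTriv S.P s) t := (addTriv_foxD2 S.P s t).symm

/-- `Q_P` for `P = S + s` trivial relators is free of rank `s + 1` -/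
theorem QP_addTriv (s : ℕ) : ∃ f : QP S (addTriv S.P s) (phiT S s) ≃ₗ[ZG G] (Fin (s + 1) → ZG G),
    f (nP S (addTriv S.P s) (phiT S s)) = Pi.single 0 (nrm G) := by
  have hmem : ∀ w : Fin (s + 1) → ZG G,
      ((Fin.append (w 0 • S.kap) (Fin.tail w), w 0) :
        (Fin (addTriv S.P s).rels → ZG G) × ZG G) ∈ QP S (addTriv S.P s) (phiT S s) := by
    intro w
    have h1 : (fun i => (Fin.append (w 0 • S.kap) (Fin.tail w) : Fin (S.P.rels + s) → ZG G)
        (Fin.castAdd s i)) = w 0 • S.kap := by
      funext i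
      rw [Fin.append_left]
    refine ⟨?_, ?_⟩
    · change foxD2 (addTriv S.P s) (Fin.append (w 0 • S.kap) (Fin.tail w)) = 0
      rw [addTriv_foxD2, h1, map_smul, S.dk, smul_zero]
      rfl
    · exact h1
  let g : QP S (addTriv S.P s) (phiT S s) →ₗ[ZG G] (Fin (s + 1) → ZG G) :=
    { toFun := fun v => Fin.cons v.1.2 (fun i => v.1.1 (Fin.natAdd S.P.rels i))
      map_add' := by
        intro v w
        funext i
        refine Fin.cases ?_ (fun j => ?_) i <;> rfl
      map_smul' := by
        intro c v
        funext i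
        refine Fin.cases ?_ (fun j => ?_) i <;> rfl }
  have hg0 : ∀ v, g v 0 = v.1.2 := fun v => rfl
  have hgs : ∀ v (i : Fin s), g v i.succ = v.1.1 (Fin.natAdd S.P.rels i) := fun v i => rfl
  let f : QP S (addTriv S.P s) (phiT S s) ≃ₗ[ZG G] (Fin (s + 1) → ZG G) :=
    { g with
      invFun := fun w => ⟨_, hmem w⟩
      left_inv := by
        intro v
        apply Subtype.ext
        apply Prod.ext
        · have h1 : (fun i => v.1.1 (Fin.castAdd s i)) = v.1.2 • S.kap := v.2.2
          change (Fin.append (v.1.2 • S.kap) (fun i => v.1.1 (Fin.natAdd S.P.rels i)) :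
            Fin (S.P.rels + s) → ZG G) = v.1.1
          rw [← h1]
          funext i
          refine Fin.addCases (fun j => ?_) (fun j => ?_) i
          · rw [Fin.append_left]
          · rw [Fin.append_right]
        · rfl
      right_inv := by
        intro w
        funext i
        refine Fin.cases ?_ (fun j => ?_) i
        · rfl
        · change (Fin.append (w 0 • S.kap) (Fin.tail w) : Fin (S.P.rels + s) → ZG G)
            (Fin.natAdd S.P.rels j) = w j.succ
          rw [Fin.append_right]
          rfl }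
  refine ⟨f, ?_⟩
  funext i
  refine Fin.cases ?_ (fun j => ?_) i
  · rfl
  · rfl

end General

end Vale.Agent.P246.Q24
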