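import Vale.Agent.P246.Q24.C5

/-!
# Block C, part 6: the classification theorem, relative to exactness of Fox complexes and
cancellation
-/

set_option linter.all false

namespace Vale.Agent.P246.Q24

open Vale.Agent.P246 Function CategoryTheory

section General

variable {G : Type} [Group G] [Fintype G]

theorem nQ_inv {S : Reso G} {X0 X1 X2 : Type} [AddCommGroup X0] [Module (ZG G) X0]
    [AddCommGroup X1] [Module (ZG G) X1] [AddCommGroup X2] [Module (ZG G) X2]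
    (T : Trunc S X0 X1 X2) : Inv (G := G) (nQ T) := by
  intro g
  apply Subtype.ext
  apply Prod.ext
  · exact smul_zero _
  · exact elt_mul_nrm g

theorem nQ_prim {S : Reso G} {X0 X1 X2 : Type} [AddCommGroup X0] [Module (ZG G) X0]
    [AddCommGroup X1] [Module (ZG G) X1] [AddCommGroup X2] [Module (ZG G) X2]
    (T : Trunc S X0 X1 X2) : Prim (nQ T) := by
  intro k w hw
  exact nrm_eq_zsmul k w.1.2 (congrArg (fun v : QQ T => v.1.2) hw)

theorem nQ_ne {S : Reso G} {X0 X1 X2 : Type} [AddCommGroup X0] [Module (ZG G) X0]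
    [AddCommGroup X1] [Module (ZG G) X1] [AddCommGroup X2] [Module (ZG G) X2]
    (T : Trunc S X0 X1 X2) : nQ T ≠ 0 := by
  intro h
  have h1 : (1 : ℤ) • nrm G = 0 := by
    rw [one_smul]
    exact congrArg (fun v : QQ T => v.1.2) h
  exact one_ne_zero (zsmul_nrm_inj 1 h1)

theorem nP_inv (S : Reso G) (P : FinPresentation G)
    (φ : (Fin P.rels → ZG G) →ₗ[ZG G] (Fin S.P.rels → ZG G)) : Inv (G := G) (nP S P φ) := by
  intro g
  apply Subtype.ext
  apply Prod.ext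
  · exact smul_zero _
  · exact elt_mul_nrm g

theorem nP_prim (S : Reso G) (P : FinPresentation G)
    (φ : (Fin P.rels → ZG G) →ₗ[ZG G] (Fin S.P.rels → ZG G)) : Prim (nP S P φ) := by
  intro k w hw
  exact nrm_eq_zsmul k w.1.2 (congrArg (fun v : QP S P φ => v.1.2) hw)

/-- the truncated data of a finite algebraic D(2) complex -/
theorem exists_trunc (S : Reso G) (hS : FoxOK S.P)
    (C : ChainComplex (ModuleCat.{0} (ZG G)) ℕ) (hC : D2Data G C) :
    ∃ (ψ : C.X 2 →ₗ[ZG G] LinearMap.range (C.d 3 2).hom)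
      (T : Trunc S (C.X 0) (C.X 1) (LinearMap.ker ψ)),
      (∀ x, ψ x.1 = x) ∧ (∀ y, T.d1 y = (C.d 1 0).hom y) ∧
      (∀ z : LinearMap.ker ψ, T.d2 z = (C.d 2 1).hom z.1) ∧
      ∃ a b, SF (ZG G) (LinearMap.ker ψ) a b := by
  have hfree := hC.free
  have hfin := hC.finite
  obtain ⟨ψ, hψ⟩ := hC.cohomology_three (LinearMap.range (C.d 3 2).hom)
    (C.d 3 2).hom.rangeRestrict (by
      intro x
      apply Subtype.ext
      exact dd_zero C 4 3 2 x)
  have hψ' : ∀ x : LinearMap.range (C.d 3 2).hom, ψ x.1 = x := by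
    rintro ⟨_, ⟨x, rfl⟩⟩
    exact (hψ x).symm
  have hsf : ∀ i, ∃ n, SF (ZG G) (C.X i) 0 n := fun i => by
    have := hfree i
    have := hfin i
    exact SF.of_free
  let e2 := splitEq ψ (LinearMap.range (C.d 3 2).hom).subtype hψ'
  have hprojX2 : Module.Projective (ZG G) (C.X 2) := inferInstance
  have hproj : Module.Projective (ZG G) (LinearMap.range (C.d 3 2).hom) := by
    refine Module.Projective.of_split (LinearMap.range (C.d 3 2).hom).subtype ψ ?_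
    ext x
    exact congrArg Subtype.val (hψ' x)
  obtain ⟨N, hN⟩ := hC.bounded
  obtain ⟨k1, k2, hk⟩ := tail_SF N (fun i => C.X (i + 2))
    (fun i => (C.d (i + 3) (i + 2)).hom) (fun i => hsf (i + 2))
    (fun i hi => hN (i + 2) (by omega))
    (fun i => by
      ext x
      rw [LinearMap.mem_ker, LinearMap.mem_range]
      constructor
      · intro hx
        exact (exactAt_succ_iff C (i + 2)).1 (hC.homology_high (i + 3) (by omega)) x hx
      · rintro ⟨y, rfl⟩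
        exact dd_zero C _ _ _ y) hproj
  obtain ⟨n2, hn2⟩ := hsf 2
  have hker : ∃ a b, SF (ZG G) (LinearMap.ker ψ) a b := ⟨_, _, hn2.cancel hk e2⟩
  obtain ⟨a', b', hab⟩ := hker
  have hprojK : Module.Projective (ZG G) (LinearMap.ker ψ) := hab.projective
  obtain ⟨ε, hεs, hεg, hεk⟩ := hC.homology_zero
  have hex1 : ∀ y, (C.d 1 0).hom y = 0 ↔
      ∃ z, ((C.d 2 1).hom ∘ₗ (LinearMap.ker ψ).subtype) z = y := by
    intro y
    constructor
    · intro hy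
      obtain ⟨x, hx⟩ := (exactAt_succ_iff C 0).1 hC.homology_one y hy
      refine ⟨⟨x - ψ x, ?_⟩, ?_⟩
      · rw [LinearMap.mem_ker, map_sub, hψ', sub_self]
      · change (C.d 2 1).hom (x - ψ x) = y
        rw [map_sub]
        obtain ⟨w, hw⟩ := (ψ x).2
        rw [← hw]
        have h0 : (C.d 2 1).hom ((C.d 3 2).hom w) = 0 := dd_zero C 3 2 1 w
        rw [h0, sub_zero]
        exact hx
    · rintro ⟨z, rfl⟩
      exact dd_zero C 2 1 0 _
  -- the chain map; degree zero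
  have hf0 : ∃ f0 : C.X 0 →ₗ[ZG G] ZG G, ∀ x, aug G (f0 x) = ε x := by
    have hcast : ∀ k : ℤ, aug G ((k : ℤ) : ZG G) = k := fun k => by
      rw [map_intCast]; rfl
    let e' : C.X 0 →ₗ[ZG G] (ZG G ⧸ RingHom.ker (aug G)) :=
      { toFun := fun x => Submodule.Quotient.mk ((ε x : ℤ) : ZG G)
        map_add' := by
          intro x y
          rw [map_add, Int.cast_add, Submodule.Quotient.mk_add]
        map_smul' := by
          intro s x
          rw [eps_linear ε hεg, RingHom.id_apply, ← Submodule.Quotient.mk_smul,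
            Submodule.Quotient.eq, RingHom.mem_ker, map_sub, smul_eq_mul, map_mul, hcast,
            hcast, sub_self] }
    have hp0 : Module.Projective (ZG G) (C.X 0) := inferInstance
    obtain ⟨f0, hf0⟩ := lift_proj (RingHom.ker (aug G)).mkQ e' (fun x => ⟨((ε x : ℤ) : ZG G), rfl⟩)
    refine ⟨f0, fun x => ?_⟩
    have h1 : (Submodule.Quotient.mk (f0 x) : ZG G ⧸ RingHom.ker (aug G))
        = Submodule.Quotient.mk ((ε x : ℤ) : ZG G) := hf0 x
    rw [Submodule.Quotient.eq, RingHom.mem_ker, map_sub, hcast, sub_eq_zero] at h1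
    exact h1
  obtain ⟨f0, hf0⟩ := hf0
  have hp1 : Module.Projective (ZG G) (C.X 1) := inferInstance
  obtain ⟨f1, hf1⟩ := lift_proj (foxD1 S.P) (f0 ∘ₗ (C.d 1 0).hom) (fun y => by
    apply (hS.aug _).1
    change aug G (f0 ((C.d 1 0).hom y)) = 0
    rw [hf0]
    exact (hεk _).2 ⟨y, rfl⟩)
  obtain ⟨f2, hf2⟩ := lift_proj (foxD2 S.P)
    (f1 ∘ₗ ((C.d 2 1).hom ∘ₗ (LinearMap.ker ψ).subtype)) (fun z => by
    apply hS.exact
    have h1 := hf1 (((C.d 2 1).hom ∘ₗ (LinearMap.ker ψ).subtype) z)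
    refine h1.trans ?_
    have h2 : (C.d 1 0).hom (((C.d 2 1).hom ∘ₗ (LinearMap.ker ψ).subtype) z) = 0 :=
      (hex1 _).2 ⟨z, rfl⟩
    change f0 _ = 0
    rw [h2, map_zero])
  refine ⟨ψ, ⟨(C.d 1 0).hom, (C.d 2 1).hom ∘ₗ (LinearMap.ker ψ).subtype, ε, hεs, hεg, hεk, hex1,
    f0, f1, f2, hf0, hf1, hf2⟩, hψ', fun _ => rfl, fun _ => rfl, a', b', hab⟩

/-- an isomorphism of the modules `Q` gives a homotopy equivalence -/
theorem equiv_of_Q (S : Reso G) (hS : FoxOK S.P) (C : ChainComplex (ModuleCat.{0} (ZG G)) ℕ)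
    (hC : D2Data G C) (ψ : C.X 2 →ₗ[ZG G] LinearMap.range (C.d 3 2).hom)
    (T : Trunc S (C.X 0) (C.X 1) (LinearMap.ker ψ)) (hψ : ∀ x, ψ x.1 = x)
    (hT1 : ∀ y, T.d1 y = (C.d 1 0).hom y)
    (hT2 : ∀ z : LinearMap.ker ψ, T.d2 z = (C.d 2 1).hom z.1) {a b : ℕ}
    (hsf : SF (ZG G) (QQ T) a b) (P : FinPresentation G) (hP : FoxOK P)
    (φ : (Fin P.rels → ZG G) →ₗ[ZG G] (Fin S.P.rels → ZG G))
    (φ1 : (Fin P.gens → ZG G) →ₗ[ZG G] (Fin S.P.gens → ZG G))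
    (h1 : ∀ u, foxD1 S.P (φ1 u) = foxD1 P u) (h2 : ∀ t, foxD2 S.P (φ t) = φ1 (foxD2 P t))
    (h : QP S P φ ≃ₗ[ZG G] QQ T) (hN : h (nP S P φ) = nQ T) :
    Nonempty (HomotopyEquiv C (foxCC P)) := by
  -- the chain map in degrees zero, one and two
  obtain ⟨x0, hx0⟩ := T.eps_surj 1
  let F0 : ZG G →ₗ[ZG G] C.X 0 := LinearMap.toSpanSingleton (ZG G) _ x0
  have k0 : ∀ x, T.eps (F0 x) = aug G x := by
    intro x
    change T.eps (x • x0) = aug G x
    rw [eps_linear T.eps T.eps_g, hx0, mul_one]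
  obtain ⟨F1, k1⟩ := lift_proj T.d1 (F0 ∘ₗ foxD1 P) (fun u => by
    apply (T.ex0 _).1
    change T.eps (F0 (foxD1 P u)) = 0
    rw [k0, aug_foxD1 hP])
  have k1' : ∀ u, T.d1 (F1 u) = F0 (foxD1 P u) := k1
  obtain ⟨F2, k2⟩ := lift_proj T.d2 (F1 ∘ₗ foxD2 P) (fun t => by
    apply (T.ex1 _).1
    change T.d1 (F1 (foxD2 P t)) = 0
    rw [k1', fox_dd, map_zero])
  have k2' : ∀ t, T.d2 (F2 t) = F1 (foxD2 P t) := k2
  obtain ⟨F2', e1, e2, e3⟩ := key_F2 T hS P φ φ1 h1 h2 F0 F1 F2 k0 k1' k2' hsf h hN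
  refine fox_equiv P C hC.free F0 F1 ((LinearMap.ker ψ).subtype ∘ₗ F2') ?_ ?_ ?_ ?_ ?_ ?_ ?_ ?_ ?_
  · intro u
    rw [← hT1, k1']
  · intro t
    have := e1 t
    rw [hT2] at this
    exact this
  · rintro x ⟨y, hy⟩
    apply (hP.aug x).1
    rw [← k0]
    apply (T.ex0 _).2
    exact ⟨y, (hT1 y).trans hy⟩
  · intro y
    have h3 : T.eps (y - F0 ((T.eps y : ℤ) : ZG G)) = 0 := by
      rw [map_sub, k0, map_intCast]
      exact sub_self _
    obtain ⟨z, hz⟩ := (T.ex0 _).1 h3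
    refine ⟨((T.eps y : ℤ) : ZG G), z, ?_⟩
    rw [← hT1, hz]
    abel
  · exact hP.exact
  · exact (exactAt_succ_iff C 0).1 hC.homology_one
  · rintro x hx ⟨y, hy⟩
    apply e2 x hx
    apply Subtype.ext
    have h3 : ψ (F2' x).1 = 0 := (F2' x).2
    have h4 : (F2' x).1 ∈ LinearMap.range (C.d 3 2).hom := ⟨y, hy⟩
    have h5 := hψ ⟨(F2' x).1, h4⟩
    rw [h3] at h5
    exact (congrArg Subtype.val h5).symm
  · intro y hy
    obtain ⟨w, hw⟩ := (ψ y).2
    have hq : y - (ψ y : C.X 2) ∈ LinearMap.ker ψ := by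
      rw [LinearMap.mem_ker, map_sub, hψ, sub_self]
    have h3 : T.d2 ⟨y - (ψ y : C.X 2), hq⟩ = 0 := by
      rw [hT2]
      change (C.d 2 1).hom (y - (ψ y : C.X 2)) = 0
      have hdd : (C.d 2 1).hom ((C.d 3 2).hom w) = 0 := dd_zero C 3 2 1 w
      rw [map_sub, ← hw, hdd, sub_zero]
      exact hy
    obtain ⟨x, hx, hFx⟩ := e3 _ h3
    refine ⟨x, hx, w, ?_⟩
    change y = (F2' x).1 + (C.d 3 2).hom w
    rw [hFx, hw, sub_add_cancel]
  · intro i y hy
    exact (exactAt_succ_iff C (i + 2)).1 (hC.homology_high (i + 3) (by omega)) y hy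

/-- the same with a sign -/
theorem equiv_of_Q' (S : Reso G) (hS : FoxOK S.P) (C : ChainComplex (ModuleCat.{0} (ZG G)) ℕ)
    (hC : D2Data G C) (ψ : C.X 2 →ₗ[ZG G] LinearMap.range (C.d 3 2).hom)
    (T : Trunc S (C.X 0) (C.X 1) (LinearMap.ker ψ)) (hψ : ∀ x, ψ x.1 = x)
    (hT1 : ∀ y, T.d1 y = (C.d 1 0).hom y)
    (hT2 : ∀ z : LinearMap.ker ψ, T.d2 z = (C.d 2 1).hom z.1) {a b : ℕ}
    (hsf : SF (ZG G) (QQ T) a b) (P : FinPresentation G) (hP : FoxOK P)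
    (φ : (Fin P.rels → ZG G) →ₗ[ZG G] (Fin S.P.rels → ZG G))
    (φ1 : (Fin P.gens → ZG G) →ₗ[ZG G] (Fin S.P.gens → ZG G))
    (h1 : ∀ u, foxD1 S.P (φ1 u) = foxD1 P u) (h2 : ∀ t, foxD2 S.P (φ t) = φ1 (foxD2 P t))
    (h : QP S P φ ≃ₗ[ZG G] QQ T) (hN : h (nP S P φ) = nQ T ∨ h (nP S P φ) = - nQ T) :
    Nonempty (HomotopyEquiv C (foxCC P)) := by
  rcases hN with hN | hN
  · exact equiv_of_Q S hS C hC ψ T hψ hT1 hT2 hsf P hP φ φ1 h1 h2 h hN
  · refine equiv_of_Q S hS C hC ψ T hψ hT1 hT2 hsf P hP φ φ1 h1 h2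
      (h.trans (LinearEquiv.neg (ZG G))) ?_
    rw [LinearEquiv.trans_apply, hN, LinearEquiv.neg_apply, neg_neg]

/-- the classification theorem, relative to the exactness of Fox complexes and to cancellation -/
theorem hc_main_of (hA : ∀ P : FinPresentation G, FoxOK P)
    (cancel_two : ∀ {Q : Type} [AddCommGroup Q] [Module (ZG G) Q] (k r : ℕ)
      (e : Nonempty ((Q × (Fin k → ZG G)) ≃ₗ[ZG G] (Fin (k + (r + 2)) → ZG G))),
      Nonempty (Q ≃ₗ[ZG G] (Fin (r + 2) → ZG G)))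
    (cancel_one' : ∀ {Q : Type} [AddCommGroup Q] [Module (ZG G) Q] (k : ℕ)
      (e : Nonempty ((Q × (Fin k → ZG G)) ≃ₗ[ZG G] (Fin (k + 1) → ZG G))),
      Nonempty ((Q × ZG G) ≃ₗ[ZG G] (Fin 2 → ZG G)))
    (S : Reso G) (C : ChainComplex (ModuleCat.{0} (ZG G)) ℕ)
    (hC : D2Data G C) :
    (∃ s, Nonempty (HomotopyEquiv C (foxCC (addTriv S.P s)))) ∨
    ∃ (Q : Type) (_ : AddCommGroup Q) (_ : Module (ZG G) Q),
      Nonempty ((Q × ZG G) ≃ₗ[ZG G] (Fin 2 → ZG G)) ∧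
      ∀ (P : FinPresentation G) (φ : (Fin P.rels → ZG G) →ₗ[ZG G] (Fin S.P.rels → ZG G))
        (φ1 : (Fin P.gens → ZG G) →ₗ[ZG G] (Fin S.P.gens → ZG G)),
        (∀ u, foxD1 S.P (φ1 u) = foxD1 P u) → (∀ t, foxD2 S.P (φ t) = φ1 (foxD2 P t)) →
        Nonempty (QP S P φ ≃ₗ[ZG G] Q) → Nonempty (HomotopyEquiv C (foxCC P)) := by
  obtain ⟨ψ, T, hψ, hT1, hT2, a', b', hker⟩ := exists_trunc S (hA _) C hC
  have hsf : ∀ i, ∃ n, SF (ZG G) (C.X i) 0 n := fun i => by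
    have := hC.free i
    have := hC.finite i
    exact SF.of_free
  obtain ⟨n0, hn0⟩ := hsf 0
  obtain ⟨n1, hn1⟩ := hsf 1
  obtain ⟨a, b, hab⟩ := QQ_SF (hA _) T hn0 hn1 hker
  have hlt : a < b := hab.lt (nQ T) (nQ_ne T)
  obtain ⟨r, rfl⟩ : ∃ r, b = a + (r + 1) := ⟨b - a - 1, by omega⟩
  rcases r with _ | r
  · -- rank one
    right
    have e : Nonempty ((QQ T × ZG G) ≃ₗ[ZG G] (Fin 2 → ZG G)) := cancel_one' a hab
    refine ⟨QQ T, inferInstance, inferInstance, e, ?_⟩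
    rintro P φ φ1 h1 h2 ⟨h⟩
    refine equiv_of_Q' S (hA _) C hC ψ T hψ hT1 hT2 hab P (hA _) φ φ1 h1 h2 h ?_
    exact rank_one_sign e.some _ _ (inv_map h.toLinearMap (nP_inv S P φ)) (nQ_inv T)
      (prim_map h.toAddEquiv (nP_prim S P φ)) (nQ_prim T)
  · -- higher rank
    left
    refine ⟨r + 1, ?_⟩
    obtain ⟨f⟩ := cancel_two a r hab
    obtain ⟨f', hf'⟩ := move_nrm f (nQ T) (nQ_inv T) (nQ_prim T)
    obtain ⟨g, hg⟩ := QP_addTriv S (r + 1)
    refine equiv_of_Q S (hA _) C hC ψ T hψ hT1 hT2 hab (addTriv S.P (r + 1)) (hA _)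
      (phiT S (r + 1)) LinearMap.id (fun _ => rfl) (fun t => phiT_c2 S (r + 1) t)
      (g.trans f'.symm) ?_
    rw [LinearEquiv.trans_apply, hg, ← hf', f'.symm_apply_apply]

end General

end Vale.Agent.P246.Q24
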