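import Vale.Agent.P246.Q24.C3

/-!
# Block D, part 1: finite rings have stable range one
-/

set_option linter.all false

namespace Vale.Agent.P246.Q24

open Vale.Agent.P246 Function

section Finite

theorem exists_hom {R M : Type} [Ring R] [AddCommGroup M] [Module R M] [Finite M]
    [IsSemisimpleModule R M] (q : M →ₗ[R] M) (T : Submodule R M) (hT : T ≠ ⊥)
    (hd : Disjoint (LinearMap.range q) T) :
    ∃ (f : M →ₗ[R] T) (k : M), q k = 0 ∧ f k ≠ 0 := by
  by_contra hcon
  push Not at hcon
  have hfin : Finite (LinearMap.range q →ₗ[R] T) :=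
    Finite.of_injective (fun f => (f : LinearMap.range q → T)) DFunLike.coe_injective
  have hfinT : Finite (T →ₗ[R] T) :=
    Finite.of_injective (fun f => (f : T → T)) DFunLike.coe_injective
  let Ψ : (LinearMap.range q →ₗ[R] T) → (LinearMap.range q →ₗ[R] T) × (T →ₗ[R] T) :=
    fun h => ((h ∘ₗ q.rangeRestrict) ∘ₗ (LinearMap.range q).subtype,
      (h ∘ₗ q.rangeRestrict) ∘ₗ T.subtype)
  have hΨ : Surjective Ψ := by
    rintro ⟨f1, f2⟩
    let j : (LinearMap.range q × T) →ₗ[R] M :=
      LinearMap.coprod (LinearMap.range q).subtype T.subtype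
    have hj : Injective j := by
      rw [injective_iff_map_eq_zero]
      rintro ⟨x, t⟩ hxt
      have h1 : (x : M) + t = 0 := hxt
      have h2 : (x : M) = -t := eq_neg_of_add_eq_zero_left h1
      have h3 : (x : M) ∈ LinearMap.range q ⊓ T := ⟨x.2, by rw [h2]; exact neg_mem t.2⟩
      rw [hd.eq_bot, Submodule.mem_bot] at h3
      have h4 : (t : M) = 0 := by rw [h3, zero_add] at h1; exact h1
      apply Prod.ext
      · exact Subtype.ext h3
      · exact Subtype.ext h4
    obtain ⟨h, hh⟩ := IsSemisimpleModule.extension_property j hj (LinearMap.coprod f1 f2)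
    obtain ⟨h', hh'⟩ := factor_surj q.rangeRestrict q.surjective_rangeRestrict h (by
      intro a ha
      exact hcon h a (congrArg Subtype.val ha))
    refine ⟨h', ?_⟩
    have e0 : h' ∘ₗ q.rangeRestrict = h := LinearMap.ext hh'
    have e1 : h ∘ₗ (LinearMap.range q).subtype = f1 := by
      ext x
      have := LinearMap.congr_fun hh (x, 0)
      simp only [j, LinearMap.comp_apply, LinearMap.coprod_apply, map_zero, add_zero] at this
      exact congrArg Subtype.val this
    have e2 : h ∘ₗ T.subtype = f2 := by
      ext x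
      have := LinearMap.congr_fun hh (0, x)
      simp only [j, LinearMap.comp_apply, LinearMap.coprod_apply, map_zero, zero_add] at this
      exact congrArg Subtype.val this
    change ((h' ∘ₗ q.rangeRestrict) ∘ₗ (LinearMap.range q).subtype,
      (h' ∘ₗ q.rangeRestrict) ∘ₗ T.subtype) = (f1, f2)
    rw [e0, e1, e2]
  have hcard := Nat.card_le_card_of_surjective Ψ hΨ
  rw [Nat.card_prod] at hcard
  have h1 : 0 < Nat.card (LinearMap.range q →ₗ[R] T) := Nat.card_pos
  have hnt : Nontrivial (T →ₗ[R] T) := by
    have : Nontrivial T := (Submodule.nontrivial_iff_ne_bot).2 hT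
    obtain ⟨x, hx⟩ := exists_ne (0 : T)
    refine ⟨LinearMap.id, 0, fun h => hx ?_⟩
    exact LinearMap.congr_fun h x
  have h2 : 1 < Nat.card (T →ₗ[R] T) := Finite.one_lt_card
  nlinarith

theorem isUnit_of_left {R : Type} [Ring R] [Finite R] (a b : R) (h : b * a = 1) : IsUnit a := by
  have hinj : Injective (fun r : R => r * b) := by
    intro x y hxy
    have : x * b * a = y * b * a := congrArg (fun r => r * a) hxy
    rw [mul_assoc, mul_assoc, h, mul_one, mul_one] at this
    exact this
  obtain ⟨c, hc⟩ := Finite.surjective_of_injective hinj 1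
  have hc' : c * b = 1 := hc
  have : c = a := by
    calc c = c * (b * a) := by rw [h, mul_one]
      _ = a := by rw [← mul_assoc, hc', one_mul]
  subst this
  exact ⟨⟨c, b, hc', h⟩, rfl⟩

theorem unit_of_semisimple {R : Type} [Ring R] [Finite R] [IsSemisimpleRing R] :
    ∀ (n : ℕ) (a : R) (I : Ideal R), Nat.card (LinearMap.ker (LinearMap.toSpanSingleton R R a)) ≤ n →
      Ideal.span {a} ⊔ I = ⊤ → ∃ i ∈ I, IsUnit (a + i)
  | 0, a, I, hn, h => by
    exfalso
    have : 0 < Nat.card (LinearMap.ker (LinearMap.toSpanSingleton R R a)) := Nat.card_pos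
    omega
  | n + 1, a, I, hn, h => by
    set q := LinearMap.toSpanSingleton R R a with hq
    have hqa : ∀ r, q r = r * a := fun r => rfl
    have hrange : LinearMap.range q = Ideal.span {a} := by
      ext x
      rw [LinearMap.mem_range, Ideal.mem_span_singleton']
      rfl
    by_cases hle : I ≤ LinearMap.range q
    · refine ⟨0, zero_mem _, ?_⟩
      rw [add_zero]
      have h1 : (1 : R) ∈ LinearMap.range q := by
        have : (1 : R) ∈ Ideal.span {a} ⊔ I := by rw [h]; trivial
        rw [← hrange, sup_eq_left.2 hle] at this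
        exact this
      obtain ⟨b, hb⟩ := h1
      exact isUnit_of_left a b hb
    · -- a piece of `I` disjoint from the range
      obtain ⟨K', hK'⟩ := exists_isCompl (LinearMap.range q ⊓ I)
      let T : Submodule R R := K' ⊓ I
      have hTI : T ≤ I := inf_le_right
      have hT : T ≠ ⊥ := by
        intro hbot
        apply hle
        have h1 : I = (LinearMap.range q ⊓ I) ⊔ (K' ⊓ I) := by
          rw [← sup_inf_assoc_of_le K' inf_le_right, hK'.sup_eq_top, top_inf_eq]
        have h2 : K' ⊓ I = ⊥ := hbot
        rw [h2, sup_bot_eq] at h1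
        rw [h1]
        exact inf_le_left
      have hd : Disjoint (LinearMap.range q) T := by
        rw [disjoint_iff]
        have h1 : LinearMap.range q ⊓ T = (LinearMap.range q ⊓ I) ⊓ K' := by
          change LinearMap.range q ⊓ (K' ⊓ I) = _
          rw [inf_comm K' I, inf_assoc]
        rw [h1, hK'.inf_eq_bot]
      obtain ⟨f, k, hk, hfk⟩ := exists_hom q T hT hd
      -- the new element
      let t : R := (f 1 : R)
      have ht : t ∈ I := hTI (f 1).2
      have hft : ∀ r, (f r : R) = r * t := by
        intro r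
        have h1 : f r = r • f 1 := by rw [← map_smul, smul_eq_mul, mul_one]
        rw [h1]
        rfl
      set q' := LinearMap.toSpanSingleton R R (a + t) with hq'
      have hq'a : ∀ r, q' r = r * a + r * t := fun r => mul_add r a t
      have hker : ∀ r, q' r = 0 → q r = 0 ∧ (f r : R) = 0 := by
        intro r hr
        rw [hq'a] at hr
        have h1 : q r = - (f r : R) := by
          rw [hqa, hft]
          exact eq_neg_of_add_eq_zero_left hr
        have h2 : q r ∈ LinearMap.range q ⊓ T := ⟨⟨r, rfl⟩, by rw [h1]; exact neg_mem (f r).2⟩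
        rw [hd.eq_bot, Submodule.mem_bot] at h2
        refine ⟨h2, ?_⟩
        rw [h2] at h1
        exact neg_eq_zero.1 h1.symm
      have hlt : LinearMap.ker q' < LinearMap.ker q := by
        rw [SetLike.lt_iff_le_and_exists]
        refine ⟨fun r hr => (hker r hr).1, k, hk, ?_⟩
        intro hk'
        exact hfk (Subtype.ext (hker k hk').2)
      have hcard : Nat.card (LinearMap.ker q') < Nat.card (LinearMap.ker q) :=
        Set.ncard_lt_ncard (SetLike.coe_ssubset_coe.2 hlt) (Set.toFinite _)
      have hsup : Ideal.span {a + t} ⊔ I = ⊤ := by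
        rw [eq_top_iff, ← h, sup_le_iff]
        refine ⟨?_, le_sup_right⟩
        rw [Ideal.span_singleton_le_iff_mem]
        have h2 : (a + t) - t ∈ Ideal.span {a + t} ⊔ I :=
          sub_mem (Ideal.mem_sup_left (Ideal.mem_span_singleton_self _)) (Ideal.mem_sup_right ht)
        rwa [add_sub_cancel_right] at h2
      obtain ⟨i, hi, hu⟩ := unit_of_semisimple n (a + t) I (by
        change Nat.card (LinearMap.ker q') ≤ n
        omega) hsup
      exact ⟨t + i, add_mem ht hi, by rw [← add_assoc]; exact hu⟩

/-- finite rings have stable range one -/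
theorem unit_of_finite {R : Type} [Ring R] [Finite R] (a : R) (I : Ideal R)
    (h : Ideal.span {a} ⊔ I = ⊤) : ∃ i ∈ I, IsUnit (a + i) := by
  let J := Ring.jacobson R
  let π : R →+* R ⧸ J := Ideal.Quotient.mk J
  have hπ : Surjective π := Ideal.Quotient.mk_surjective
  have hfin : Finite (R ⧸ J) := Finite.of_surjective π hπ
  have hsup : Ideal.span {π a} ⊔ I.map π = ⊤ := by
    have h1 := congrArg (Ideal.map π) h
    rw [Ideal.map_sup, Ideal.map_span, Set.image_singleton] at h1
    rw [h1, Ideal.eq_top_iff_one]
    have : π 1 ∈ Ideal.map π ⊤ := Ideal.mem_map_of_mem π trivial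
    rwa [map_one] at this
  obtain ⟨i', hi', hu⟩ := unit_of_semisimple _ (π a) (I.map π) le_rfl hsup
  obtain ⟨i, hi, rfl⟩ := (Ideal.mem_map_iff_of_surjective π hπ).1 hi'
  refine ⟨i, hi, ?_⟩
  rw [← map_add] at hu
  obtain ⟨v', hv'⟩ := hu.exists_left_inv
  obtain ⟨v, rfl⟩ := hπ v'
  rw [← map_mul, ← map_one π] at hv'
  have hmem : v * (a + i) - 1 ∈ J := Ideal.Quotient.eq.1 hv'
  have htop : Ideal.span {a + i} = ⊤ := by
    by_contra hne
    obtain ⟨m, hm, hle⟩ := Ideal.exists_le_maximal _ hne
    apply hm.ne_top
    rw [Ideal.eq_top_iff_one]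
    have h1 : (1 : R) = v * (a + i) - (v * (a + i) - 1) := by rw [sub_sub_cancel]
    rw [h1]
    exact sub_mem (Ideal.mul_mem_left _ _ (hle (Ideal.mem_span_singleton_self _)))
      (Ring.jacobson_le_of_isMaximal m hmem)
  have h1 : (1 : R) ∈ Ideal.span {a + i} := by rw [htop]; trivial
  obtain ⟨w, hw⟩ := Ideal.mem_span_singleton'.1 h1
  exact isUnit_of_left _ w hw

end Finite

end Vale.Agent.P246.Q24
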