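import Vale.Agent.P246.Bdl.B2
import Vale.Agent.P246.Q24.Base
import Mathlib.GroupTheory.SpecificGroups.Quaternion

/-!
# Common definitions for the homotopy classification

`Reso G`: a `4`-periodic resolution built on a balanced presentation; `QP S P φ`: the projective
module attached to a presentation `P`.
-/

set_option linter.all false

namespace Vale.Agent.P246.Q24

open Vale.Agent.P246 CategoryTheory

section General

variable {G : Type} [Group G]

/-- augmentation -/
noncomputable def aug (G : Type) [Group G] : ZG G →+* ℤ :=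
  (MonoidAlgebra.lift ℤ ℤ G (1 : G →* ℤ)).toRingHom

@[simp] theorem aug_elt (g : G) : aug G (elt g) = 1 := by
  simp [aug, elt]

/-- the norm element -/
noncomputable def nrm (G : Type) [Group G] [Fintype G] : ZG G := ∑ g : G, elt g

/-- add `s` trivial relators -/
noncomputable def addTriv (P : FinPresentation G) (s : ℕ) : FinPresentation G where
  gens := P.gens
  rels := P.rels + s
  x := P.x
  r := Fin.append P.r (fun _ => 1)
  surj := P.surj
  ker_eq := by
    rw [P.ker_eq]
    apply le_antisymm
    · apply Subgroup.normalClosure_mono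
      rintro _ ⟨j, rfl⟩
      exact ⟨Fin.castAdd s j, Fin.append_left _ _ j⟩
    · apply Subgroup.normalClosure_le_normal
      rintro _ ⟨j, rfl⟩
      refine Fin.addCases (fun i => ?_) (fun i => ?_) j
      · rw [Fin.append_left]
        exact Subgroup.subset_normalClosure ⟨i, rfl⟩
      · rw [Fin.append_right]
        exact one_mem _

/-- a `4`-periodic resolution of `ℤ` starting with a balanced presentation -/
structure Reso (G : Type) [Group G] [Fintype G] where
  P : FinPresentation G
  bal : P.gens = P.rels
  kap : Fin P.rels → ZG G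
  dk : foxD2 P kap = 0
  ex : ∀ v, foxD2 P v = 0 → ∃ l : ZG G, v = l • kap
  ann : ∀ l : ZG G, l • kap = 0 ↔ ∃ n : ℤ, l = n • nrm G

/-- `{(p, l) : ∂p = 0, φ p = l κ}` -/
noncomputable def QP [Fintype G] (S : Reso G) (P : FinPresentation G)
    (φ : (Fin P.rels → ZG G) →ₗ[ZG G] (Fin S.P.rels → ZG G)) :
    Submodule (ZG G) ((Fin P.rels → ZG G) × ZG G) where
  carrier := {v | foxD2 P v.1 = 0 ∧ φ v.1 = v.2 • S.kap}
  add_mem' := by
    rintro a b ⟨h1, h2⟩ ⟨h3, h4⟩
    refine ⟨?_, ?_⟩
    · change foxD2 P (a.1 + b.1) = 0
      rw [map_add, h1, h3, add_zero]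
    · change φ (a.1 + b.1) = (a.2 + b.2) • S.kap
      rw [map_add, h2, h4, add_smul]
  zero_mem' := by
    refine ⟨?_, ?_⟩
    · exact map_zero _
    · change φ 0 = (0 : ZG G) • S.kap
      rw [map_zero, zero_smul]
  smul_mem' := by
    rintro c a ⟨h1, h2⟩
    refine ⟨?_, ?_⟩
    · change foxD2 P (c • a.1) = 0
      rw [map_smul, h1, smul_zero]
    · change φ (c • a.1) = (c * a.2) • S.kap
      rw [map_smul, h2, mul_smul]

end General

/-- the generalized quaternion group of order `24` -/
abbrev Q24 : Type := QuaternionGroup 6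

/-- the group ring -/
abbrev Lam : Type := ZG Q24

/-- `x = a 1` -/
noncomputable def X : Lam := elt (QuaternionGroup.a 1 : Q24)
/-- `x⁻¹` -/
noncomputable def X' : Lam := elt (QuaternionGroup.a (-1) : Q24)
/-- `y = xa 0` -/
noncomputable def Y : Lam := elt (QuaternionGroup.xa 0 : Q24)

end Vale.Agent.P246.Q24
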