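import Vale.Agent.P246.Q24.E3

/-!
# Block E: injectivity and the image of the four projections
-/

set_option linter.all false

namespace Vale.Agent.P246.Q24

open Vale.Agent.P246 QuaternionGroup

/-- all four projections (`X ↦ ω t⁻¹`, `Y ↦ y`) -/
noncomputable def pi : Lam →+* T1 × T2 × T3 × T4 := pi1.prod (pi2.prod (pi3.prod pi4))

theorem pi_inj (a : Lam) (h : pi a = 0) : a = 0 := by
  obtain ⟨u, v, rfl⟩ := exists_comb a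
  have e1 : pi1 (comb u v) = 0 := congrArg (fun z : T1 × T2 × T3 × T4 => z.1) h
  have e2 : pi2 (comb u v) = 0 := congrArg (fun z : T1 × T2 × T3 × T4 => z.2.1) h
  have e3 : pi3 (comb u v) = 0 := congrArg (fun z : T1 × T2 × T3 × T4 => z.2.2.1) h
  have e4 : pi4 (comb u v) = 0 := congrArg (fun z : T1 × T2 × T3 × T4 => z.2.2.2) h
  have a1 := pi1_fst_re u v
  have a2 := pi1_fst_im u v
  have a3 := pi2_fst_re u v
  have a4 := pi2_fst_im u v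
  have a5 := pi3_fst_re_re u v
  have a6 := pi3_fst_re_im u v
  have a7 := pi3_fst_im_re u v
  have a8 := pi3_fst_im_im u v
  have a9 := pi4_fst_re_re u v
  have a10 := pi4_fst_re_im u v
  have a11 := pi4_fst_im_re u v
  have a12 := pi4_fst_im_im u v
  have b1 := pi1_snd_re u v
  have b2 := pi1_snd_im u v
  have b3 := pi2_snd_re u v
  have b4 := pi2_snd_im u v
  have b5 := pi3_snd_re_re u v
  have b6 := pi3_snd_re_im u v
  have b7 := pi3_snd_im_re u v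
  have b8 := pi3_snd_im_im u v
  have b9 := pi4_snd_re_re u v
  have b10 := pi4_snd_re_im u v
  have b11 := pi4_snd_im_re u v
  have b12 := pi4_snd_im_im u v
  rw [e1] at a1 a2 b1 b2
  rw [e2] at a3 a4 b3 b4
  rw [e3] at a5 a6 a7 a8 b5 b6 b7 b8
  rw [e4] at a9 a10 a11 a12 b9 b10 b11 b12
  simp only [Dbl.zero_fst, Dbl.zero_snd, Qd.zero_re, Qd.zero_im, Eis.zero_re, Eis.zero_im] at *
  have hu : u = 0 := by
    funext i
    fin_cases i <;> simp <;> omega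
  have hv : v = 0 := by
    funext i
    fin_cases i <;> simp <;> omega
  rw [hu, hv]
  simp [comb]

theorem dvd2 {x y : ℤ} (h : zF2 x = zF2 y) : (2 : ℤ) ∣ x - y := by
  have h' : ((x : ℤ) : ZMod 2) = ((y : ℤ) : ZMod 2) := h
  exact (ZMod.intCast_eq_intCast_iff_dvd_sub y x 2).1 h'.symm

theorem dvd3 {x y : ℤ} (h : zF3 x = zF3 y) : (3 : ℤ) ∣ x - y := by
  have h' : ((x : ℤ) : ZMod 3) = ((y : ℤ) : ZMod 3) := h
  exact (ZMod.intCast_eq_intCast_iff_dvd_sub y x 3).1 h'.symm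

theorem dvd3w {x : ℤ} {y : ZW} (h : zF3 x = wF3 y) : (3 : ℤ) ∣ x - y.re - y.im := by
  rw [wF3_apply, ← map_add] at h
  have := dvd3 h
  rwa [← sub_sub] at this

theorem sys_fst_re (p m a b c d : ℤ) (h1 : (2 : ℤ) ∣ p - m) (h2 : (2 : ℤ) ∣ a - c)
    (h3 : (2 : ℤ) ∣ b - d) (h4 : (3 : ℤ) ∣ p - a - b) (h5 : (3 : ℤ) ∣ m - c - d) :
    ∃ z : Fin 6 → ℤ, p = (1) * z 0 + (1) * z 1 + (1) * z 2 + (1) * z 3 + (1) * z 4 + (1) * z 5 ∧ m = (1) * z 0 + (-1) * z 1 + (1) * z 2 + (-1) * z 3 + (1) * z 4 + (-1) * z 5 ∧ a = (1) * z 0 + (-1) * z 1 + (1) * z 3 + (-1) * z 4 ∧ b = (-1) * z 1 + (1) * z 2 + (-1) * z 4 + (1) * z 5 ∧ c = (1) * z 0 + (1) * z 1 + (-1) * z 3 + (-1) * z 4 ∧ d = (1) * z 1 + (1) * z 2 + (-1) * z 4 + (-1) * z 5 := by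
  obtain ⟨z0, hz0⟩ : (12 : ℤ) ∣ (2) * p + (2) * m + (4) * a + (-2) * b + (4) * c + (-2) * d := by omega
  obtain ⟨z1, hz1⟩ : (12 : ℤ) ∣ (2) * p + (-2) * m + (-2) * a + (-2) * b + (2) * c + (2) * d := by omega
  obtain ⟨z2, hz2⟩ : (12 : ℤ) ∣ (2) * p + (2) * m + (-2) * a + (4) * b + (-2) * c + (4) * d := by omega
  obtain ⟨z3, hz3⟩ : (12 : ℤ) ∣ (2) * p + (-2) * m + (4) * a + (-2) * b + (-4) * c + (2) * d := by omega
  obtain ⟨z4, hz4⟩ : (12 : ℤ) ∣ (2) * p + (2) * m + (-2) * a + (-2) * b + (-2) * c + (-2) * d := by omega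
  obtain ⟨z5, hz5⟩ : (12 : ℤ) ∣ (2) * p + (-2) * m + (-2) * a + (4) * b + (2) * c + (-4) * d := by omega
  refine ⟨![z0, z1, z2, z3, z4, z5], ?_⟩
  have e0 : (![z0, z1, z2, z3, z4, z5] : Fin 6 → ℤ) 0 = z0 := rfl
  have e1 : (![z0, z1, z2, z3, z4, z5] : Fin 6 → ℤ) 1 = z1 := rfl
  have e2 : (![z0, z1, z2, z3, z4, z5] : Fin 6 → ℤ) 2 = z2 := rfl
  have e3 : (![z0, z1, z2, z3, z4, z5] : Fin 6 → ℤ) 3 = z3 := rfl
  have e4 : (![z0, z1, z2, z3, z4, z5] : Fin 6 → ℤ) 4 = z4 := rfl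
  have e5 : (![z0, z1, z2, z3, z4, z5] : Fin 6 → ℤ) 5 = z5 := rfl
  rw [e0, e1, e2, e3, e4, e5]
  refine ⟨?_, ?_, ?_, ?_, ?_, ?_⟩ <;> omega

theorem sys_fst_im (p m a b c d : ℤ) (h1 : (2 : ℤ) ∣ p - m) (h2 : (2 : ℤ) ∣ a - c)
    (h3 : (2 : ℤ) ∣ b - d) (h4 : (3 : ℤ) ∣ p - a - b) (h5 : (3 : ℤ) ∣ m - c - d) :
    ∃ z : Fin 6 → ℤ, p = (1) * z 0 + (1) * z 1 + (1) * z 2 + (1) * z 3 + (1) * z 4 + (1) * z 5 ∧ m = (-1) * z 0 + (1) * z 1 + (-1) * z 2 + (1) * z 3 + (-1) * z 4 + (1) * z 5 ∧ a = (1) * z 1 + (-1) * z 2 + (1) * z 4 + (-1) * z 5 ∧ b = (1) * z 0 + (-1) * z 2 + (1) * z 3 + (-1) * z 5 ∧ c = (1) * z 1 + (1) * z 2 + (-1) * z 4 + (-1) * z 5 ∧ d = (-1) * z 0 + (1) * z 2 + (1) * z 3 + (-1) * z 5 := by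
  obtain ⟨z0, hz0⟩ : (12 : ℤ) ∣ (2) * p + (-2) * m + (-2) * a + (4) * b + (2) * c + (-4) * d := by omega
  obtain ⟨z1, hz1⟩ : (12 : ℤ) ∣ (2) * p + (2) * m + (4) * a + (-2) * b + (4) * c + (-2) * d := by omega
  obtain ⟨z2, hz2⟩ : (12 : ℤ) ∣ (2) * p + (-2) * m + (-2) * a + (-2) * b + (2) * c + (2) * d := by omega
  obtain ⟨z3, hz3⟩ : (12 : ℤ) ∣ (2) * p + (2) * m + (-2) * a + (4) * b + (-2) * c + (4) * d := by omega
  obtain ⟨z4, hz4⟩ : (12 : ℤ) ∣ (2) * p + (-2) * m + (4) * a + (-2) * b + (-4) * c + (2) * d := by omega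
  obtain ⟨z5, hz5⟩ : (12 : ℤ) ∣ (2) * p + (2) * m + (-2) * a + (-2) * b + (-2) * c + (-2) * d := by omega
  refine ⟨![z0, z1, z2, z3, z4, z5], ?_⟩
  have e0 : (![z0, z1, z2, z3, z4, z5] : Fin 6 → ℤ) 0 = z0 := rfl
  have e1 : (![z0, z1, z2, z3, z4, z5] : Fin 6 → ℤ) 1 = z1 := rfl
  have e2 : (![z0, z1, z2, z3, z4, z5] : Fin 6 → ℤ) 2 = z2 := rfl
  have e3 : (![z0, z1, z2, z3, z4, z5] : Fin 6 → ℤ) 3 = z3 := rfl
  have e4 : (![z0, z1, z2, z3, z4, z5] : Fin 6 → ℤ) 4 = z4 := rfl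
  have e5 : (![z0, z1, z2, z3, z4, z5] : Fin 6 → ℤ) 5 = z5 := rfl
  rw [e0, e1, e2, e3, e4, e5]
  refine ⟨?_, ?_, ?_, ?_, ?_, ?_⟩ <;> omega

theorem sys_snd_re (p m a b c d : ℤ) (h1 : (2 : ℤ) ∣ p - m) (h2 : (2 : ℤ) ∣ a - c)
    (h3 : (2 : ℤ) ∣ b - d) (h4 : (3 : ℤ) ∣ p - a - b) (h5 : (3 : ℤ) ∣ m - c - d) :
    ∃ z : Fin 6 → ℤ, p = (1) * z 0 + (1) * z 1 + (1) * z 2 + (1) * z 3 + (1) * z 4 + (1) * z 5 ∧ m = (1) * z 0 + (-1) * z 1 + (1) * z 2 + (-1) * z 3 + (1) * z 4 + (-1) * z 5 ∧ a = (1) * z 0 + (-1) * z 2 + (1) * z 3 + (-1) * z 5 ∧ b = (1) * z 1 + (-1) * z 2 + (1) * z 4 + (-1) * z 5 ∧ c = (1) * z 0 + (-1) * z 2 + (-1) * z 3 + (1) * z 5 ∧ d = (-1) * z 1 + (-1) * z 2 + (1) * z 4 + (1) * z 5 := by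
  obtain ⟨z0, hz0⟩ : (12 : ℤ) ∣ (2) * p + (2) * m + (4) * a + (-2) * b + (4) * c + (-2) * d := by omega
  obtain ⟨z1, hz1⟩ : (12 : ℤ) ∣ (2) * p + (-2) * m + (-2) * a + (4) * b + (2) * c + (-4) * d := by omega
  obtain ⟨z2, hz2⟩ : (12 : ℤ) ∣ (2) * p + (2) * m + (-2) * a + (-2) * b + (-2) * c + (-2) * d := by omega
  obtain ⟨z3, hz3⟩ : (12 : ℤ) ∣ (2) * p + (-2) * m + (4) * a + (-2) * b + (-4) * c + (2) * d := by omega
  obtain ⟨z4, hz4⟩ : (12 : ℤ) ∣ (2) * p + (2) * m + (-2) * a + (4) * b + (-2) * c + (4) * d := by omega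
  obtain ⟨z5, hz5⟩ : (12 : ℤ) ∣ (2) * p + (-2) * m + (-2) * a + (-2) * b + (2) * c + (2) * d := by omega
  refine ⟨![z0, z1, z2, z3, z4, z5], ?_⟩
  have e0 : (![z0, z1, z2, z3, z4, z5] : Fin 6 → ℤ) 0 = z0 := rfl
  have e1 : (![z0, z1, z2, z3, z4, z5] : Fin 6 → ℤ) 1 = z1 := rfl
  have e2 : (![z0, z1, z2, z3, z4, z5] : Fin 6 → ℤ) 2 = z2 := rfl
  have e3 : (![z0, z1, z2, z3, z4, z5] : Fin 6 → ℤ) 3 = z3 := rfl
  have e4 : (![z0, z1, z2, z3, z4, z5] : Fin 6 → ℤ) 4 = z4 := rfl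
  have e5 : (![z0, z1, z2, z3, z4, z5] : Fin 6 → ℤ) 5 = z5 := rfl
  rw [e0, e1, e2, e3, e4, e5]
  refine ⟨?_, ?_, ?_, ?_, ?_, ?_⟩ <;> omega

theorem sys_snd_im (p m a b c d : ℤ) (h1 : (2 : ℤ) ∣ p - m) (h2 : (2 : ℤ) ∣ a - c)
    (h3 : (2 : ℤ) ∣ b - d) (h4 : (3 : ℤ) ∣ p - a - b) (h5 : (3 : ℤ) ∣ m - c - d) :
    ∃ z : Fin 6 → ℤ, p = (1) * z 0 + (1) * z 1 + (1) * z 2 + (1) * z 3 + (1) * z 4 + (1) * z 5 ∧ m = (1) * z 0 + (-1) * z 1 + (1) * z 2 + (-1) * z 3 + (1) * z 4 + (-1) * z 5 ∧ a = (-1) * z 0 + (1) * z 1 + (-1) * z 3 + (1) * z 4 ∧ b = (-1) * z 0 + (1) * z 2 + (-1) * z 3 + (1) * z 5 ∧ c = (-1) * z 0 + (-1) * z 1 + (1) * z 3 + (1) * z 4 ∧ d = (-1) * z 0 + (1) * z 2 + (1) * z 3 + (-1) * z 5 := by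
  obtain ⟨z0, hz0⟩ : (12 : ℤ) ∣ (2) * p + (2) * m + (-2) * a + (-2) * b + (-2) * c + (-2) * d := by omega
  obtain ⟨z1, hz1⟩ : (12 : ℤ) ∣ (2) * p + (-2) * m + (4) * a + (-2) * b + (-4) * c + (2) * d := by omega
  obtain ⟨z2, hz2⟩ : (12 : ℤ) ∣ (2) * p + (2) * m + (-2) * a + (4) * b + (-2) * c + (4) * d := by omega
  obtain ⟨z3, hz3⟩ : (12 : ℤ) ∣ (2) * p + (-2) * m + (-2) * a + (-2) * b + (2) * c + (2) * d := by omega
  obtain ⟨z4, hz4⟩ : (12 : ℤ) ∣ (2) * p + (2) * m + (4) * a + (-2) * b + (4) * c + (-2) * d := by omega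
  obtain ⟨z5, hz5⟩ : (12 : ℤ) ∣ (2) * p + (-2) * m + (-2) * a + (4) * b + (2) * c + (-4) * d := by omega
  refine ⟨![z0, z1, z2, z3, z4, z5], ?_⟩
  have e0 : (![z0, z1, z2, z3, z4, z5] : Fin 6 → ℤ) 0 = z0 := rfl
  have e1 : (![z0, z1, z2, z3, z4, z5] : Fin 6 → ℤ) 1 = z1 := rfl
  have e2 : (![z0, z1, z2, z3, z4, z5] : Fin 6 → ℤ) 2 = z2 := rfl
  have e3 : (![z0, z1, z2, z3, z4, z5] : Fin 6 → ℤ) 3 = z3 := rfl
  have e4 : (![z0, z1, z2, z3, z4, z5] : Fin 6 → ℤ) 4 = z4 := rfl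
  have e5 : (![z0, z1, z2, z3, z4, z5] : Fin 6 → ℤ) 5 = z5 := rfl
  rw [e0, e1, e2, e3, e4, e5]
  refine ⟨?_, ?_, ?_, ?_, ?_, ?_⟩ <;> omega

theorem pi_surj (t1 : T1) (t2 : T2) (t3 : T3) (t4 : T4) (h12 : a12 t1 = b12 t2)
    (h34 : a34 t3 = b34 t4) (h13 : a13 t1 = b13 t3) (h24 : a24 t2 = b24 t4) :
    ∃ a, pi a = (t1, t2, t3, t4) := by
  obtain ⟨ure, ure1, ure2, ure3, ure4, ure5, ure6⟩ := sys_fst_re t1.fst.re t2.fst.re
    t3.fst.re.re t3.fst.re.im t4.fst.re.re t4.fst.re.im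
    (dvd2 (congrArg (fun z : T F2 false => z.fst.re) h12))
    (dvd2 (congrArg (fun z : T F4 false => z.fst.re.re) h34))
    (dvd2 (congrArg (fun z : T F4 false => z.fst.re.im) h34))
    (dvd3w (congrArg (fun z : T F3 false => z.fst.re) h13))
    (dvd3w (congrArg (fun z : T F3 true => z.fst.re) h24))
  obtain ⟨uim, uim1, uim2, uim3, uim4, uim5, uim6⟩ := sys_fst_im t1.fst.im t2.fst.im
    t3.fst.im.re t3.fst.im.im t4.fst.im.re t4.fst.im.im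
    (dvd2 (congrArg (fun z : T F2 false => z.fst.im) h12))
    (dvd2 (congrArg (fun z : T F4 false => z.fst.im.re) h34))
    (dvd2 (congrArg (fun z : T F4 false => z.fst.im.im) h34))
    (dvd3w (congrArg (fun z : T F3 false => z.fst.im) h13))
    (dvd3w (congrArg (fun z : T F3 true => z.fst.im) h24))
  obtain ⟨vre, vre1, vre2, vre3, vre4, vre5, vre6⟩ := sys_snd_re t1.snd.re t2.snd.re
    t3.snd.re.re t3.snd.re.im t4.snd.re.re t4.snd.re.im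
    (dvd2 (congrArg (fun z : T F2 false => z.snd.re) h12))
    (dvd2 (congrArg (fun z : T F4 false => z.snd.re.re) h34))
    (dvd2 (congrArg (fun z : T F4 false => z.snd.re.im) h34))
    (dvd3w (congrArg (fun z : T F3 false => z.snd.re) h13))
    (dvd3w (congrArg (fun z : T F3 true => z.snd.re) h24))
  obtain ⟨vim, vim1, vim2, vim3, vim4, vim5, vim6⟩ := sys_snd_im t1.snd.im t2.snd.im
    t3.snd.im.re t3.snd.im.im t4.snd.im.re t4.snd.im.im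
    (dvd2 (congrArg (fun z : T F2 false => z.snd.im) h12))
    (dvd2 (congrArg (fun z : T F4 false => z.snd.im.re) h34))
    (dvd2 (congrArg (fun z : T F4 false => z.snd.im.im) h34))
    (dvd3w (congrArg (fun z : T F3 false => z.snd.im) h13))
    (dvd3w (congrArg (fun z : T F3 true => z.snd.im) h24))
  refine ⟨comb ![ure 0, uim 0, ure 1, uim 1, ure 2, uim 2, ure 3, uim 3, ure 4, uim 4, ure 5, uim 5]
    ![vre 0, vim 0, vre 1, vim 1, vre 2, vim 2, vre 3, vim 3, vre 4, vim 4, vre 5, vim 5], ?_⟩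
  have E1 : ∀ z : T1 × T2 × T3 × T4, z.1 = t1 → z.2.1 = t2 → z.2.2.1 = t3 → z.2.2.2 = t4 →
      z = (t1, t2, t3, t4) := by
    rintro ⟨z1, z2, z3, z4⟩ rfl rfl rfl rfl
    rfl
  apply E1
  · change pi1 _ = _
    ext
    · rw [pi1_fst_re, ure1]; simp; try ring
    · rw [pi1_fst_im, uim1]; simp; try ring
    · rw [pi1_snd_re, vre1]; simp; try ring
    · rw [pi1_snd_im, vim1]; simp; try ring
  · change pi2 _ = _
    ext
    · rw [pi2_fst_re, ure2]; simp; try ring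
    · rw [pi2_fst_im, uim2]; simp; try ring
    · rw [pi2_snd_re, vre2]; simp; try ring
    · rw [pi2_snd_im, vim2]; simp; try ring
  · change pi3 _ = _
    ext
    · rw [pi3_fst_re_re, ure3]; simp; try ring
    · rw [pi3_fst_re_im, ure4]; simp; try ring
    · rw [pi3_fst_im_re, uim3]; simp; try ring
    · rw [pi3_fst_im_im, uim4]; simp; try ring
    · rw [pi3_snd_re_re, vre3]; simp; try ring
    · rw [pi3_snd_re_im, vre4]; simp; try ring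
    · rw [pi3_snd_im_re, vim3]; simp; try ring
    · rw [pi3_snd_im_im, vim4]; simp; try ring
  · change pi4 _ = _
    ext
    · rw [pi4_fst_re_re, ure5]; simp; try ring
    · rw [pi4_fst_re_im, ure6]; simp; try ring
    · rw [pi4_fst_im_re, uim5]; simp; try ring
    · rw [pi4_fst_im_im, uim6]; simp; try ring
    · rw [pi4_snd_re_re, vre5]; simp; try ring
    · rw [pi4_snd_re_im, vre6]; simp; try ring
    · rw [pi4_snd_im_re, vim5]; simp; try ring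
    · rw [pi4_snd_im_im, vim6]; simp; try ring

end Vale.Agent.P246.Q24
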