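import Vale.Agent.P246.Q24.E4

/-!
# Block E: the glued modules `Md d e`
-/

set_option linter.all false

namespace Vale.Agent.P246.Q24

open Vale.Agent.P246

/-- `T1 × T2 × T3 × T4` as a module over the group ring -/
def TM : Type := T1 × T2 × T3 × T4

instance : AddCommGroup TM := inferInstanceAs (AddCommGroup (T1 × T2 × T3 × T4))

noncomputable instance : Module Lam TM := Module.compHom (T1 × T2 × T3 × T4) pi

theorem TM_smul (a : Lam) (t : TM) :
    a • t = (pi1 a * t.1, pi2 a * t.2.1, pi3 a * t.2.2.1, pi4 a * t.2.2.2) := rfl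

/-- `{(t1,t2,t3,t4) : t1 = t2 mod 2, t3 = t4 mod 2, t1 d = t3 mod (1-ω), t2 e = t4 mod (1-ω)}` -/
noncomputable def Md (d : T F3 false) (e : T F3 true) : Submodule Lam TM where
  carrier := {t | a12 t.1 = b12 t.2.1 ∧ a34 t.2.2.1 = b34 t.2.2.2 ∧
    a13 t.1 * d = b13 t.2.2.1 ∧ a24 t.2.1 * e = b24 t.2.2.2}
  add_mem' := by
    rintro a b ⟨h1, h2, h3, h4⟩ ⟨k1, k2, k3, k4⟩
    refine ⟨?_, ?_, ?_, ?_⟩
    · change a12 (a.1 + b.1) = b12 (a.2.1 + b.2.1)
      rw [map_add, map_add, h1, k1]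
    · change a34 (a.2.2.1 + b.2.2.1) = b34 (a.2.2.2 + b.2.2.2)
      rw [map_add, map_add, h2, k2]
    · change a13 (a.1 + b.1) * d = b13 (a.2.2.1 + b.2.2.1)
      rw [map_add, map_add, add_mul, h3, k3]
    · change a24 (a.2.1 + b.2.1) * e = b24 (a.2.2.2 + b.2.2.2)
      rw [map_add, map_add, add_mul, h4, k4]
  zero_mem' := by
    refine ⟨?_, ?_, ?_, ?_⟩
    · change a12 0 = b12 0
      rw [map_zero, map_zero]
    · change a34 0 = b34 0
      rw [map_zero, map_zero]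
    · change a13 0 * d = b13 0
      rw [map_zero, map_zero, zero_mul]
    · change a24 0 * e = b24 0
      rw [map_zero, map_zero, zero_mul]
  smul_mem' := by
    rintro c a ⟨h1, h2, h3, h4⟩
    refine ⟨?_, ?_, ?_, ?_⟩
    · change a12 (pi1 c * a.1) = b12 (pi2 c * a.2.1)
      rw [map_mul, map_mul, h1, pi_12]
    · change a34 (pi3 c * a.2.2.1) = b34 (pi4 c * a.2.2.2)
      rw [map_mul, map_mul, h2, pi_34]
    · change a13 (pi1 c * a.1) * d = b13 (pi3 c * a.2.2.1)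
      rw [map_mul, map_mul, mul_assoc, h3, pi_13]
    · change a24 (pi2 c * a.2.1) * e = b24 (pi4 c * a.2.2.2)
      rw [map_mul, map_mul, mul_assoc, h4, pi_24]

theorem mem_Md {d : T F3 false} {e : T F3 true} {t : TM} : t ∈ Md d e ↔
    a12 t.1 = b12 t.2.1 ∧ a34 t.2.2.1 = b34 t.2.2.2 ∧
    a13 t.1 * d = b13 t.2.2.1 ∧ a24 t.2.1 * e = b24 t.2.2.2 := Iff.rfl

theorem TM_ext {s t : TM} (h1 : s.1 = t.1) (h2 : s.2.1 = t.2.1) (h3 : s.2.2.1 = t.2.2.1)
    (h4 : s.2.2.2 = t.2.2.2) : s = t :=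
  Prod.ext h1 (Prod.ext h2 (Prod.ext h3 h4))

/-- right multiplication -/
noncomputable def rmul (u1 : T1) (u2 : T2) (u3 : T3) (u4 : T4) : TM →ₗ[Lam] TM where
  toFun := fun t => (t.1 * u1, t.2.1 * u2, t.2.2.1 * u3, t.2.2.2 * u4)
  map_add' := fun s t => TM_ext (add_mul _ _ _) (add_mul _ _ _) (add_mul _ _ _) (add_mul _ _ _)
  map_smul' := fun a t => TM_ext (mul_assoc _ _ _) (mul_assoc _ _ _) (mul_assoc _ _ _)
    (mul_assoc _ _ _)

theorem rmul_rmul {u1 v1 : T1} {u2 v2 : T2} {u3 v3 : T3} {u4 v4 : T4} (h1 : u1 * v1 = 1)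
    (h2 : u2 * v2 = 1) (h3 : u3 * v3 = 1) (h4 : u4 * v4 = 1) (t : TM) :
    rmul v1 v2 v3 v4 (rmul u1 u2 u3 u4 t) = t := by
  apply TM_ext
  · change t.1 * u1 * v1 = _
    rw [mul_assoc, h1, mul_one]
  · change t.2.1 * u2 * v2 = _
    rw [mul_assoc, h2, mul_one]
  · change t.2.2.1 * u3 * v3 = _
    rw [mul_assoc, h3, mul_one]
  · change t.2.2.2 * u4 * v4 = _
    rw [mul_assoc, h4, mul_one]

theorem rmul_mem {d d' : T F3 false} {e e' : T F3 true} {u1 : T1} {u2 : T2} {u3 : T3} {u4 : T4}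
    (c12 : a12 u1 = b12 u2) (c34 : a34 u3 = b34 u4) (c13 : a13 u1 * d' = d * b13 u3)
    (c24 : a24 u2 * e' = e * b24 u4) (t : TM) (ht : t ∈ Md d e) :
    rmul u1 u2 u3 u4 t ∈ Md d' e' := by
  obtain ⟨g1, g2, g3, g4⟩ := ht
  refine ⟨?_, ?_, ?_, ?_⟩
  · change a12 (t.1 * u1) = b12 (t.2.1 * u2)
    rw [map_mul, map_mul, g1, c12]
  · change a34 (t.2.2.1 * u3) = b34 (t.2.2.2 * u4)
    rw [map_mul, map_mul, g2, c34]
  · change a13 (t.1 * u1) * d' = b13 (t.2.2.1 * u3)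
    rw [map_mul, map_mul, ← g3, mul_assoc, c13, mul_assoc]
  · change a24 (t.2.1 * u2) * e' = b24 (t.2.2.2 * u4)
    rw [map_mul, map_mul, ← g4, mul_assoc, c24, mul_assoc]

/-- right multiplication as a map of glued modules -/
noncomputable def rmulM {d d' : T F3 false} {e e' : T F3 true} {u1 : T1} {u2 : T2} {u3 : T3}
    {u4 : T4} (c12 : a12 u1 = b12 u2) (c34 : a34 u3 = b34 u4) (c13 : a13 u1 * d' = d * b13 u3)
    (c24 : a24 u2 * e' = e * b24 u4) : Md d e →ₗ[Lam] Md d' e' :=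
  LinearMap.restrict (p := Md d e) (q := Md d' e') (rmul u1 u2 u3 u4)
    (fun t ht => rmul_mem c12 c34 c13 c24 t ht)

theorem rmulM_coe {d d' : T F3 false} {e e' : T F3 true} {u1 : T1} {u2 : T2} {u3 : T3}
    {u4 : T4} (c12 : a12 u1 = b12 u2) (c34 : a34 u3 = b34 u4) (c13 : a13 u1 * d' = d * b13 u3)
    (c24 : a24 u2 * e' = e * b24 u4) (t : Md d e) :
    (rmulM c12 c34 c13 c24 t : TM) = rmul u1 u2 u3 u4 t.1 := rfl

theorem inv_compat {R S P : Type} [Ring R] [Ring S] [Ring P] (f : R →+* P) (g : S →+* P)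
    {u v : R} {u' v' : S} {d e : P} (h1 : v * u = 1) (h2 : u' * v' = 1) (h : f u * e = d * g u') :
    f v * d = e * g v' := by
  have : f v * (f u * e) * g v' = f v * (d * g u') * g v' := by rw [h]
  rw [← mul_assoc (f v), ← map_mul, h1, map_one, one_mul, mul_assoc, mul_assoc, ← map_mul,
    h2, map_one, mul_one] at this
  exact this.symm

/-- right multiplication by compatible units changes the gluing data -/
theorem Md_iso {d d' : T F3 false} {e e' : T F3 true} {u1 v1 : T1} {u2 v2 : T2} {u3 v3 : T3}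
    {u4 v4 : T4} (h1 : u1 * v1 = 1) (h1' : v1 * u1 = 1) (h2 : u2 * v2 = 1) (h2' : v2 * u2 = 1)
    (h3 : u3 * v3 = 1) (h3' : v3 * u3 = 1) (h4 : u4 * v4 = 1) (h4' : v4 * u4 = 1)
    (c12 : a12 u1 = b12 u2) (c34 : a34 u3 = b34 u4) (c13 : a13 u1 * d' = d * b13 u3)
    (c24 : a24 u2 * e' = e * b24 u4) : Nonempty (Md d e ≃ₗ[Lam] Md d' e') := by
  have k12 : a12 v1 = b12 v2 := by
    have := inv_compat a12 b12 (d := 1) (e := 1) h1' h2 (by rw [mul_one, one_mul, c12])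
    rwa [mul_one, one_mul] at this
  have k34 : a34 v3 = b34 v4 := by
    have := inv_compat a34 b34 (d := 1) (e := 1) h3' h4 (by rw [mul_one, one_mul, c34])
    rwa [mul_one, one_mul] at this
  have k13 : a13 v1 * d = d' * b13 v3 := inv_compat a13 b13 h1' h3 c13
  have k24 : a24 v2 * e = e' * b24 v4 := inv_compat a24 b24 h2' h4 c24
  refine ⟨LinearEquiv.ofLinear (rmulM c12 c34 c13 c24) (rmulM k12 k34 k13 k24) ?_ ?_⟩
  · apply LinearMap.ext
    intro t
    apply Subtype.ext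
    rw [LinearMap.comp_apply, rmulM_coe, rmulM_coe]
    exact rmul_rmul h1' h2' h3' h4' t.1
  · apply LinearMap.ext
    intro t
    apply Subtype.ext
    rw [LinearMap.comp_apply, rmulM_coe, rmulM_coe]
    exact rmul_rmul h1 h2 h3 h4 t.1

end Vale.Agent.P246.Q24
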