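import Vale.Agent.P246.Q24.H3

/-!
# Block H: the order `ℤ[ω, i] ⊕ ℤ[ω, i] j`, determinants
-/

set_option linter.all false

namespace Vale.Agent.P246.Q24

namespace Zet

/-- totally non-negative elements `P + Q √3` -/
def TN (x : Qd ZW true) : Prop := ∃ P Q : ℤ, x = r3 P Q ∧ 0 ≤ P ∧ 3 * (Q * Q) ≤ P * P

theorem nrd_eq (x : Dbl (Qd ZW true) true) :
    Dbl.nrd x = r3 (pp x.fst + pp x.snd) (qq x.fst + qq x.snd) := by
  rw [← sum_conj]
  simp [Dbl.nrd]

theorem TN_nrd (x : Dbl (Qd ZW true) true) : TN (Dbl.nrd x) := by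
  refine ⟨_, _, nrd_eq x, add_nonneg (pp_nonneg _) (pp_nonneg _), ?_⟩
  have := tp_add (pp_nonneg x.fst) (pp_nonneg x.snd) (pp_qq x.fst) (pp_qq x.snd)
  linarith

theorem nrd_zero (x : Dbl (Qd ZW true) true) (h : Dbl.nrd x = 0) : x = 0 := by
  rw [nrd_eq] at h
  have h1 : r3 (pp x.fst + pp x.snd) (qq x.fst + qq x.snd) = r3 0 0 := by
    rw [h]; rfl
  have h2 := (r3_inj h1).1
  have h3 := pp_nonneg x.fst
  have h4 := pp_nonneg x.snd
  have key : ∀ z : Qd ZW true, pp z = 0 → z = 0 := by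
    intro z hz
    apply nn_eq_zero
    have h5 := nn_le z
    have h6 := nn_nonneg z
    rw [hz] at h5
    linarith
  ext : 1
  · exact key _ (by linarith)
  · exact key _ (by linarith)

theorem TN_mul {x y : Qd ZW true} (hx : TN x) (hy : TN y) : TN (x * y) := by
  obtain ⟨P, Q, rfl, h1, h2⟩ := hx
  obtain ⟨P', Q', rfl, h3, h4⟩ := hy
  refine ⟨_, _, r3_mul P Q P' Q', ?_, ?_⟩
  · have := tp_mul (q1 := -Q) h1 h3 (by linarith) h4
    linarith
  · have h5 : (P * P' + 3 * (Q * Q')) * (P * P' + 3 * (Q * Q')) -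
        3 * ((P * Q' + Q * P') * (P * Q' + Q * P')) =
        (P * P - 3 * (Q * Q)) * (P' * P' - 3 * (Q' * Q')) := by ring
    have h6 : 0 ≤ (P * P - 3 * (Q * Q)) * (P' * P' - 3 * (Q' * Q')) :=
      mul_nonneg (by linarith) (by linarith)
    linarith

/-- division -/
theorem TN_div {x y : Qd ZW true} (hx : TN x) (hx0 : x ≠ 0) (hy : ∃ P Q, y = r3 P Q)
    (hxy : TN (x * y)) : TN y := by
  obtain ⟨P, Q, rfl, h1, h2⟩ := hx
  obtain ⟨P', Q', rfl⟩ := hy
  have hn : 0 < P * P - 3 * (Q * Q) := by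
    have h3 := nn_pos hx0
    rw [nn_r3] at h3
    have h4 : 0 ≤ P * P - 3 * (Q * Q) := by linarith
    rcases h4.lt_or_eq with h5 | h5
    · exact h5
    · rw [← h5] at h3
      simp at h3
  -- multiply by the conjugate
  have h5 : TN (r3 P (-Q)) := ⟨P, -Q, rfl, h1, by linarith⟩
  have h6 := TN_mul h5 hxy
  have h7 : r3 P (-Q) * (r3 P Q * r3 P' Q') =
      r3 ((P * P - 3 * (Q * Q)) * P') ((P * P - 3 * (Q * Q)) * Q') := by
    rw [r3_mul, r3_mul]
    congr 1 <;> ring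
  rw [h7] at h6
  obtain ⟨A, B, h8, h9, h10⟩ := h6
  obtain ⟨rfl, rfl⟩ := r3_inj h8
  refine ⟨P', Q', rfl, ?_, ?_⟩
  · exact nonneg_of_mul_nonneg_right h9 hn
  · have h11 : (P * P - 3 * (Q * Q)) * (P * P - 3 * (Q * Q)) * (3 * (Q' * Q')) ≤
        (P * P - 3 * (Q * Q)) * (P * P - 3 * (Q * Q)) * (P' * P') := by linarith
    exact le_of_mul_le_mul_left h11 (mul_pos hn hn)

theorem Dt_TN (g : Matrix (Fin 2) (Fin 2) (Dbl (Qd ZW true) true)) : TN (Dt g) := by
  by_cases h : g 0 0 = 0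
  · rw [Dt_swap g h]
    exact TN_mul (TN_nrd _) (TN_nrd _)
  · have h0 := Dt_schur g
    have h1 : Dbl.nrd (g 0 0) ≠ 0 := fun h1 => h (nrd_zero _ h1)
    have h2 : Dbl.nrd (g 0 0) * Dbl.nrd (g 0 0) ≠ 0 := by
      intro h3
      have h4 := congrArg nn h3
      rw [nn_mul] at h4
      have h5 := nn_pos h1
      have h6 : nn (0 : Qd ZW true) = 0 := by decide
      rw [h6] at h4
      nlinarith
    apply TN_div (TN_mul (TN_nrd (g 0 0)) (TN_nrd (g 0 0))) h2 ⟨_, _, conj_fixed (conj_Dt g)⟩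
    rw [h0]
    exact TN_mul (TN_nrd _) (TN_nrd _)

theorem unit_of_small {P Q : ℤ} (h1 : 0 ≤ P) (h2 : 3 * (Q * Q) ≤ P * P)
    (h3 : (P * P - 3 * (Q * Q)) * (P * P - 3 * (Q * Q)) < 14) (h0 : P * P - 3 * (Q * Q) ≠ 0) :
    P * P - 3 * (Q * Q) = 1 := by
  have h4 : 0 ≤ P * P - 3 * (Q * Q) := by linarith
  have h5 : P * P - 3 * (Q * Q) < 4 := by
    by_contra hcon
    have h6 : 4 ≤ P * P - 3 * (Q * Q) := not_lt.1 hcon
    nlinarith
  have h6 : P * P - 3 * (Q * Q) ≠ 2 := by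
    intro h7
    have h8 : (P * P) % 3 = 2 := by omega
    have h9 : P % 3 = 0 ∨ P % 3 = 1 ∨ P % 3 = 2 := by omega
    rcases h9 with h | h | h <;> simp [Int.mul_emod, h] at h8
  have h7 : P * P - 3 * (Q * Q) ≠ 3 := by
    intro h7
    have h8 : (P * P) % 3 = 0 := by omega
    have h9 : P % 3 = 0 := by
      have h9 : P % 3 = 0 ∨ P % 3 = 1 ∨ P % 3 = 2 := by omega
      rcases h9 with h | h | h
      · exact h
      · simp [Int.mul_emod, h] at h8
      · simp [Int.mul_emod, h] at h8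
    obtain ⟨k, rfl⟩ : (3 : ℤ) ∣ P := Int.dvd_of_emod_eq_zero h9
    have h10 : 3 * (k * k) - Q * Q = 1 := by linarith
    have h11 : (Q * Q) % 3 = 2 := by omega
    have h12 : Q % 3 = 0 ∨ Q % 3 = 1 ∨ Q % 3 = 2 := by omega
    rcases h12 with h | h | h <;> simp [Int.mul_emod, h] at h11
  omega

theorem isUnit_r3 {P Q : ℤ} (h : P * P - 3 * (Q * Q) = 1) : IsUnit (r3 P Q) := by
  refine IsUnit.of_mul_eq_one (r3 P (-Q)) ?_
  rw [r3_mul]
  have h1 : P * P + 3 * (Q * -Q) = 1 := by linarith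
  have h2 : P * -Q + Q * P = 0 := by ring
  rw [h1, h2]
  rfl

theorem hQ (g : Matrix (Fin 2) (Fin 2) (Dbl (Qd ZW true) true)) (hN : nn (Dt g) < 14)
    (h0 : Dt g ≠ 0) : IsUnit (Dt g) := by
  obtain ⟨P, Q, h1, h2, h3⟩ := Dt_TN g
  rw [h1] at hN h0 ⊢
  have h4 := nn_pos h0
  rw [nn_r3] at hN h4
  apply isUnit_r3
  apply unit_of_small h2 h3 hN
  intro h5
  rw [h5] at h4
  simp at h4

/-- the arithmetic data -/
def data : QuatData (Qd ZW true) where
  N x := (nn x).natAbs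
  mul x y := by rw [nn_mul, Int.natAbs_mul]
  zero x := by
    rw [Int.natAbs_eq_zero]
    constructor
    · exact nn_eq_zero x
    · rintro rfl
      decide
  conj' x := by
    congr 1
    have h1 := mul_conj x
    have h2 := congrArg nn h1
    have h3 := congrArg conj h1
    rw [map_mul, Invo.conj_conj, mul_comm, h1] at h3
    rw [nn_eq, nn_eq]
    simp [pp, qq, nf]
    ring
  euclid α n hn := by
    obtain ⟨q, hq⟩ := euclid α n hn
    refine ⟨q, ?_⟩
    have h1 := nn_nonneg (α - q * n)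
    omega
  B := 14
  hP w hB hw := by
    obtain ⟨η, h1, h2⟩ := hP w (by have := nn_nonneg w; omega) hw
    refine ⟨η, h1, fun α => ?_⟩
    obtain ⟨q, h3⟩ := h2 α
    refine ⟨q, ?_⟩
    rw [← Int.natAbs_mul]
    have h4 := nn_nonneg ((α - q * w) * conj (α - q * w) + η * conj η)
    omega
  hQ g hN h0 := hQ g (by have := nn_nonneg (Dt g); omega) h0
  nz := nrd_zero

end Zet

theorem TR_T4 : TR T4 := Zet.data.TR

/-- the determinant of an invertible matrix over `T4` -/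
theorem Dt_T4 (g h : Matrix (Fin 2) (Fin 2) T4) (hgh : g * h = 1) :
    ∃ P Q : ℤ, Dt g = Zet.r3 P Q ∧ 0 < P ∧ P * P - 3 * (Q * Q) = 1 := by
  obtain ⟨P, Q, h1, h2, h3⟩ := Zet.Dt_TN g
  have h4 := congrArg Dt hgh
  rw [Dt_mul, Dt_one] at h4
  have h5 := congrArg Zet.nn h4
  have h6 : Zet.nn (1 : Qd ZW true) = 1 := by decide
  rw [Zet.nn_mul, h6, h1, Zet.nn_r3] at h5
  have h7 : P * P - 3 * (Q * Q) = 1 := by
    have h8 : (P * P - 3 * (Q * Q)) * ((P * P - 3 * (Q * Q)) * Zet.nn (Dt h)) = 1 := by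
      rw [← mul_assoc]; exact h5
    rcases Int.isUnit_iff.1 (IsUnit.of_mul_eq_one _ h8) with h9 | h9
    · exact h9
    · linarith
  refine ⟨P, Q, h1, ?_, h7⟩
  rcases h2.lt_or_eq with h8 | h8
  · exact h8
  · rw [← h8] at h7
    nlinarith [mul_self_nonneg Q]

theorem unit_mod3_aux : ∀ (k : ℕ) (P Q : ℤ), P.toNat ≤ k → 0 < P → 0 ≤ Q →
    P * P - 3 * (Q * Q) = 1 → (Q % 2 = 0 → P % 3 = 1) ∧ (Q % 2 = 1 → P % 3 = 2) := by
  intro k
  induction k with
  | zero => intro P Q h1 h2; omega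
  | succ k ih =>
    intro P Q h1 h2 h3 h
    rcases h3.lt_or_eq with h4 | h4
    · have h5 : P < 3 * Q := by nlinarith
      have h6 : 3 * Q < 2 * P := by nlinarith
      have h7 : P ≤ 2 * Q := by nlinarith
      have h8 := ih (2 * P - 3 * Q) (2 * Q - P) (by omega) (by linarith) (by linarith)
        (by linear_combination h)
      have h9 : (P + Q) % 2 = 1 := by
        have h10 : (P * P - 3 * (Q * Q)) % 2 = 1 := by rw [h]; rfl
        have h11 : P % 2 = 0 ∨ P % 2 = 1 := by omega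
        have h12 : Q % 2 = 0 ∨ Q % 2 = 1 := by omega
        rcases h11 with a | a <;> rcases h12 with b | b
        · simp [Int.sub_emod, Int.mul_emod, a, b] at h10
        · omega
        · omega
        · simp [Int.sub_emod, Int.mul_emod, a, b] at h10
      omega
    · rw [← h4] at h
      have h5 : P = 1 := by nlinarith
      omega

/-- even/odd dichotomy for totally positive units of `ℤ[√3]` -/
theorem unit_mod3 {P Q : ℤ} (hP : 0 < P) (h : P * P - 3 * (Q * Q) = 1) :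
    (Q % 2 = 0 → P % 3 = 1) ∧ (Q % 2 = 1 → P % 3 = 2) := by
  rcases le_total 0 Q with h1 | h1
  · exact unit_mod3_aux _ P Q le_rfl hP h1 h
  · have := unit_mod3_aux _ P (-Q) le_rfl hP (by linarith) (by linarith)
    omega

end Vale.Agent.P246.Q24
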