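import Vale.Agent.P246.Q24.G3
import Vale.Agent.P246.Q24.H2
import Vale.Agent.P246.Q24.H4
import Vale.Agent.P246.Q24.E5

/-!
# Block I: determinants and lifting of units
-/

set_option linter.all false

namespace Vale.Agent.P246.Q24

theorem det4' {R : Type} [CommRing R] (a b c d e f g h i j k l m n o p : R) :
    (!![a, b, e, f; c, d, g, h; i, j, m, n; k, l, o, p] : Matrix (Fin 4) (Fin 4) R).det =
    (a * d - b * c) * (m * p - n * o) - (a * g - e * c) * (j * p - n * l) +
    (a * h - f * c) * (j * o - m * l) + (b * g - e * d) * (i * p - n * k) -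
    (b * h - f * d) * (i * o - m * k) + (e * h - f * g) * (i * l - j * k) := by
  rw [Matrix.det_succ_row_zero]
  simp [Fin.sum_univ_succ, Matrix.det_fin_three, Matrix.submatrix_apply, Fin.succAbove]
  ring

theorem det4 {R : Type} [CommRing R] (a b c d e f g h i j k l m n o p : R) :
    (Matrix.fromBlocks !![a, b; c, d] !![e, f; g, h] !![i, j; k, l] !![m, n; o, p]).det =
    (a * d - b * c) * (m * p - n * o) - (a * g - e * c) * (j * p - n * l) +
    (a * h - f * c) * (j * o - m * l) + (b * g - e * d) * (i * p - n * k) -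
    (b * h - f * d) * (i * o - m * k) + (e * h - f * g) * (i * l - j * k) := by
  have h1 : Matrix.fromBlocks !![a, b; c, d] !![e, f; g, h] !![i, j; k, l] !![m, n; o, p] =
    (!![a, b, e, f; c, d, g, h; i, j, m, n; k, l, o, p] : Matrix (Fin 4) (Fin 4) R).submatrix
      (finSumFinEquiv : Fin 2 ⊕ Fin 2 ≃ Fin 4) (finSumFinEquiv : Fin 2 ⊕ Fin 2 ≃ Fin 4) := by
    apply Matrix.ext
    rintro (x | x) (y | y) <;> fin_cases x <;> fin_cases y <;> rfl
  rw [h1, Matrix.det_submatrix_equiv_self, det4']

/-- for trivial `conj` the determinant is the norm of the commutative determinant -/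
theorem Dt_comm {R : Type} [CommRing R] [Invo R] (hc : ∀ r : R, conj r = r)
    (g : Matrix (Fin 2) (Fin 2) (Dbl R false)) :
    Dt g = Dbl.nrd (g 0 0 * g 1 1 - g 0 1 * g 1 0) := by
  change (Matrix.fromBlocks !![_, _; _, _] !![_, _; _, _] !![_, _; _, _] !![_, _; _, _]).det = _
  rw [det4]
  simp [Dbl.nrd, hc]
  ring

theorem T1_conj (r : Qd ℤ false) : conj r = r := by
  ext <;> simp

theorem F3_conj (r : Qd F3 false) : conj r = r := by
  ext <;> simp

theorem T1_comm (x y : T1) : x * y = y * x := by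
  ext <;> simp <;> ring

/-- the completion of a unimodular column over `T1` -/
theorem cmp1 {a b c d : T1} (h : c * a + d * b = 1) :
    ∃ g k : Matrix (Fin 2) (Fin 2) T1, g * k = 1 ∧ k * g = 1 ∧ g 0 0 * a + g 0 1 * b = 1 ∧
      g 1 0 * a + g 1 1 * b = 0 ∧ Dt g = 1 ∧ g 1 0 = -b ∧ g 1 1 = a := by
  have hba : -b * a + a * b = 0 := by rw [T1_comm a b]; noncomm_ring
  have had : a * d = d * a := T1_comm _ _
  have hcb : c * b = b * c := T1_comm _ _
  have hca : c * a = a * c := T1_comm _ _
  have hdb : d * b = b * d := T1_comm _ _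
  refine ⟨!![c, d; -b, a], !![a, -d; b, c], ?_, ?_, ?_, ?_, ?_, rfl, rfl⟩
  · apply Matrix.ext
    intro i j
    fin_cases i <;> fin_cases j <;> simp [Matrix.mul_apply, Fin.sum_univ_two]
    · exact h
    · rw [T1_comm c d]; abel
    · rw [T1_comm b a]; abel
    · rw [← hdb, ← hca, add_comm]; exact h
  · apply Matrix.ext
    intro i j
    fin_cases i <;> fin_cases j <;> simp [Matrix.mul_apply, Fin.sum_univ_two]
    · rw [← hca]; exact h
    · rw [had]; abel
    · rw [← hcb]; abel
    · rw [← hdb, add_comm]; exact h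
  · simpa using h
  · simpa using hba
  · rw [Dt_comm T1_conj]
    have : (!![c, d; -b, a] : Matrix (Fin 2) (Fin 2) T1) 0 0 * !![c, d; -b, a] 1 1 -
        !![c, d; -b, a] 0 1 * !![c, d; -b, a] 1 0 = c * a + d * b := by
      simp
    rw [this, h]
    simp [Dbl.nrd]

/-- `𝔽_2[C_2²]` is commutative -/
theorem R2_comm : ∀ x y : T F2 false, x * y = y * x := by decide

end Vale.Agent.P246.Q24
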