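import Vale.Agent.P246.Q24.I2

/-!
# Block I: lifting units from `𝔽_4∘C_2 [C_2]` to `T3`
-/

set_option linter.all false

namespace Vale.Agent.P246.Q24

/-- units of `T3` which are `1` for `t = 1`, covering all such units mod `2` -/
def l16 : List (T3 × T3) :=
  [(⟨⟨⟨1, 0⟩, ⟨0, 0⟩⟩, ⟨⟨0, 0⟩, ⟨0, 0⟩⟩⟩, ⟨⟨⟨1, 0⟩, ⟨0, 0⟩⟩, ⟨⟨0, 0⟩, ⟨0, 0⟩⟩⟩),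
   (⟨⟨⟨0, -1⟩, ⟨1, 1⟩⟩, ⟨⟨1, 1⟩, ⟨-1, -1⟩⟩⟩, ⟨⟨⟨0, -1⟩, ⟨1, 1⟩⟩, ⟨⟨1, 1⟩, ⟨-1, -1⟩⟩⟩),
   (⟨⟨⟨2, 2⟩, ⟨-1, -2⟩⟩, ⟨⟨-1, 1⟩, ⟨1, -1⟩⟩⟩, ⟨⟨⟨0, -2⟩, ⟨1, 2⟩⟩, ⟨⟨1, -1⟩, ⟨-1, 1⟩⟩⟩),
   (⟨⟨⟨5, 3⟩, ⟨-4, -3⟩⟩, ⟨⟨-4, 0⟩, ⟨4, 0⟩⟩⟩, ⟨⟨⟨-1, 3⟩, ⟨2, -3⟩⟩, ⟨⟨-4, 0⟩, ⟨4, 0⟩⟩⟩),
   (⟨⟨⟨2, 2⟩, ⟨-1, -2⟩⟩, ⟨⟨2, 1⟩, ⟨-2, -1⟩⟩⟩, ⟨⟨⟨0, -2⟩, ⟨1, 2⟩⟩, ⟨⟨-2, -1⟩, ⟨2, 1⟩⟩⟩),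
   (⟨⟨⟨5, -3⟩, ⟨-4, 3⟩⟩, ⟨⟨-1, 6⟩, ⟨1, -6⟩⟩⟩, ⟨⟨⟨-7, -3⟩, ⟨8, 3⟩⟩, ⟨⟨-1, 6⟩, ⟨1, -6⟩⟩⟩),
   (⟨⟨⟨-9, -2⟩, ⟨10, 2⟩⟩, ⟨⟨-5, -10⟩, ⟨5, 10⟩⟩⟩, ⟨⟨⟨-7, 2⟩, ⟨8, -2⟩⟩, ⟨⟨5, 10⟩, ⟨-5, -10⟩⟩⟩),
   (⟨⟨⟨-14, 7⟩, ⟨15, -7⟩⟩, ⟨⟨0, -19⟩, ⟨0, 19⟩⟩⟩, ⟨⟨⟨22, 7⟩, ⟨-21, -7⟩⟩, ⟨⟨0, -19⟩, ⟨0, 19⟩⟩⟩),
   (⟨⟨⟨2, 2⟩, ⟨-1, -2⟩⟩, ⟨⟨-1, -2⟩, ⟨1, 2⟩⟩⟩, ⟨⟨⟨0, -2⟩, ⟨1, 2⟩⟩, ⟨⟨1, 2⟩, ⟨-1, -2⟩⟩⟩),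
   (⟨⟨⟨-1, -3⟩, ⟨2, 3⟩⟩, ⟨⟨2, 3⟩, ⟨-2, -3⟩⟩⟩, ⟨⟨⟨-1, -3⟩, ⟨2, 3⟩⟩, ⟨⟨2, 3⟩, ⟨-2, -3⟩⟩⟩),
   (⟨⟨⟨-3, 10⟩, ⟨4, -10⟩⟩, ⟨⟨-14, -7⟩, ⟨14, 7⟩⟩⟩, ⟨⟨⟨-13, -10⟩, ⟨14, 10⟩⟩, ⟨⟨14, 7⟩, ⟨-14, -7⟩⟩⟩),
   (⟨⟨⟨10, 31⟩, ⟨-9, -31⟩⟩, ⟨⟨-27, -28⟩, ⟨27, 28⟩⟩⟩, ⟨⟨⟨22, 31⟩, ⟨-21, -31⟩⟩, ⟨⟨-27, -28⟩, ⟨27, 28⟩⟩⟩),
   (⟨⟨⟨-9, -2⟩, ⟨10, 2⟩⟩, ⟨⟨-5, 5⟩, ⟨5, -5⟩⟩⟩, ⟨⟨⟨-7, 2⟩, ⟨8, -2⟩⟩, ⟨⟨5, -5⟩, ⟨-5, 5⟩⟩⟩),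
   (⟨⟨⟨16, 37⟩, ⟨-15, -37⟩⟩, ⟨⟨-30, -34⟩, ⟨30, 34⟩⟩⟩, ⟨⟨⟨22, 37⟩, ⟨-21, -37⟩⟩, ⟨⟨-30, -34⟩, ⟨30, 34⟩⟩⟩),
   (⟨⟨⟨10, -36⟩, ⟨-9, 36⟩⟩, ⟨⟨48, 24⟩, ⟨-48, -24⟩⟩⟩, ⟨⟨⟨46, 36⟩, ⟨-45, -36⟩⟩, ⟨⟨-48, -24⟩, ⟨48, 24⟩⟩⟩),
   (⟨⟨⟨-33, -103⟩, ⟨34, 103⟩⟩, ⟨⟨91, 91⟩, ⟨-91, -91⟩⟩⟩, ⟨⟨⟨-69, -103⟩, ⟨70, 103⟩⟩, ⟨⟨91, 91⟩, ⟨-91, -91⟩⟩⟩)]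

theorem l16_spec : ∀ p ∈ l16, p.1 * p.2 = 1 ∧ p.2 * p.1 = 1 := by decide

/-- `t ↦ 1` -/
def ev4 : Qd F4 false →+* F4 where
  toFun x := x.re + x.im
  map_one' := by simp
  map_zero' := by simp
  map_add' x y := by simp; ring
  map_mul' x y := by simp; ring

/-- `t ↦ 1` -/
def f4 : T F4 false →+* Dbl F4 false := Dbl.map ev4 (fun r => by simp [ev4])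

set_option maxRecDepth 100000 in
theorem l16_lift : ∀ η : T F4 false, f4 η = 1 → ∃ p ∈ l16, a34 p.1 = η := by decide

/-- `ℤ[ω] → ℤ[ω][t]` -/
def QC : ZW →+* Qd ZW false where
  toFun x := ⟨x, 0⟩
  map_one' := rfl
  map_zero' := rfl
  map_add' x y := by ext <;> simp
  map_mul' x y := by ext <;> simp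

/-- constants -/
def cst : Or →+* T3 := Dbl.map QC (fun r => by ext <;> simp [QC])

theorem f4_cst (u : Or) : f4 (a34 (cst u)) = o2 u := by
  apply Dbl.ext
  · change wF4 u.fst + wF4 0 = wF4 u.fst
    rw [map_zero, add_zero]
  · change wF4 u.snd + wF4 0 = wF4 u.snd
    rw [map_zero, add_zero]

/-- every unit lifts to `T3` -/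
theorem lift34 (δ δ' : T F4 false) (h : δ * δ' = 1) :
    ∃ ε ε' : T3, ε * ε' = 1 ∧ ε' * ε = 1 ∧ a34 ε = δ := by
  obtain ⟨p, hp, h2⟩ := orUnits_lift (f4 δ) (f4 δ') (by rw [← map_mul, h, map_one])
  obtain ⟨s1, s2⟩ := orUnits_spec p hp
  have h3 : f4 (δ * a34 (cst p.2)) = 1 := by
    rw [map_mul, f4_cst, ← h2, ← map_mul, s1, map_one]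
  obtain ⟨q, hq, h4⟩ := l16_lift _ h3
  obtain ⟨t1, t2⟩ := l16_spec q hq
  refine ⟨q.1 * cst p.1, cst p.2 * q.2, ?_, ?_, ?_⟩
  · rw [mul_assoc, ← mul_assoc (cst p.1), ← map_mul, s1, map_one, one_mul, t1]
  · rw [mul_assoc, ← mul_assoc q.2, t2, one_mul, ← map_mul, s2, map_one]
  · rw [map_mul, h4, mul_assoc, ← map_mul, ← map_mul, s2, map_one, map_one, mul_one]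

end Vale.Agent.P246.Q24
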