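import Vale.Agent.P246.Q24.I4

/-!
# Block I: stably free modules of rank one are glued modules
-/

set_option linter.all false

namespace Vale.Agent.P246.Q24

open Vale.Agent.P246

/-- the map `(x, y) ↦ x a + y b` -/
noncomputable def col (a b : Lam) : (Fin 2 → Lam) →ₗ[Lam] Lam where
  toFun v := v 0 * a + v 1 * b
  map_add' v w := by simp only [Pi.add_apply]; noncomm_ring
  map_smul' c v := by simp only [Pi.smul_apply, smul_eq_mul, RingHom.id_apply]; noncomm_ring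

/-- `v ↦ (π_i(v_0) r_i + π_i(v_1) s_i)_i` -/
noncomputable def toTM (r1 s1 : T1) (r2 s2 : T2) (r3 s3 : T3) (r4 s4 : T4) :
    (Fin 2 → Lam) →ₗ[Lam] TM where
  toFun v := (pi1 (v 0) * r1 + pi1 (v 1) * s1, pi2 (v 0) * r2 + pi2 (v 1) * s2,
    pi3 (v 0) * r3 + pi3 (v 1) * s3, pi4 (v 0) * r4 + pi4 (v 1) * s4)
  map_add' v w := by
    apply TM_ext
    · change pi1 (v 0 + w 0) * r1 + pi1 (v 1 + w 1) * s1 =
        (pi1 (v 0) * r1 + pi1 (v 1) * s1) + (pi1 (w 0) * r1 + pi1 (w 1) * s1)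
      rw [map_add, map_add]; noncomm_ring
    · change pi2 (v 0 + w 0) * r2 + pi2 (v 1 + w 1) * s2 =
        (pi2 (v 0) * r2 + pi2 (v 1) * s2) + (pi2 (w 0) * r2 + pi2 (w 1) * s2)
      rw [map_add, map_add]; noncomm_ring
    · change pi3 (v 0 + w 0) * r3 + pi3 (v 1 + w 1) * s3 =
        (pi3 (v 0) * r3 + pi3 (v 1) * s3) + (pi3 (w 0) * r3 + pi3 (w 1) * s3)
      rw [map_add, map_add]; noncomm_ring
    · change pi4 (v 0 + w 0) * r4 + pi4 (v 1 + w 1) * s4 =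
        (pi4 (v 0) * r4 + pi4 (v 1) * s4) + (pi4 (w 0) * r4 + pi4 (w 1) * s4)
      rw [map_add, map_add]; noncomm_ring
  map_smul' c v := by
    apply TM_ext
    · change pi1 (c * v 0) * r1 + pi1 (c * v 1) * s1 = pi1 c * (pi1 (v 0) * r1 + pi1 (v 1) * s1)
      rw [map_mul, map_mul]; noncomm_ring
    · change pi2 (c * v 0) * r2 + pi2 (c * v 1) * s2 = pi2 c * (pi2 (v 0) * r2 + pi2 (v 1) * s2)
      rw [map_mul, map_mul]; noncomm_ring
    · change pi3 (c * v 0) * r3 + pi3 (c * v 1) * s3 = pi3 c * (pi3 (v 0) * r3 + pi3 (v 1) * s3)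
      rw [map_mul, map_mul]; noncomm_ring
    · change pi4 (c * v 0) * r4 + pi4 (c * v 1) * s4 = pi4 c * (pi4 (v 0) * r4 + pi4 (v 1) * s4)
      rw [map_mul, map_mul]; noncomm_ring

/-- coefficients with respect to generators -/
theorem coef_unique {T : Type} [Ring T] {u v r s x y t : T} (hrs : u * r + v * s = 1)
    (hx : x = t * u) (hy : y = t * v) : x * r + y * s = t := by
  rw [hx, hy]
  calc t * u * r + t * v * s = t * (u * r + v * s) := by noncomm_ring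
    _ = t := by rw [hrs, mul_one]

theorem pi_inj' {x y : Lam} (h1 : pi1 x = pi1 y) (h2 : pi2 x = pi2 y) (h3 : pi3 x = pi3 y)
    (h4 : pi4 x = pi4 y) : x = y := by
  apply sub_eq_zero.1
  apply pi_inj
  rw [map_sub]
  apply sub_eq_zero.2
  exact TM_ext h1 h2 h3 h4

theorem right_cancel {T : Type} [Ring T] {u v x y : T} (hi : ∃ r s, u * r + v * s = 1)
    (h1 : x * u = y * u) (h2 : x * v = y * v) : x = y := by
  obtain ⟨r, s, h⟩ := hi
  calc x = x * (u * r + v * s) := by rw [h, mul_one]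
    _ = x * u * r + x * v * s := by noncomm_ring
    _ = y * u * r + y * v * s := by rw [h1, h2]
    _ = y * (u * r + v * s) := by noncomm_ring
    _ = y := by rw [h, mul_one]

theorem inv_im {T S : Type} [Ring T] [Ring S] (f : T →+* S) {u v : T}
    (hi : ∃ r s, u * r + v * s = 1) : ∃ r s, f u * r + f v * s = 1 := by
  obtain ⟨r, s, h⟩ := hi
  exact ⟨f r, f s, by rw [← map_mul, ← map_mul, ← map_add, h, map_one]⟩

theorem Loc.mem {a b : Lam} {u1 v1 : T1} {u2 v2 : T2} {u3 v3 : T3} {u4 v4 : T4} {d : T F3 false}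
    {e : T F3 true} (L : Loc a b u1 v1 u2 v2 u3 v3 u4 v4 d e) {x y : Lam} {t : TM}
    (h1 : pi1 x = t.1 * u1) (h1' : pi1 y = t.1 * v1) (h2 : pi2 x = t.2.1 * u2)
    (h2' : pi2 y = t.2.1 * v2) (h3 : pi3 x = t.2.2.1 * u3) (h3' : pi3 y = t.2.2.1 * v3)
    (h4 : pi4 x = t.2.2.2 * u4) (h4' : pi4 y = t.2.2.2 * v4) : t ∈ Md d e := by
  have e12 := pi_12 x
  have f12 := pi_12 y
  have e34 := pi_34 x
  have f34 := pi_34 y
  have e13 := pi_13 x
  have f13 := pi_13 y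
  have e24 := pi_24 x
  have f24 := pi_24 y
  rw [h1, h2, map_mul, map_mul, L.u12] at e12
  rw [h1', h2', map_mul, map_mul, L.v12] at f12
  rw [h3, h4, map_mul, map_mul, L.u34] at e34
  rw [h3', h4', map_mul, map_mul, L.v34] at f34
  rw [h1, h3, map_mul, map_mul, L.u13, ← mul_assoc] at e13
  rw [h1', h3', map_mul, map_mul, L.v13, ← mul_assoc] at f13
  rw [h2, h4, map_mul, map_mul, L.u24, ← mul_assoc] at e24
  rw [h2', h4', map_mul, map_mul, L.v24, ← mul_assoc] at f24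
  exact mem_Md.2 ⟨right_cancel (inv_im b12 L.k2.inv) e12 f12,
    right_cancel (inv_im b34 L.k4.inv) e34 f34, right_cancel (inv_im b13 L.k3.inv) e13 f13,
    right_cancel (inv_im b24 L.k4.inv) e24 f24⟩

theorem Loc.lift {a b : Lam} {u1 v1 : T1} {u2 v2 : T2} {u3 v3 : T3} {u4 v4 : T4} {d : T F3 false}
    {e : T F3 true} (L : Loc a b u1 v1 u2 v2 u3 v3 u4 v4 d e) {t : TM} (ht : t ∈ Md d e) :
    ∃ x y : Lam, pi1 x = t.1 * u1 ∧ pi1 y = t.1 * v1 ∧ pi2 x = t.2.1 * u2 ∧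
    pi2 y = t.2.1 * v2 ∧ pi3 x = t.2.2.1 * u3 ∧ pi3 y = t.2.2.1 * v3 ∧
    pi4 x = t.2.2.2 * u4 ∧ pi4 y = t.2.2.2 * v4 := by
  obtain ⟨m1, m2, m3, m4⟩ := mem_Md.1 ht
  obtain ⟨x, hx⟩ := pi_surj (t.1 * u1) (t.2.1 * u2) (t.2.2.1 * u3) (t.2.2.2 * u4)
    (by rw [map_mul, map_mul, m1, L.u12]) (by rw [map_mul, map_mul, m2, L.u34])
    (by rw [map_mul, map_mul, ← m3, L.u13, mul_assoc])
    (by rw [map_mul, map_mul, ← m4, L.u24, mul_assoc])
  obtain ⟨y, hy⟩ := pi_surj (t.1 * v1) (t.2.1 * v2) (t.2.2.1 * v3) (t.2.2.2 * v4)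
    (by rw [map_mul, map_mul, m1, L.v12]) (by rw [map_mul, map_mul, m2, L.v34])
    (by rw [map_mul, map_mul, ← m3, L.v13, mul_assoc])
    (by rw [map_mul, map_mul, ← m4, L.v24, mul_assoc])
  exact ⟨x, y, congrArg (fun z : T1 × T2 × T3 × T4 => z.1) hx,
    congrArg (fun z : T1 × T2 × T3 × T4 => z.1) hy,
    congrArg (fun z : T1 × T2 × T3 × T4 => z.2.1) hx,
    congrArg (fun z : T1 × T2 × T3 × T4 => z.2.1) hy,
    congrArg (fun z : T1 × T2 × T3 × T4 => z.2.2.1) hx,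
    congrArg (fun z : T1 × T2 × T3 × T4 => z.2.2.1) hy,
    congrArg (fun z : T1 × T2 × T3 × T4 => z.2.2.2) hx,
    congrArg (fun z : T1 × T2 × T3 × T4 => z.2.2.2) hy⟩

theorem Loc.equiv {a b : Lam} {u1 v1 : T1} {u2 v2 : T2} {u3 v3 : T3} {u4 v4 : T4} {d : T F3 false}
    {e : T F3 true} (L : Loc a b u1 v1 u2 v2 u3 v3 u4 v4 d e) :
    Nonempty (LinearMap.ker (col a b) ≃ₗ[Lam] Md d e) := by
  obtain ⟨r1, s1, i1⟩ := L.k1.inv
  obtain ⟨r2, s2, i2⟩ := L.k2.inv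
  obtain ⟨r3, s3, i3⟩ := L.k3.inv
  obtain ⟨r4, s4, i4⟩ := L.k4.inv
  have key : ∀ v : Fin 2 → Lam, v 0 * a + v 1 * b = 0 → ∀ t : TM, t = toTM r1 s1 r2 s2 r3 s3 r4 s4 v →
      pi1 (v 0) = t.1 * u1 ∧ pi1 (v 1) = t.1 * v1 ∧ pi2 (v 0) = t.2.1 * u2 ∧
      pi2 (v 1) = t.2.1 * v2 ∧ pi3 (v 0) = t.2.2.1 * u3 ∧ pi3 (v 1) = t.2.2.1 * v3 ∧
      pi4 (v 0) = t.2.2.2 * u4 ∧ pi4 (v 1) = t.2.2.2 * v4 := by
    intro v hv t ht
    obtain ⟨t1, x1, y1⟩ := L.k1.gen (pi1 (v 0)) (pi1 (v 1)) (by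
      rw [← map_mul, ← map_mul, ← map_add, hv, map_zero])
    obtain ⟨t2, x2, y2⟩ := L.k2.gen (pi2 (v 0)) (pi2 (v 1)) (by
      rw [← map_mul, ← map_mul, ← map_add, hv, map_zero])
    obtain ⟨t3, x3, y3⟩ := L.k3.gen (pi3 (v 0)) (pi3 (v 1)) (by
      rw [← map_mul, ← map_mul, ← map_add, hv, map_zero])
    obtain ⟨t4, x4, y4⟩ := L.k4.gen (pi4 (v 0)) (pi4 (v 1)) (by
      rw [← map_mul, ← map_mul, ← map_add, hv, map_zero])
    have z1 : t.1 = t1 := by rw [ht]; exact coef_unique i1 x1 y1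
    have z2 : t.2.1 = t2 := by rw [ht]; exact coef_unique i2 x2 y2
    have z3 : t.2.2.1 = t3 := by rw [ht]; exact coef_unique i3 x3 y3
    have z4 : t.2.2.2 = t4 := by rw [ht]; exact coef_unique i4 x4 y4
    rw [z1, z2, z3, z4]
    exact ⟨x1, y1, x2, y2, x3, y3, x4, y4⟩
  have hmem : ∀ v ∈ LinearMap.ker (col a b), toTM r1 s1 r2 s2 r3 s3 r4 s4 v ∈ Md d e := by
    intro v hv
    obtain ⟨x1, y1, x2, y2, x3, y3, x4, y4⟩ := key v hv _ rfl
    exact L.mem x1 y1 x2 y2 x3 y3 x4 y4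
  let f : LinearMap.ker (col a b) →ₗ[Lam] Md d e :=
    LinearMap.restrict (p := LinearMap.ker (col a b)) (q := Md d e)
      (toTM r1 s1 r2 s2 r3 s3 r4 s4) hmem
  have hf : ∀ v, (f v : TM) = toTM r1 s1 r2 s2 r3 s3 r4 s4 v.1 := fun v => rfl
  refine ⟨LinearEquiv.ofBijective f ⟨?_, ?_⟩⟩
  · rw [← LinearMap.ker_eq_bot, LinearMap.ker_eq_bot']
    rintro ⟨v, hv⟩ h0
    have h1 : toTM r1 s1 r2 s2 r3 s3 r4 s4 v = 0 := congrArg Subtype.val h0
    obtain ⟨x1, y1, x2, y2, x3, y3, x4, y4⟩ := key v hv 0 h1.symm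
    have e0 : v 0 = 0 := by
      apply pi_inj'
      · rw [map_zero]; exact x1.trans (zero_mul _)
      · rw [map_zero]; exact x2.trans (zero_mul _)
      · rw [map_zero]; exact x3.trans (zero_mul _)
      · rw [map_zero]; exact x4.trans (zero_mul _)
    have e1 : v 1 = 0 := by
      apply pi_inj'
      · rw [map_zero]; exact y1.trans (zero_mul _)
      · rw [map_zero]; exact y2.trans (zero_mul _)
      · rw [map_zero]; exact y3.trans (zero_mul _)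
      · rw [map_zero]; exact y4.trans (zero_mul _)
    apply Subtype.ext
    funext i
    fin_cases i
    · exact e0
    · exact e1
  · rintro ⟨t, ht⟩
    obtain ⟨x, y, x1, y1, x2, y2, x3, y3, x4, y4⟩ := L.lift ht
    have hker : ![x, y] ∈ LinearMap.ker (col a b) := by
      change x * a + y * b = 0
      apply pi_inj'
      · rw [map_add, map_mul, map_mul, x1, y1, mul_assoc, mul_assoc, ← mul_add, L.k1.ker,
          mul_zero, map_zero]
      · rw [map_add, map_mul, map_mul, x2, y2, mul_assoc, mul_assoc, ← mul_add, L.k2.ker,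
          mul_zero, map_zero]
      · rw [map_add, map_mul, map_mul, x3, y3, mul_assoc, mul_assoc, ← mul_add, L.k3.ker,
          mul_zero, map_zero]
      · rw [map_add, map_mul, map_mul, x4, y4, mul_assoc, mul_assoc, ← mul_add, L.k4.ker,
          mul_zero, map_zero]
    refine ⟨⟨![x, y], hker⟩, ?_⟩
    apply Subtype.ext
    rw [hf]
    exact TM_ext (coef_unique i1 x1 y1) (coef_unique i2 x2 y2) (coef_unique i3 x3 y3)
      (coef_unique i4 x4 y4)

/-- Block I2 -/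
theorem to_Md {Q : Type} [AddCommGroup Q] [Module Lam Q]
    (e : (Q × Lam) ≃ₗ[Lam] (Fin 2 → Lam)) :
    ∃ (d : T F3 false) (d' : T F3 true) (ν : F3), ν * ν = 1 ∧ np d = ν ∧
      Dbl.nrd d' = ⟨ν, 0⟩ ∧ Nonempty (Q ≃ₗ[Lam] Md d d') := by
  let a : Lam := (e.symm (Pi.single 0 1)).2
  let b : Lam := (e.symm (Pi.single 1 1)).2
  have hp : ∀ v : Fin 2 → Lam, (e.symm v).2 = v 0 * a + v 1 * b := by
    intro v
    have h1 : v = v 0 • (Pi.single 0 1 : Fin 2 → Lam) + v 1 • (Pi.single 1 1 : Fin 2 → Lam) := by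
      funext i
      fin_cases i <;> simp
    conv_lhs => rw [h1]
    rw [map_add, map_smul, map_smul]
    rfl
  have h1 : (e (0, 1)) 0 * a + (e (0, 1)) 1 * b = 1 := by
    rw [← hp, LinearEquiv.symm_apply_apply]
  obtain ⟨u1, v1, u2, v2, u3, v3, u4, v4, D, E, L, ν, n1, n2, n3⟩ := exists_loc h1
  obtain ⟨f⟩ := L.equiv
  refine ⟨D, E, ν, n1, n2, n3, ⟨?_⟩⟩
  -- `Q ≃ ker`
  let g : Q →ₗ[Lam] LinearMap.ker (col a b) :=
    LinearMap.codRestrict (LinearMap.ker (col a b)) (e.toLinearMap ∘ₗ LinearMap.inl Lam Q Lam) (by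
      intro q
      change (e (q, 0)) 0 * a + (e (q, 0)) 1 * b = 0
      rw [← hp, LinearEquiv.symm_apply_apply])
  refine LinearEquiv.trans (LinearEquiv.ofBijective g ⟨?_, ?_⟩) f
  · rw [← LinearMap.ker_eq_bot, LinearMap.ker_eq_bot']
    intro q hq
    have h2 : e (q, 0) = 0 := congrArg Subtype.val hq
    rw [LinearEquiv.map_eq_zero_iff] at h2
    exact congrArg Prod.fst h2
  · rintro ⟨v, hv⟩
    refine ⟨(e.symm v).1, ?_⟩
    apply Subtype.ext
    change e ((e.symm v).1, 0) = v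
    have h2 : (e.symm v).2 = 0 := by rw [hp]; exact hv
    rw [← h2, Prod.mk.eta, LinearEquiv.apply_symm_apply]

end Vale.Agent.P246.Q24
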