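import Vale.Agent.P246.Q24.I6
import Vale.Agent.P246.Q24.B3

/-!
# Block J: modules attached to presentations on the standard generators
-/

set_option linter.all false

namespace Vale.Agent.P246.Q24

open Vale.Agent.P246 QuaternionGroup

/-- a presentation on the standard generators with two relators -/
def mkP (r : Fin 2 → FreeGroup (Fin 2))
    (h : (FreeGroup.lift (gensQ 6)).ker = Subgroup.normalClosure (Set.range r)) :
    FinPresentation Q24 where
  gens := 2
  rels := 2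
  x := gensQ 6
  r := r
  surj := gensQ_surj 6
  ker_eq := h

/-- the second boundary map of the standard presentation -/
noncomputable def bd : (Fin 2 → Lam) →ₗ[Lam] (Fin 2 → Lam) := foxD2 (P0n 6)

/-- the second boundary map of `mkP` -/
noncomputable def bdP (r : Fin 2 → FreeGroup (Fin 2))
    (h : (FreeGroup.lift (gensQ 6)).ker = Subgroup.normalClosure (Set.range r)) :
    (Fin 2 → Lam) →ₗ[Lam] (Fin 2 → Lam) := foxD2 (mkP r h)

theorem bd_kap (l : Lam) : bd (l • ![X - 1, X - Y]) = 0 := by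
  have h : foxD2 resoQ.P (l • resoQ.kap) = 0 := by
    rw [map_smul, resoQ.dk, smul_zero]
  exact h

theorem bd_apply (v : Fin 2 → Lam) :
    bd v = ![v 0 * Nx 6 + v 1 * (Y + X'), -(v 0 * (Y + 1)) + v 1 * (1 - X')] :=
  foxD2_P0n 6 v

theorem bdP_apply (r : Fin 2 → FreeGroup (Fin 2))
    (h : (FreeGroup.lift (gensQ 6)).ker = Subgroup.normalClosure (Set.range r)) (t : Fin 2 → Lam) :
    bdP r h t = t 0 • fox (gensQ 6) (r 0) + t 1 • fox (gensQ 6) (r 1) := by
  have h1 : bdP r h t = Fintype.linearCombination Lam (fun j : Fin 2 => fox (gensQ 6) (r j)) t :=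
    rfl
  rw [h1, Fintype.linearCombination_apply, Fin.sum_univ_two]

/-- the map with rows `(1, γ)` and `(α, β)` -/
noncomputable def phi2 (α β γ : Lam) : (Fin 2 → Lam) →ₗ[Lam] (Fin 2 → Lam) where
  toFun t := ![t 0 + t 1 * α, t 0 * γ + t 1 * β]
  map_add' s t := by
    funext i
    fin_cases i
    · change (s 0 + t 0) + (s 1 + t 1) * α = (s 0 + s 1 * α) + (t 0 + t 1 * α)
      noncomm_ring
    · change (s 0 + t 0) * γ + (s 1 + t 1) * β = (s 0 * γ + s 1 * β) + (t 0 * γ + t 1 * β)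
      noncomm_ring
  map_smul' c t := by
    funext i
    fin_cases i
    · change c * t 0 + c * t 1 * α = c * (t 0 + t 1 * α)
      noncomm_ring
    · change c * t 0 * γ + c * t 1 * β = c * (t 0 * γ + t 1 * β)
      noncomm_ring

theorem bd_phi2 (r : Fin 2 → FreeGroup (Fin 2))
    (h : (FreeGroup.lift (gensQ 6)).ker = Subgroup.normalClosure (Set.range r)) (α β γ : Lam)
    (h0 : fox (gensQ 6) (r 0) = bd ![1, γ])
    (h1 : fox (gensQ 6) (r 1) = bd ![α, β]) (t : Fin 2 → Lam) :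
    bd (phi2 α β γ t) = bdP r h t := by
  rw [bdP_apply, h0, h1, ← map_smul, ← map_smul, ← map_add]
  congr 1
  funext i
  fin_cases i
  · change t 0 + t 1 * α = t 0 * 1 + t 1 * α
    rw [mul_one]
  · rfl

/-- the chain map on relators -/
noncomputable def phiP (r : Fin 2 → FreeGroup (Fin 2))
    (h : (FreeGroup.lift (gensQ 6)).ker = Subgroup.normalClosure (Set.range r)) (α β γ : Lam) :
    (Fin (mkP r h).rels → Lam) →ₗ[Lam] (Fin resoQ.P.rels → Lam) := phi2 α β γ

theorem mem_QPm (r : Fin 2 → FreeGroup (Fin 2))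
    (h : (FreeGroup.lift (gensQ 6)).ker = Subgroup.normalClosure (Set.range r)) (α β γ : Lam)
    (t : Fin 2 → Lam) (l : Lam) : (t, l) ∈ QP resoQ (mkP r h) (phiP r h α β γ) ↔
      bdP r h t = 0 ∧ phi2 α β γ t = l • ![X - 1, X - Y] := Iff.rfl

/-- the forgetful map -/
noncomputable def forg : ((Fin 2 → Lam) × Lam) →ₗ[Lam] (Fin 2 → Lam) where
  toFun := fun v => ![v.1 1, v.2]
  map_add' := fun v w => by
    funext i
    fin_cases i <;> rfl
  map_smul' := fun c v => by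
    funext i
    fin_cases i <;> rfl

theorem phi2_key (α β γ : Lam) (t : Fin 2 → Lam) (l : Lam)
    (h3 : phi2 α β γ t = l • ![X - 1, X - Y]) :
    t 1 * (β - α * γ) + l * ((X - 1) * γ - (X - Y)) = 0 := by
  have e0 : t 0 + t 1 * α = l * (X - 1) := congrFun h3 0
  have e1 : t 0 * γ + t 1 * β = l * (X - Y) := congrFun h3 1
  have : t 1 * (β - α * γ) + l * ((X - 1) * γ - (X - Y)) =
    (t 0 * γ + t 1 * β) - l * (X - Y) - (t 0 + t 1 * α - l * (X - 1)) * γ := by noncomm_ring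
  rw [this, e0, e1]
  simp

theorem phi2_inj (α β γ : Lam) (t : Fin 2 → Lam) (l : Lam)
    (h3 : phi2 α β γ t = l • ![X - 1, X - Y]) (h5 : forg (t, l) = 0) : t = 0 ∧ l = 0 := by
  have e0 : t 0 + t 1 * α = l * (X - 1) := congrFun h3 0
  have f0 : t 1 = 0 := congrFun h5 0
  have f1 : l = 0 := congrFun h5 1
  rw [f1, f0, zero_mul, zero_mul, add_zero] at e0
  refine ⟨?_, f1⟩
  funext i
  fin_cases i
  · exact e0
  · exact f0

/-- the module attached to the presentation -/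
theorem QP_ker (r : Fin 2 → FreeGroup (Fin 2))
    (h : (FreeGroup.lift (gensQ 6)).ker = Subgroup.normalClosure (Set.range r)) (α β γ : Lam)
    (h0 : fox (gensQ 6) (r 0) = bd ![1, γ])
    (h1 : fox (gensQ 6) (r 1) = bd ![α, β]) :
    Nonempty (QP resoQ (mkP r h) (phiP r h α β γ) ≃ₗ[Lam]
      LinearMap.ker (col (β - α * γ) ((X - 1) * γ - (X - Y)))) := by
  have key : ∀ v ∈ QP resoQ (mkP r h) (phiP r h α β γ), forg v ∈
      LinearMap.ker (col (β - α * γ) ((X - 1) * γ - (X - Y))) := by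
    rintro ⟨t, l⟩ h2
    obtain ⟨-, h3⟩ := (mem_QPm r h α β γ t l).1 h2
    exact phi2_key α β γ t l h3
  let f : QP resoQ (mkP r h) (phiP r h α β γ) →ₗ[Lam]
      LinearMap.ker (col (β - α * γ) ((X - 1) * γ - (X - Y))) := LinearMap.restrict forg key
  refine ⟨LinearEquiv.ofBijective f ⟨?_, ?_⟩⟩
  · rw [← LinearMap.ker_eq_bot, LinearMap.ker_eq_bot']
    rintro ⟨⟨t, l⟩, h2⟩ h4
    obtain ⟨-, h3⟩ := (mem_QPm r h α β γ t l).1 h2
    have h5 : forg (t, l) = 0 := congrArg Subtype.val h4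
    obtain ⟨e1, e2⟩ := phi2_inj α β γ t l h3 h5
    apply Subtype.ext
    exact Prod.ext e1 e2
  · rintro ⟨v, hv⟩
    have hv' : v 0 * (β - α * γ) + v 1 * ((X - 1) * γ - (X - Y)) = 0 := hv
    have e1 : phi2 α β γ ![v 1 * (X - 1) - v 0 * α, v 0] = v 1 • ![X - 1, X - Y] := by
      funext i
      fin_cases i
      · change v 1 * (X - 1) - v 0 * α + v 0 * α = v 1 * (X - 1)
        rw [sub_add_cancel]
      · change (v 1 * (X - 1) - v 0 * α) * γ + v 0 * β = v 1 * (X - Y)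
        have : (v 1 * (X - 1) - v 0 * α) * γ + v 0 * β =
          v 0 * (β - α * γ) + v 1 * ((X - 1) * γ - (X - Y)) + v 1 * (X - Y) := by noncomm_ring
        rw [this, hv', zero_add]
    have e2 : bdP r h ![v 1 * (X - 1) - v 0 * α, v 0] = 0 := by
      rw [← bd_phi2 r h α β γ h0 h1, e1, bd_kap]
    refine ⟨⟨(![v 1 * (X - 1) - v 0 * α, v 0], v 1),
      (mem_QPm r h α β γ ![v 1 * (X - 1) - v 0 * α, v 0] (v 1)).2 ⟨e2, e1⟩⟩, ?_⟩
    apply Subtype.ext
    change ![v 0, v 1] = v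
    funext i
    fin_cases i <;> rfl

/-- realization from an isomorphism of the kernel -/
theorem realize_of (r : Fin 2 → FreeGroup (Fin 2))
    (h : (FreeGroup.lift (gensQ 6)).ker = Subgroup.normalClosure (Set.range r)) (α β γ : Lam)
    (h0 : fox (gensQ 6) (r 0) = bd ![1, γ])
    (h1 : fox (gensQ 6) (r 1) = bd ![α, β]) {e : T F3 true}
    (he : Nonempty (LinearMap.ker (col (β - α * γ) ((X - 1) * γ - (X - Y))) ≃ₗ[Lam] Md 1 e)) :
    ∃ (P : FinPresentation Q24)
    (φ : (Fin P.rels → Lam) →ₗ[Lam] (Fin resoQ.P.rels → Lam))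
    (φ1 : (Fin P.gens → Lam) →ₗ[Lam] (Fin resoQ.P.gens → Lam)),
    (∀ u, foxD1 resoQ.P (φ1 u) = foxD1 P u) ∧ (∀ t, foxD2 resoQ.P (φ t) = φ1 (foxD2 P t)) ∧
    Nonempty (QP resoQ P φ ≃ₗ[Lam] Md 1 e) := by
  obtain ⟨f⟩ := QP_ker r h α β γ h0 h1
  obtain ⟨f'⟩ := he
  exact ⟨mkP r h, phiP r h α β γ, LinearMap.id, fun u => rfl,
    fun t => bd_phi2 r h α β γ h0 h1 t, ⟨f.trans f'⟩⟩

end Vale.Agent.P246.Q24
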