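import Vale.Agent.P246.Q24.J1

/-!
# Block J: Fox derivatives of the relators
-/

set_option linter.all false

namespace Vale.Agent.P246.Q24

open Vale.Agent.P246 QuaternionGroup

/-- `y⁻¹` -/
noncomputable def Y' : Lam := elt (gensQ 6 1)⁻¹

theorem X'_eq : X' = X ^ 11 := by
  rw [X_pow, a_one_pow]
  rfl

theorem Y'_eq : Y' = Y * X ^ 6 := by
  rw [X_pow, a_one_pow, Y, elt_mul, xa_mul_a]
  rfl

theorem Xinv_eq : elt (gensQ 6 0)⁻¹ = X' := rfl

theorem Nx_eq : Nx 6 = 1 + X + X ^ 2 + X ^ 3 + X ^ 4 + X ^ 5 := by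
  rw [Nx]
  simp only [Finset.sum_range_succ, Finset.sum_range_zero, X_pow, a_one_pow]
  rw [zero_add]
  have h0 : elt (a ((0 : ℕ) : ZMod (2 * 6)) : Q24) = (1 : Lam) := by
    rw [Nat.cast_zero, a_zero, elt_one]
  have h1 : elt (a ((1 : ℕ) : ZMod (2 * 6)) : Q24) = X := by
    rw [Nat.cast_one]
    rfl
  rw [h0, h1]

theorem pi1_X' : pi1 X' = ⟨⟨0, 1⟩, ⟨0, 0⟩⟩ := by rw [X'_eq, map_pow, pi1_X]; decide +kernel
theorem pi2_X' : pi2 X' = ⟨⟨0, 1⟩, ⟨0, 0⟩⟩ := by rw [X'_eq, map_pow, pi2_X]; decide +kernel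
theorem pi3_X' : pi3 X' = ⟨⟨0, ⟨-1, -1⟩⟩, ⟨0, 0⟩⟩ := by rw [X'_eq, map_pow, pi3_X]; decide +kernel
theorem pi4_X' : pi4 X' = ⟨⟨0, ⟨-1, -1⟩⟩, ⟨0, 0⟩⟩ := by rw [X'_eq, map_pow, pi4_X]; decide +kernel
theorem pi1_Y' : pi1 Y' = ⟨⟨0, 0⟩, ⟨1, 0⟩⟩ := by rw [Y'_eq, map_mul, map_pow, pi1_X, pi1_Y]; decide +kernel
theorem pi2_Y' : pi2 Y' = ⟨⟨0, 0⟩, ⟨-1, 0⟩⟩ := by rw [Y'_eq, map_mul, map_pow, pi2_X, pi2_Y]; decide +kernel
theorem pi3_Y' : pi3 Y' = ⟨⟨0, 0⟩, ⟨1, 0⟩⟩ := by rw [Y'_eq, map_mul, map_pow, pi3_X, pi3_Y]; decide +kernel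
theorem pi4_Y' : pi4 Y' = ⟨⟨0, 0⟩, ⟨-1, 0⟩⟩ := by rw [Y'_eq, map_mul, map_pow, pi4_X, pi4_Y]; decide +kernel

/-- the word `Y x y x x Y X X y X X X` -/
def w1 : List (Fin 2 × Bool) :=
  [(1, false), (0, true), (1, true), (0, true), (0, true), (1, false), (0, false), (0, false),
   (1, true), (0, false), (0, false), (0, false)]

/-- the word `x x x x x x Y X Y X` -/
def w2 : List (Fin 2 × Bool) :=
  [(0, true), (0, true), (0, true), (0, true), (0, true), (0, true), (1, false), (0, false),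
   (1, false), (0, false)]

/-- coefficients -/
noncomputable def al : Lam := X ^ 6 - X ^ 5 + X ^ 7 - X ^ 9
/-- coefficients -/
noncomputable def be : Lam := X ^ 6 - X ^ 9 - X ^ 8

theorem fw_nil (i : Fin 2) : foxWord (gensQ 6) [] i = 0 := rfl
theorem fw_0t (w : List (Fin 2 × Bool)) (i : Fin 2) : foxWord (gensQ 6) ((0, true) :: w) i =
    (Pi.single 0 1 : Fin 2 → Lam) i + X * foxWord (gensQ 6) w i := by
  rw [foxWord_true]; rfl
theorem fw_1t (w : List (Fin 2 × Bool)) (i : Fin 2) : foxWord (gensQ 6) ((1, true) :: w) i =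
    (Pi.single 1 1 : Fin 2 → Lam) i + Y * foxWord (gensQ 6) w i := by
  rw [foxWord_true]; rfl
theorem fw_0f (w : List (Fin 2 × Bool)) (i : Fin 2) : foxWord (gensQ 6) ((0, false) :: w) i =
    X' * (foxWord (gensQ 6) w i - (Pi.single 0 1 : Fin 2 → Lam) i) := by
  rw [foxWord_false]; rfl
theorem fw_1f (w : List (Fin 2 × Bool)) (i : Fin 2) : foxWord (gensQ 6) ((1, false) :: w) i =
    Y' * (foxWord (gensQ 6) w i - (Pi.single 1 1 : Fin 2 → Lam) i) := by
  rw [foxWord_false]; rfl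

theorem s00 : (Pi.single 0 1 : Fin 2 → Lam) 0 = 1 := rfl
theorem s01 : (Pi.single 0 1 : Fin 2 → Lam) 1 = 0 := rfl
theorem s10 : (Pi.single 1 1 : Fin 2 → Lam) 0 = 0 := rfl
theorem s11 : (Pi.single 1 1 : Fin 2 → Lam) 1 = 1 := rfl

theorem fox_w1_0 : foxWord (gensQ 6) w1 0 = al * Nx 6 + be * (Y + X') := by
  rw [w1, Nx_eq, al, be]
  simp only [fw_nil, fw_0t, fw_0f, fw_1t, fw_1f, s00, s10]
  apply pi_inj'
  · simp only [map_add, map_sub, map_mul, map_pow, map_one, map_zero, pi1_X, pi1_Y, pi1_X', pi1_Y']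
    decide +kernel
  · simp only [map_add, map_sub, map_mul, map_pow, map_one, map_zero, pi2_X, pi2_Y, pi2_X', pi2_Y']
    decide +kernel
  · simp only [map_add, map_sub, map_mul, map_pow, map_one, map_zero, pi3_X, pi3_Y, pi3_X', pi3_Y']
    decide +kernel
  · simp only [map_add, map_sub, map_mul, map_pow, map_one, map_zero, pi4_X, pi4_Y, pi4_X', pi4_Y']
    decide +kernel

theorem fox_w1_1 : foxWord (gensQ 6) w1 1 = -(al * (Y + 1)) + be * (1 - X') := by
  rw [w1, al, be]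
  simp only [fw_nil, fw_0t, fw_0f, fw_1t, fw_1f, s01, s11]
  apply pi_inj'
  · simp only [map_add, map_sub, map_neg, map_mul, map_pow, map_one, map_zero, pi1_X, pi1_Y, pi1_X', pi1_Y']
    decide +kernel
  · simp only [map_add, map_sub, map_neg, map_mul, map_pow, map_one, map_zero, pi2_X, pi2_Y, pi2_X', pi2_Y']
    decide +kernel
  · simp only [map_add, map_sub, map_neg, map_mul, map_pow, map_one, map_zero, pi3_X, pi3_Y, pi3_X', pi3_Y']
    decide +kernel
  · simp only [map_add, map_sub, map_neg, map_mul, map_pow, map_one, map_zero, pi4_X, pi4_Y, pi4_X', pi4_Y']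
    decide +kernel

theorem fox_w2_0 : foxWord (gensQ 6) w2 0 = 1 * Nx 6 + -X * (Y + X') := by
  rw [w2, Nx_eq]
  simp only [fw_nil, fw_0t, fw_0f, fw_1t, fw_1f, s00, s10]
  apply pi_inj'
  · simp only [map_add, map_sub, map_neg, map_mul, map_pow, map_one, map_zero, pi1_X, pi1_Y, pi1_X', pi1_Y']
    decide +kernel
  · simp only [map_add, map_sub, map_neg, map_mul, map_pow, map_one, map_zero, pi2_X, pi2_Y, pi2_X', pi2_Y']
    decide +kernel
  · simp only [map_add, map_sub, map_neg, map_mul, map_pow, map_one, map_zero, pi3_X, pi3_Y, pi3_X', pi3_Y']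
    decide +kernel
  · simp only [map_add, map_sub, map_neg, map_mul, map_pow, map_one, map_zero, pi4_X, pi4_Y, pi4_X', pi4_Y']
    decide +kernel

theorem fox_w2_1 : foxWord (gensQ 6) w2 1 = -(1 * (Y + 1)) + -X * (1 - X') := by
  rw [w2]
  simp only [fw_nil, fw_0t, fw_0f, fw_1t, fw_1f, s01, s11]
  apply pi_inj'
  · simp only [map_add, map_sub, map_neg, map_mul, map_pow, map_one, map_zero, pi1_X, pi1_Y, pi1_X', pi1_Y']
    decide +kernel
  · simp only [map_add, map_sub, map_neg, map_mul, map_pow, map_one, map_zero, pi2_X, pi2_Y, pi2_X', pi2_Y']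
    decide +kernel
  · simp only [map_add, map_sub, map_neg, map_mul, map_pow, map_one, map_zero, pi3_X, pi3_Y, pi3_X', pi3_Y']
    decide +kernel
  · simp only [map_add, map_sub, map_neg, map_mul, map_pow, map_one, map_zero, pi4_X, pi4_Y, pi4_X', pi4_Y']
    decide +kernel

/-- the relators of the second presentation -/
def rels1 : Fin 2 → FreeGroup (Fin 2) := ![relsQ 6 0, FreeGroup.mk w1]

/-- the relators of the third presentation -/
def rels2 : Fin 2 → FreeGroup (Fin 2) := ![FreeGroup.mk w2, FreeGroup.mk w1]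

theorem fox_0 : fox (gensQ 6) (relsQ 6 0) = bd ![1, 0] := by
  rw [fox_r0, bd_apply]
  funext i
  fin_cases i
  · change Nx 6 = 1 * Nx 6 + 0 * (Y + X')
    rw [one_mul, zero_mul, add_zero]
  · change -(Yn 6 + 1) = -(1 * (Y + 1)) + 0 * (1 - X')
    rw [one_mul, zero_mul, add_zero]
    rfl

theorem fox_1 : fox (gensQ 6) (relsQ 6 1) = bd ![0, 1] := by
  rw [fox_r1, bd_apply]
  funext i
  fin_cases i
  · change Yn 6 + Xn' 6 = 0 * Nx 6 + 1 * (Y + X')
    rw [one_mul, zero_mul, zero_add]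
    rfl
  · change 1 - Xn' 6 = -(0 * (Y + 1)) + 1 * (1 - X')
    rw [one_mul, zero_mul, neg_zero, zero_add]
    rfl

theorem fox_w1 : fox (gensQ 6) (FreeGroup.mk w1) = bd ![al, be] := by
  rw [fox_mk, bd_apply]
  funext i
  fin_cases i
  · exact fox_w1_0
  · exact fox_w1_1

theorem fox_w2 : fox (gensQ 6) (FreeGroup.mk w2) = bd ![1, -X] := by
  rw [fox_mk, bd_apply]
  funext i
  fin_cases i
  · exact fox_w2_0
  · exact fox_w2_1

end Vale.Agent.P246.Q24
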