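import Vale.Agent.P246.Q24.J2

/-!
# Block J: the relators present the group
-/

set_option linter.all false

namespace Vale.Agent.P246.Q24

open Vale.Agent.P246 QuaternionGroup

theorem pres_ker {m : ℕ} (r : Fin m → FreeGroup (Fin 2))
    (h1 : ∀ j, FreeGroup.lift (gensQ 6) (r j) = 1)
    (h2 : ∀ (H : Type) [Group H] (q : FreeGroup (Fin 2) →* H), (∀ j, q (r j) = 1) →
      q (FreeGroup.of 1) * q (FreeGroup.of 1) = q (FreeGroup.of 0) ^ 6 ∧
      q (FreeGroup.of 0) * q (FreeGroup.of 1) * q (FreeGroup.of 0) = q (FreeGroup.of 1)) :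
    (FreeGroup.lift (gensQ 6)).ker = Subgroup.normalClosure (Set.range r) := by
  apply le_antisymm
  · let q := QuotientGroup.mk' (Subgroup.normalClosure (Set.range r))
    have hq : ∀ j, q (r j) = 1 := by
      intro j
      rw [← MonoidHom.mem_ker, QuotientGroup.ker_mk']
      exact Subgroup.subset_normalClosure ⟨j, rfl⟩
    obtain ⟨e1, e2⟩ := h2 _ q hq
    set x := q (FreeGroup.of 0)
    set y := q (FreeGroup.of 1)
    have e3 : x ^ (2 * 6) = 1 := by
      have h3 : x ^ 6 * y * x ^ 6 = y := pw_mid e2 6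
      have h4 : x ^ 6 * y = y * x ^ 6 := by rw [← e1]; group
      rw [h4, mul_assoc, ← pow_add] at h3
      exact mul_eq_left.1 h3
    let ψ : Q24 →* _ := quatHom x y e3 e1 e2
    have hψ : ψ.comp (FreeGroup.lift (gensQ 6)) = q := by
      apply FreeGroup.ext_hom
      intro i
      fin_cases i
      · simp only [MonoidHom.comp_apply, FreeGroup.lift_apply_of]
        change x ^ 1 = _
        rw [pow_one]
        rfl
      · simp only [MonoidHom.comp_apply, FreeGroup.lift_apply_of]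
        change y * x ^ 0 = _
        rw [pow_zero, mul_one]
        rfl
    intro w hw
    rw [MonoidHom.mem_ker] at hw
    have h5 : q w = 1 := by rw [← hψ, MonoidHom.comp_apply, hw, map_one]
    rwa [← MonoidHom.mem_ker, QuotientGroup.ker_mk'] at h5
  · apply Subgroup.normalClosure_le_normal
    rintro _ ⟨j, rfl⟩
    exact h1 j

theorem rel_aux {H : Type} [Group H] (x y : H) (h0 : y * y = x ^ 6)
    (h1 : y⁻¹ * x * y * x * x * y⁻¹ * x⁻¹ * x⁻¹ * y * x⁻¹ * x⁻¹ * x⁻¹ = 1) :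
    y⁻¹ * x * y = x⁻¹ := by
  have hc : x * (y * y) = (y * y) * x := by rw [h0, ← pow_succ, ← pow_succ']
  obtain ⟨a, ha⟩ : ∃ a, a = y⁻¹ * x * y := ⟨_, rfl⟩
  have hc1 : y⁻¹ * a * y = x := by
    rw [ha]
    calc y⁻¹ * (y⁻¹ * x * y) * y = (y * y)⁻¹ * (x * (y * y)) := by group
      _ = x := by rw [hc, inv_mul_cancel_left]
  have h2 : a * x * x = x * x * x * a * a := by
    have h3 : y⁻¹ * x * y * x * x * y⁻¹ * x⁻¹ * x⁻¹ * y * x⁻¹ * x⁻¹ * x⁻¹ =
      (a * x * x) * a⁻¹ * a⁻¹ * (x⁻¹ * x⁻¹ * x⁻¹) := by rw [ha]; group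
    rw [h3] at h1
    have h4 : (a * x * x) = (a * x * x) * a⁻¹ * a⁻¹ * (x⁻¹ * x⁻¹ * x⁻¹) * (x * x * x * a * a) := by
      group
    rw [h1, one_mul] at h4
    exact h4
  have h5 : x * a * a = a * a * a * x * x := by
    calc x * a * a = (y⁻¹ * a * y) * (y⁻¹ * x * y) * (y⁻¹ * x * y) := by rw [hc1, ← ha]
      _ = y⁻¹ * (a * x * x) * y := by group
      _ = y⁻¹ * (x * x * x * a * a) * y := by rw [h2]
      _ = (y⁻¹ * x * y) * (y⁻¹ * x * y) * (y⁻¹ * x * y) * (y⁻¹ * a * y) * (y⁻¹ * a * y) := by group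
      _ = a * a * a * x * x := by rw [hc1, ← ha]
  -- `a² = x⁻³ a x²`, so `x⁻² a x² = a³ x²` and `a² = x⁻²`
  have h6 : a * a = x⁻¹ * x⁻¹ * x⁻¹ * a * x * x := by
    calc a * a = x⁻¹ * x⁻¹ * x⁻¹ * (x * x * x * a * a) := by group
      _ = x⁻¹ * x⁻¹ * x⁻¹ * (a * x * x) := by rw [h2]
      _ = _ := by group
  have h7 : a * a * a = x⁻¹ * x⁻¹ * a := by
    calc a * a * a = (a * a * a * x * x) * x⁻¹ * x⁻¹ := by group
      _ = (x * (a * a)) * x⁻¹ * x⁻¹ := by rw [← h5, mul_assoc x a a]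
      _ = (x * (x⁻¹ * x⁻¹ * x⁻¹ * a * x * x)) * x⁻¹ * x⁻¹ := by rw [← h6]
      _ = _ := by group
  have h8 : a * a = x⁻¹ * x⁻¹ := mul_right_cancel h7
  have h9 : a = x⁻¹ := by
    calc a = (a * x * x) * x⁻¹ * x⁻¹ := by group
      _ = (x * x * x * (a * a)) * x⁻¹ * x⁻¹ := by rw [h2, mul_assoc _ a a]
      _ = x⁻¹ := by rw [h8]; group
  rw [← ha, h9]

theorem xyx_of {H : Type} [Group H] {x y : H} (h : y⁻¹ * x * y = x⁻¹) : x * y * x = y := by
  calc x * y * x = y * (y⁻¹ * x * y) * x := by group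
    _ = y := by rw [h]; group

theorem ker_0 : (FreeGroup.lift (gensQ 6)).ker = Subgroup.normalClosure (Set.range (relsQ 6)) :=
  gensQ_ker 6

theorem mk_w1 : (FreeGroup.mk w1 : FreeGroup (Fin 2)) =
    (FreeGroup.of 1)⁻¹ * FreeGroup.of 0 * FreeGroup.of 1 * FreeGroup.of 0 * FreeGroup.of 0 *
    (FreeGroup.of 1)⁻¹ * (FreeGroup.of 0)⁻¹ * (FreeGroup.of 0)⁻¹ * FreeGroup.of 1 *
    (FreeGroup.of 0)⁻¹ * (FreeGroup.of 0)⁻¹ * (FreeGroup.of 0)⁻¹ := rfl

theorem mk_w2 : (FreeGroup.mk w2 : FreeGroup (Fin 2)) =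
    FreeGroup.of 0 * FreeGroup.of 0 * FreeGroup.of 0 * FreeGroup.of 0 * FreeGroup.of 0 *
    FreeGroup.of 0 * (FreeGroup.of 1)⁻¹ * (FreeGroup.of 0)⁻¹ * (FreeGroup.of 1)⁻¹ *
    (FreeGroup.of 0)⁻¹ := rfl

theorem lift_w1 : FreeGroup.lift (gensQ 6) (FreeGroup.mk w1) = 1 := by
  rw [FreeGroup.lift_mk]
  decide

theorem lift_w2 : FreeGroup.lift (gensQ 6) (FreeGroup.mk w2) = 1 := by
  rw [FreeGroup.lift_mk]
  decide

theorem ker_1 : (FreeGroup.lift (gensQ 6)).ker = Subgroup.normalClosure (Set.range rels1) := by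
  apply pres_ker
  · intro j
    fin_cases j
    · change FreeGroup.lift (gensQ 6) (relsQ 6 0) = 1
      rw [← MonoidHom.mem_ker, gensQ_ker]
      exact Subgroup.subset_normalClosure ⟨0, rfl⟩
    · exact lift_w1
  · intro H _ q hq
    have h0 : q (relsQ 6 0) = 1 := hq 0
    have h1 : q (FreeGroup.mk w1) = 1 := hq 1
    have e0 : relsQ 6 0 = FreeGroup.of 0 ^ 6 * (FreeGroup.of 1)⁻¹ ^ 2 := rfl
    rw [e0, map_mul, map_pow, map_pow, map_inv] at h0
    rw [mk_w1] at h1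
    simp only [map_mul, map_inv] at h1
    have h2 : q (FreeGroup.of 1) * q (FreeGroup.of 1) = q (FreeGroup.of 0) ^ 6 := by
      have h := mul_eq_one_iff_eq_inv.1 h0
      rw [h, inv_pow, inv_inv, sq]
    exact ⟨h2, xyx_of (rel_aux _ _ h2 h1)⟩

theorem ker_2 : (FreeGroup.lift (gensQ 6)).ker = Subgroup.normalClosure (Set.range rels2) := by
  apply pres_ker
  · intro j
    fin_cases j
    · exact lift_w2
    · exact lift_w1
  · intro H _ q hq
    have h0 : q (FreeGroup.mk w2) = 1 := hq 0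
    have h1 : q (FreeGroup.mk w1) = 1 := hq 1
    rw [mk_w2] at h0
    rw [mk_w1] at h1
    simp only [map_mul, map_inv] at h0 h1
    generalize q (FreeGroup.of 0) = x at *
    generalize q (FreeGroup.of 1) = y at *
    have e1 : (x * y) * (x * y) = x ^ 6 := by
      calc (x * y) * (x * y) =
          x * x * x * x * x * x * y⁻¹ * x⁻¹ * y⁻¹ * x⁻¹ * ((x * y) * (x * y)) := by
            rw [h0, one_mul]
        _ = x ^ 6 := by
            simp only [pow_succ, pow_zero, one_mul]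
            group
    have e2 : (x * y)⁻¹ * x * (x * y) * x * x * (x * y)⁻¹ * x⁻¹ * x⁻¹ * (x * y) * x⁻¹ * x⁻¹ * x⁻¹
        = 1 := by
      rw [← h1]
      group
    have e3 := rel_aux x (x * y) e1 e2
    have e4 : y⁻¹ * x * y = x⁻¹ := by
      rw [← e3]
      group
    refine ⟨?_, xyx_of e4⟩
    calc y * y = x⁻¹ * ((x * y) * (x * y)) * (y⁻¹ * x * y)⁻¹ := by group
      _ = x ^ 6 := by
        rw [e1, e4]
        group

end Vale.Agent.P246.Q24
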