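import Vale.Agent.P246.Q24.J4
import Vale.Agent.P246.Q24.C7

/-!
# The algebraic `D(2)` property of the generalized quaternion group of order `24`
-/

set_option linter.all false

namespace Vale.Agent.P246.Q24

open Vale.Agent.P246 CategoryTheory

theorem main : AlgebraicD2Property Q24 := by
  intro C hC
  rcases hc_main resoQ C hC.data with ⟨s, h⟩ | ⟨Q, _, _, ⟨e⟩, h⟩
  · exact ⟨_, h⟩
  · obtain ⟨d, d', ν, hν, h1, h2, ⟨f⟩⟩ := to_Md e
    obtain ⟨k, ⟨f'⟩⟩ := Md_finite d d' ν hν h1 h2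
    obtain ⟨P, φ, φ1, c1, c2, ⟨f''⟩⟩ := realize k
    exact ⟨P, h P φ φ1 c1 c2 ⟨f''.trans ((f.trans f').symm)⟩⟩

end Vale.Agent.P246.Q24
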